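import Vale.Agent.P268.MathlibUsed
import Vale.Agent.P268.Defs

set_option linter.all false

section

section

/-!
Winding numbers of nonvanishing loops, via continuous logarithms.
-/

namespace Vale.Agent.P268

open Complex Set Topology Filter

/-- `u` is (the lift to `ℝ` of) a nonvanishing loop in `ℂ` with winding number `n`. -/
def HasWind (u : ℝ → ℂ) (n : ℤ) : Prop :=
  ∃ ψ : ℝ → ℂ, Continuous ψ ∧ (∀ θ, u θ = exp (ψ θ)) ∧
    ∀ θ, ψ (θ + 2 * Real.pi) = ψ θ + n * (2 * Real.pi * I)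

theorem two_pi_I_ne : (2 * Real.pi * I : ℂ) ≠ 0 := Complex.two_pi_I_ne_zero

/-- Two continuous logarithms of the same function on a preconnected set differ by a constant
integer multiple of `2πi`. -/
theorem log_unique_on {X : Type*} [TopologicalSpace X] {S : Set X} (hS : IsPreconnected S)
    {a b : X → ℂ} (ha : ContinuousOn a S) (hb : ContinuousOn b S)
    (h : ∀ x ∈ S, exp (a x) = exp (b x)) :
    ∃ k : ℤ, ∀ x ∈ S, a x = b x + k * (2 * Real.pi * I) := by
  classical
  rcases S.eq_empty_or_nonempty with rfl | ⟨x₀, hx₀⟩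
  · exact ⟨0, by simp⟩
  obtain ⟨k, hk⟩ := (Complex.exp_eq_exp_iff_exists_int).1 (h x₀ hx₀)
  refine ⟨k, ?_⟩
  have : PreconnectedSpace S := Subtype.preconnectedSpace hS
  have key := Complex.isCoveringMap_exp.eq_of_comp_eq
    (g₁ := fun x : S => a x) (g₂ := fun x : S => b x + k * (2 * Real.pi * I))
    (continuousOn_iff_continuous_domRestrict.1 ha)
    ((continuousOn_iff_continuous_domRestrict.1 hb).add continuous_const)
    (by
      funext x
      apply Subtype.ext
      simp only [Function.comp]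
      rw [h x x.2, Complex.exp_add, Complex.exp_int_mul_two_pi_mul_I, mul_one])
    ⟨x₀, hx₀⟩ (by simpa using hk)
  intro x hx
  exact congrFun key ⟨x, hx⟩

theorem log_unique {X : Type*} [TopologicalSpace X] [PreconnectedSpace X]
    {a b : X → ℂ} (ha : Continuous a) (hb : Continuous b)
    (h : ∀ x, exp (a x) = exp (b x)) :
    ∃ k : ℤ, ∀ x, a x = b x + k * (2 * Real.pi * I) := by
  obtain ⟨k, hk⟩ := log_unique_on (S := univ) isPreconnected_univ ha.continuousOn hb.continuousOn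
    (fun x _ => h x)
  exact ⟨k, fun x => hk x (mem_univ x)⟩

theorem HasWind.ne_zero {u : ℝ → ℂ} {n : ℤ} (h : HasWind u n) (θ : ℝ) : u θ ≠ 0 := by
  obtain ⟨ψ, -, h2, -⟩ := h
  rw [h2]; exact exp_ne_zero _

theorem HasWind.periodic {u : ℝ → ℂ} {n : ℤ} (h : HasWind u n) (θ : ℝ) :
    u (θ + 2 * Real.pi) = u θ := by
  obtain ⟨ψ, -, h2, h3⟩ := h
  rw [h2, h2, h3, Complex.exp_add, Complex.exp_int_mul_two_pi_mul_I, mul_one]

theorem HasWind.continuous {u : ℝ → ℂ} {n : ℤ} (h : HasWind u n) : Continuous u := by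
  obtain ⟨ψ, h1, h2, h3⟩ := h
  have : u = fun θ => exp (ψ θ) := funext h2
  rw [this]; fun_prop

theorem HasWind.unique {u : ℝ → ℂ} {m n : ℤ} (hm : HasWind u m) (hn : HasWind u n) : m = n := by
  obtain ⟨a, ha1, ha2, ha3⟩ := hm
  obtain ⟨b, hb1, hb2, hb3⟩ := hn
  obtain ⟨k, hk⟩ := log_unique ha1 hb1 (fun θ => by rw [← ha2, ← hb2])
  have h0 := ha3 0
  rw [hk, hk 0, hb3] at h0
  have h1 : (n : ℂ) * (2 * Real.pi * I) = m * (2 * Real.pi * I) := by
    linear_combination h0
  have h2 := mul_right_cancel₀ two_pi_I_ne h1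
  exact_mod_cast h2.symm

theorem HasWind.congr {u v : ℝ → ℂ} {n : ℤ} (hu : HasWind u n) (h : ∀ θ, u θ = v θ) :
    HasWind v n := by
  have : u = v := funext h
  rwa [← this]

theorem HasWind.mul {u v : ℝ → ℂ} {m n : ℤ} (hu : HasWind u m) (hv : HasWind v n) :
    HasWind (fun θ => u θ * v θ) (m + n) := by
  obtain ⟨a, ha1, ha2, ha3⟩ := hu
  obtain ⟨b, hb1, hb2, hb3⟩ := hv
  refine ⟨fun θ => a θ + b θ, ha1.add hb1, fun θ => ?_, fun θ => ?_⟩
  · simp only [ha2, hb2, Complex.exp_add]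
  · simp only [ha3, hb3]; push_cast; ring

theorem HasWind.zpow {u : ℝ → ℂ} {m : ℤ} (hu : HasWind u m) (k : ℤ) :
    HasWind (fun θ => (u θ) ^ k) (k * m) := by
  obtain ⟨a, ha1, ha2, ha3⟩ := hu
  refine ⟨fun θ => k * a θ, continuous_const.mul ha1, fun θ => ?_, fun θ => ?_⟩
  · simp only [ha2, Complex.exp_int_mul]
  · simp only [ha3]; push_cast; ring

theorem HasWind.pow {u : ℝ → ℂ} {m : ℤ} (hu : HasWind u m) (k : ℕ) :
    HasWind (fun θ => (u θ) ^ k) (k * m) := by
  simpa using hu.zpow (k : ℤ)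

theorem hasWind_exp {a : ℝ → ℂ} (ha : Continuous a) (hp : ∀ θ, a (θ + 2 * Real.pi) = a θ) :
    HasWind (fun θ => exp (a θ)) 0 :=
  ⟨a, ha, fun _ => rfl, fun θ => by simp [hp]⟩

theorem hasWind_const {c : ℂ} (hc : c ≠ 0) : HasWind (fun _ => c) 0 := by
  refine (hasWind_exp (a := fun _ => Complex.log c) continuous_const (fun _ => rfl)).congr ?_
  intro θ; exact Complex.exp_log hc

theorem hasWind_exp_I : HasWind (fun θ => exp (θ * I)) 1 :=
  ⟨fun θ => θ * I, by fun_prop, fun _ => rfl, fun θ => by push_cast; ring⟩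

theorem hasWind_circleMap {R : ℝ} (hR : R ≠ 0) : HasWind (fun θ => circleMap 0 R θ) 1 := by
  have := (hasWind_const (c := (R : ℂ)) (by exact_mod_cast hR)).mul hasWind_exp_I
  refine (this.congr ?_)
  intro θ; simp [circleMap]

/-- Rouché: two loops closer to each other than to `0` have the same winding number. -/
theorem HasWind.of_close {u v : ℝ → ℂ} {n : ℤ} (hu : HasWind u n) (hv : Continuous v)
    (hvp : ∀ θ, v (θ + 2 * Real.pi) = v θ) (h : ∀ θ, ‖v θ - u θ‖ < ‖u θ‖) : HasWind v n := by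
  have hne : ∀ θ, u θ ≠ 0 := hu.ne_zero
  have hre : ∀ θ, 0 < (v θ / u θ).re := by
    intro θ
    have h1 : ‖v θ / u θ - 1‖ < 1 := by
      have : v θ / u θ - 1 = (v θ - u θ) / u θ := by
        rw [sub_div, div_self (hne θ)]
      rw [this, norm_div, div_lt_one (norm_pos_iff.2 (hne θ))]
      exact h θ
    have h2 := Complex.abs_re_le_norm (v θ / u θ - 1)
    have h3 : |(v θ / u θ).re - 1| < 1 := by
      have : (v θ / u θ - 1).re = (v θ / u θ).re - 1 := by simp
      rw [← this]; exact lt_of_le_of_lt h2 h1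
    rw [abs_lt] at h3
    linarith [h3.1]
  have hc : Continuous (fun θ => v θ / u θ) := hv.div hu.continuous hne
  have hlog : HasWind (fun θ => v θ / u θ) 0 := by
    refine (hasWind_exp (a := fun θ => Complex.log (v θ / u θ)) ?_ ?_).congr ?_
    · rw [continuous_iff_continuousAt]
      intro θ
      exact hc.continuousAt.clog (Or.inl (hre θ))
    · intro θ; simp only [hvp, hu.periodic]
    · intro θ
      have : v θ / u θ ≠ 0 := by
        intro h0; have := hre θ; rw [h0] at this; simp at this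
      exact Complex.exp_log this
  have := hlog.mul hu
  simp only [zero_add] at this
  exact this.congr (fun θ => div_mul_cancel₀ _ (hne θ))

/-- Every continuous nonvanishing periodic function has a winding number. -/
theorem exists_hasWind {u : ℝ → ℂ} (hu : Continuous u) (hp : ∀ θ, u (θ + 2 * Real.pi) = u θ)
    (h0 : ∀ θ, u θ ≠ 0) : ∃ n, HasWind u n := by
  have hs : IsSimplyConnected (univ : Set ℝ) := by
    have : ContractibleSpace (univ : Set ℝ) := convex_univ.contractibleSpace ⟨0, mem_univ _⟩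
    exact (inferInstance : SimplyConnectedSpace (univ : Set ℝ))
  obtain ⟨ψ, h1, h2⟩ := Complex.exists_continuousOn_eqOn_exp_comp hs isOpen_univ
    hu.continuousOn (by rintro ⟨x, -, hx⟩; exact h0 x hx)
  rw [continuousOn_univ] at h1
  have h2' : ∀ θ, u θ = exp (ψ θ) := fun θ => (h2 (mem_univ θ)).symm
  obtain ⟨k, hk⟩ := log_unique (a := fun θ => ψ (θ + 2 * Real.pi)) (b := ψ)
    (h1.comp (by fun_prop)) h1 (fun θ => by rw [← h2', ← h2', hp])
  exact ⟨k, ψ, h1, h2', hk⟩

/-- Homotopy invariance over an arbitrary preconnected parameter set. -/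
theorem HasWind.homotopy {P : Type*} [TopologicalSpace P] {S : Set P} (hS : IsPreconnected S)
    {H : P → ℝ → ℂ} (hc : ContinuousOn (fun x : P × ℝ => H x.1 x.2) (S ×ˢ univ))
    (hp : ∀ s ∈ S, ∀ θ, H s (θ + 2 * Real.pi) = H s θ)
    (h0 : ∀ s ∈ S, ∀ θ, H s θ ≠ 0) {s t : P} (hs : s ∈ S) (ht : t ∈ S) {n : ℤ}
    (hn : HasWind (H s) n) : HasWind (H t) n := by
  classical
  have hcs : ∀ s ∈ S, Continuous (H s) := by
    intro s hs
    have : ContinuousOn (fun θ : ℝ => H s θ) univ :=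
      hc.comp (f := fun θ : ℝ => (s, θ)) (by fun_prop) (fun θ _ => ⟨hs, mem_univ _⟩)
    rwa [continuousOn_univ] at this
  -- the winding number as a function on S
  have hex : ∀ s : S, ∃ n, HasWind (H s) n := fun s =>
    exists_hasWind (hcs s s.2) (hp s s.2) (h0 s s.2)
  choose w hw using hex
  have hloc : IsLocallyConstant w := by
    rw [IsLocallyConstant.iff_eventually_eq]
    intro s₀
    -- tube lemma
    have hcont : Continuous (fun x : S × ℝ => ‖H x.1 x.2 - H s₀ x.2‖ - ‖H s₀ x.2‖) := by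
      have h1 : Continuous (fun x : S × ℝ => H x.1 x.2) := by
        rw [← continuousOn_univ]
        exact hc.comp (f := fun x : S × ℝ => ((x.1 : P), x.2)) (by fun_prop)
          (fun x _ => ⟨x.1.2, mem_univ _⟩)
      have h2 : Continuous (fun x : S × ℝ => H s₀ x.2) := (hcs s₀ s₀.2).comp continuous_snd
      exact ((h1.sub h2).norm).sub h2.norm
    have hK : IsCompact (Icc (0:ℝ) (2 * Real.pi)) := isCompact_Icc
    have hev : ∀ᶠ s : S in 𝓝 s₀, ∀ θ ∈ Icc (0:ℝ) (2 * Real.pi),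
        ‖H s θ - H s₀ θ‖ - ‖H s₀ θ‖ < 0 := by
      apply hK.eventually_forall_of_forall_eventually
      intro θ _
      have h6 : ‖H s₀ θ - H s₀ θ‖ - ‖H s₀ θ‖ < 0 := by
        simp [h0 s₀ s₀.2 θ]
      exact (hcont.continuousAt (x := (s₀, θ))).eventually_lt continuousAt_const h6
    filter_upwards [hev] with s hs
    have : HasWind (H s) (w s₀) := by
      refine (hw s₀).of_close (hcs s s.2) (hp s s.2) ?_
      intro θ
      obtain ⟨y, hy, hy2⟩ := (show Function.Periodic (fun θ => ‖H s θ - H s₀ θ‖ - ‖H s₀ θ‖)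
        (2 * Real.pi) from fun θ => by simp only [hp s s.2, hp s₀ s₀.2]).exists_mem_Ico₀
          Real.two_pi_pos θ
      have h3 := hs y ⟨hy.1, hy.2.le⟩
      rw [← hy2] at h3
      linarith
    exact (hw s).unique this
  have : PreconnectedSpace S := Subtype.preconnectedSpace hS
  have h4 : w ⟨t, ht⟩ = w ⟨s, hs⟩ := hloc.apply_eq_of_preconnectedSpace _ _
  have h5 : w ⟨s, hs⟩ = n := (hw ⟨s, hs⟩).unique hn
  rw [← h5, ← h4]
  exact hw ⟨t, ht⟩

/-- A continuous nonvanishing function on a closed disc has winding number `0` on the boundary. -/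
theorem hasWind_disc {u : ℂ → ℂ} {c : ℂ} {R : ℝ} (hR : 0 ≤ R)
    (hu : ContinuousOn u (Metric.closedBall c R)) (h0 : ∀ z ∈ Metric.closedBall c R, u z ≠ 0) :
    HasWind (fun θ => u (circleMap c R θ)) 0 := by
  have hmem : ∀ s ∈ Icc (0:ℝ) R, ∀ θ, circleMap c s θ ∈ Metric.closedBall c R := by
    intro s hs θ
    exact Metric.closedBall_subset_closedBall hs.2 (circleMap_mem_closedBall c hs.1 θ)
  refine HasWind.homotopy (S := Icc (0:ℝ) R) isPreconnected_Icc
    (H := fun s θ => u (circleMap c s θ)) ?_ ?_ ?_ (s := 0) (t := R) ⟨le_rfl, hR⟩ ⟨hR, le_rfl⟩ ?_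
  · refine hu.comp (f := fun x : ℝ × ℝ => circleMap c x.1 x.2) ?_ ?_
    · unfold circleMap; fun_prop
    · rintro ⟨s, θ⟩ ⟨hs, -⟩; exact hmem s hs θ
  · intro s _ θ; simp only [periodic_circleMap c s θ]
  · intro s hs θ; exact h0 _ (hmem s hs θ)
  · have : u c ≠ 0 := h0 c (Metric.mem_closedBall_self hR)
    simpa using hasWind_const this

end Vale.Agent.P268
end
end

section

section

/-!
Continuous logarithms on a punctured disc times a convex set.
-/

namespace Vale.Agent.P268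

open Complex Set Topology Filter

theorem isSimplyConnected_of_convex {X : Type*} [NormedAddCommGroup X] [NormedSpace ℝ X]
    {S : Set X} (hc : Convex ℝ S) (hn : S.Nonempty) : IsSimplyConnected S := by
  have : ContractibleSpace S := hc.contractibleSpace hn
  exact (inferInstance : SimplyConnectedSpace S)

theorem product_log {K : Type*} [NormedAddCommGroup K] [NormedSpace ℝ K] {δ : ℝ} (hδ : 0 < δ)
    {B : Set K} (hBo : IsOpen B) (hBc : Convex ℝ B) (hBn : B.Nonempty) {u : ℂ × K → ℂ}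
    (hu : ContinuousOn u ({z : ℂ | z ≠ 0 ∧ ‖z‖ < δ} ×ˢ B))
    (h0 : ∀ x ∈ ({z : ℂ | z ≠ 0 ∧ ‖z‖ < δ} ×ˢ B), u x ≠ 0) :
    ∃ n : ℤ, ∃ ψ : ℂ × K → ℂ, ContinuousOn ψ ({z : ℂ | z ≠ 0 ∧ ‖z‖ < δ} ×ˢ B) ∧
      ∀ x ∈ ({z : ℂ | z ≠ 0 ∧ ‖z‖ < δ} ×ˢ B), u x = x.1 ^ n * exp (ψ x) := by
  set D : Set ℂ := {z : ℂ | z ≠ 0 ∧ ‖z‖ < δ} with hD
  set H : Set ℂ := {s : ℂ | s.re < Real.log δ} with hH
  have hHo : IsOpen H := isOpen_lt Complex.continuous_re continuous_const
  have hHc : Convex ℝ H := convex_halfSpace_re_lt _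
  have hHn : H.Nonempty := ⟨((Real.log δ - 1 : ℝ) : ℂ), by simp [hH]⟩
  have hTo : IsOpen (H ×ˢ B) := hHo.prod hBo
  have hTc : Convex ℝ (H ×ˢ B) := hHc.prod hBc
  have hTn : (H ×ˢ B).Nonempty := hHn.prod hBn
  have hexpD : ∀ s ∈ H, exp s ∈ D := by
    intro s hs
    refine ⟨exp_ne_zero _, ?_⟩
    rw [Complex.norm_exp]
    calc Real.exp s.re < Real.exp (Real.log δ) := Real.exp_lt_exp.2 hs
      _ = δ := Real.exp_log hδ
  have hlogH : ∀ z ∈ D, Complex.log z ∈ H := by
    intro z hz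
    simp only [hH, Set.mem_ofPred_eq, Complex.log_re]
    exact Real.log_lt_log (norm_pos_iff.2 hz.1) hz.2
  obtain ⟨Ξ, hΞ1, hΞ2⟩ := Complex.exists_continuousOn_eqOn_exp_comp
    (isSimplyConnected_of_convex hTc hTn) hTo (g := fun x : ℂ × K => u (exp x.1, x.2))
    (hu.comp (f := fun x : ℂ × K => (exp x.1, x.2)) (by fun_prop)
      (fun x hx => ⟨hexpD _ hx.1, hx.2⟩))
    (by rintro ⟨x, hx, hx2⟩; exact h0 (exp x.1, x.2) ⟨hexpD _ hx.1, hx.2⟩ hx2)
  have hΞ2' : ∀ x ∈ H ×ˢ B, exp (Ξ x) = u (exp x.1, x.2) := fun x hx => hΞ2 hx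
  have hshift : ∀ s ∈ H, s + 2 * Real.pi * I ∈ H := by
    intro s hs
    simp only [hH, Set.mem_ofPred_eq] at hs ⊢
    have : (s + 2 * Real.pi * I).re = s.re := by simp
    rw [this]; exact hs
  obtain ⟨k, hk⟩ := log_unique_on hTc.isPreconnected
    (a := fun x : ℂ × K => Ξ (x.1 + 2 * Real.pi * I, x.2)) (b := Ξ)
    (hΞ1.comp (f := fun x : ℂ × K => (x.1 + 2 * Real.pi * I, x.2)) (by fun_prop)
      (fun x hx => ⟨hshift _ hx.1, hx.2⟩)) hΞ1
    (fun x hx => by
      rw [hΞ2' x hx, hΞ2' (x.1 + 2 * Real.pi * I, x.2) ⟨hshift _ hx.1, hx.2⟩]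
      simp only [Complex.exp_add, Complex.exp_two_pi_mul_I, mul_one])
  have hre : ∀ (s : ℂ) (j : ℤ), (s + j * (2 * Real.pi * I)).re = s.re := by
    intro s j
    simp
  have hHj : ∀ s ∈ H, ∀ j : ℤ, s + j * (2 * Real.pi * I) ∈ H := by
    intro s hs j
    simp only [hH, Set.mem_ofPred_eq, hre]; exact hs
  have hkj : ∀ (j : ℤ) (s : ℂ) (b : K), s ∈ H → b ∈ B →
      Ξ (s + j * (2 * Real.pi * I), b) = Ξ (s, b) + j * (k * (2 * Real.pi * I)) := by
    intro j
    induction j using Int.induction_on with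
    | zero => intro s b _ _; simp
    | succ j ih =>
      intro s b hs hb
      have h1 := hk (s + (j : ℤ) * (2 * Real.pi * I), b) ⟨hHj s hs j, hb⟩
      simp only at h1
      have h2 : s + ((j : ℤ) + 1 : ℤ) * (2 * Real.pi * I)
          = s + (j : ℤ) * (2 * Real.pi * I) + 2 * Real.pi * I := by push_cast; ring
      rw [h2, h1, ih s b hs hb]; push_cast; ring
    | pred j ih =>
      intro s b hs hb
      have h1 := hk (s + (-(j : ℤ) - 1 : ℤ) * (2 * Real.pi * I), b)
        ⟨hHj s hs _, hb⟩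
      simp only at h1
      have h2 : s + (-(j : ℤ) - 1 : ℤ) * (2 * Real.pi * I) + 2 * Real.pi * I
          = s + (-(j : ℤ) : ℤ) * (2 * Real.pi * I) := by push_cast; ring
      rw [h2, ih s b hs hb] at h1
      push_cast at h1 ⊢
      linear_combination -h1
  -- the descended logarithm
  let ψ : ℂ × K → ℂ := fun x => Ξ (Complex.log x.1, x.2) - k * Complex.log x.1
  have hψ : ∀ s ∈ H, ∀ b ∈ B, ψ (exp s, b) = Ξ (s, b) - k * s := by
    intro s hs b hb
    obtain ⟨j, hj⟩ := (Complex.exp_eq_exp_iff_exists_int).1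
      (Complex.exp_log (exp_ne_zero s))
    simp only [ψ]
    rw [hj, hkj j s b hs hb]; ring
  refine ⟨k, ψ, ?_, ?_⟩
  · rintro ⟨z₀, b₀⟩ ⟨hz₀, hb₀⟩
    apply ContinuousAt.continuousWithinAt
    have hz₀' : z₀ ≠ 0 := hz₀.1
    -- local branch of the logarithm
    let L : ℂ → ℂ := fun z => Complex.log (z / z₀) + Complex.log z₀
    have hL0 : L z₀ = Complex.log z₀ := by simp [L, div_self hz₀']
    have hLc : ContinuousAt L z₀ := by
      have : ContinuousAt (fun z : ℂ => Complex.log (z / z₀)) z₀ := by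
        apply ContinuousAt.clog
        · exact (continuous_id.div_const z₀).continuousAt
        · rw [div_self hz₀']; exact Complex.one_mem_slitPlane
      exact this.add continuousAt_const
    have hLexp : ∀ z, z ≠ 0 → exp (L z) = z := by
      intro z hz
      simp only [L]
      rw [Complex.exp_add, Complex.exp_log (div_ne_zero hz hz₀'), Complex.exp_log hz₀',
        div_mul_cancel₀ _ hz₀']
    have hLH : ∀ z ∈ D, L z ∈ H := by
      intro z hz
      have h1 : ‖exp (L z)‖ = ‖z‖ := by rw [hLexp z hz.1]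
      rw [Complex.norm_exp] at h1
      simp only [hH, Set.mem_ofPred_eq]
      have h2 : (L z).re = Real.log ‖z‖ := by rw [← h1, Real.log_exp]
      rw [h2]
      exact Real.log_lt_log (norm_pos_iff.2 hz.1) hz.2
    have hDo : IsOpen (D ×ˢ B) := by
      refine IsOpen.prod ?_ hBo
      exact (isOpen_ne).inter (isOpen_lt continuous_norm continuous_const)
    have hev : ∀ᶠ x : ℂ × K in 𝓝 (z₀, b₀), ψ x = Ξ (L x.1, x.2) - k * L x.1 := by
      filter_upwards [hDo.mem_nhds (show (z₀, b₀) ∈ D ×ˢ B from ⟨hz₀, hb₀⟩)] with x hx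
      have := hψ (L x.1) (hLH _ hx.1) x.2 hx.2
      rwa [hLexp _ hx.1.1] at this
    refine ContinuousAt.congr ?_ (hev.mono fun x hx => hx.symm)
    have hLc' : ContinuousAt (fun x : ℂ × K => L x.1) (z₀, b₀) :=
      ContinuousAt.comp (f := Prod.fst) (g := L) hLc continuousAt_fst
    have hΞc : ContinuousAt Ξ (L z₀, b₀) :=
      hΞ1.continuousAt (hTo.mem_nhds ⟨hLH z₀ hz₀, hb₀⟩)
    have h3 : ContinuousAt (fun x : ℂ × K => Ξ (L x.1, x.2)) (z₀, b₀) :=
      ContinuousAt.comp (f := fun x : ℂ × K => (L x.1, x.2)) (g := Ξ) hΞc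
        (hLc'.prodMk continuousAt_snd)
    exact h3.sub (continuousAt_const.mul hLc')
  · rintro ⟨z, b⟩ ⟨hz, hb⟩
    have h1 := hΞ2' (Complex.log z, b) ⟨hlogH z hz, hb⟩
    simp only [Complex.exp_log hz.1] at h1
    simp only [ψ]
    rw [← h1, Complex.exp_sub]
    have h2 : exp (k * Complex.log z) = z ^ k := by
      rw [Complex.exp_int_mul, Complex.exp_log hz.1]
    rw [h2, mul_div_cancel₀]
    exact zpow_ne_zero _ hz.1

end Vale.Agent.P268
end
end

section

section

/-!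
Local index of a continuous function along a hypersurface.
-/

namespace Vale.Agent.P268

open Complex Set Topology Filter Metric

/-- Near `p`, off the zero set of `f`, the function `u` is `f ^ k` times the exponential of a
continuous function. -/
def HasIdx {E : Type*} [TopologicalSpace E] (f u : E → ℂ) (p : E) (k : ℤ) : Prop :=
  ∃ w : E → ℂ, ∀ᶠ z in 𝓝 p, f z ≠ 0 → (ContinuousAt w z ∧ u z = f z ^ k * exp (w z))

section basic

variable {E F : Type*} [TopologicalSpace E] [TopologicalSpace F]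

theorem HasIdx.eventually {f u : E → ℂ} {p : E} {k : ℤ} (h : HasIdx f u p k) :
    ∀ᶠ q in 𝓝 p, HasIdx f u q k := by
  obtain ⟨w, hw⟩ := h
  exact (eventually_eventually_nhds.2 hw).mono fun q hq => ⟨w, hq⟩

theorem HasIdx.congr {f u f' u' : E → ℂ} {p : E} {k : ℤ} (h : HasIdx f u p k)
    (hf : f =ᶠ[𝓝 p] f') (hu : u =ᶠ[𝓝 p] u') : HasIdx f' u' p k := by
  obtain ⟨w, hw⟩ := h
  refine ⟨w, ?_⟩
  filter_upwards [hw, hf, hu] with z h1 h2 h3
  rw [← h2, ← h3]; exact h1

theorem hasIdx_self (f : E → ℂ) (p : E) : HasIdx f f p 1 :=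
  ⟨fun _ => 0, Eventually.of_forall fun z _ => ⟨continuousAt_const, by simp⟩⟩

theorem HasIdx.mul {f u v : E → ℂ} {p : E} {k l : ℤ} (h : HasIdx f u p k)
    (h' : HasIdx f v p l) : HasIdx f (fun z => u z * v z) p (k + l) := by
  obtain ⟨w, hw⟩ := h
  obtain ⟨w', hw'⟩ := h'
  refine ⟨fun z => w z + w' z, ?_⟩
  filter_upwards [hw, hw'] with z h1 h2 hz
  obtain ⟨a1, a2⟩ := h1 hz
  obtain ⟨b1, b2⟩ := h2 hz
  refine ⟨a1.add b1, ?_⟩
  simp only [a2, b2, Complex.exp_add, zpow_add₀ hz]; ring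

theorem HasIdx.zpow {f u : E → ℂ} {p : E} {k : ℤ} (h : HasIdx f u p k) (l : ℤ) :
    HasIdx f (fun z => u z ^ l) p (l * k) := by
  obtain ⟨w, hw⟩ := h
  refine ⟨fun z => l * w z, ?_⟩
  filter_upwards [hw] with z h1 hz
  obtain ⟨a1, a2⟩ := h1 hz
  refine ⟨continuousAt_const.mul a1, ?_⟩
  simp only [a2, mul_zpow, Complex.exp_int_mul, ← zpow_mul]; ring_nf

theorem HasIdx.trans {f g u : E → ℂ} {p : E} {k l : ℤ} (h : HasIdx f g p k)
    (h' : HasIdx g u p l) : HasIdx f u p (k * l) := by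
  obtain ⟨w, hw⟩ := h
  obtain ⟨w', hw'⟩ := h'
  refine ⟨fun z => l * w z + w' z, ?_⟩
  filter_upwards [hw, hw'] with z h1 h2 hz
  obtain ⟨a1, a2⟩ := h1 hz
  have hg : g z ≠ 0 := by
    rw [a2]; exact mul_ne_zero (zpow_ne_zero _ hz) (exp_ne_zero _)
  obtain ⟨b1, b2⟩ := h2 hg
  refine ⟨(continuousAt_const.mul a1).add b1, ?_⟩
  rw [b2, a2, Complex.exp_add, Complex.exp_int_mul, mul_zpow, ← zpow_mul]; ring

theorem HasIdx.comp {f u : F → ℂ} {φ : E → F} {q : E} {k : ℤ} (h : HasIdx f u (φ q) k)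
    (hφ : ∀ᶠ z in 𝓝 q, ContinuousAt φ z) : HasIdx (f ∘ φ) (u ∘ φ) q k := by
  obtain ⟨w, hw⟩ := h
  refine ⟨w ∘ φ, ?_⟩
  have h1 : ∀ᶠ z in 𝓝 q, f (φ z) ≠ 0 → (ContinuousAt w (φ z) ∧
      u (φ z) = f (φ z) ^ k * exp (w (φ z))) :=
    (hφ.self_of_nhds).eventually hw
  filter_upwards [h1, hφ] with z h2 h3 hz
  obtain ⟨a1, a2⟩ := h2 hz
  exact ⟨a1.comp h3, a2⟩

/-- A function continuous near `p` and nonzero at `p` has index `0`. -/
theorem hasIdx_zero_of_ne {f v : E → ℂ} {p : E} (hv : ∀ᶠ z in 𝓝 p, ContinuousAt v z)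
    (h0 : v p ≠ 0) : HasIdx f v p 0 := by
  have hc : ContinuousAt v p := hv.self_of_nhds
  have h1 : ContinuousAt (fun z => v z / v p) p := hc.div_const _
  have h2 : ∀ᶠ z in 𝓝 p, v z / v p ∈ slitPlane := by
    apply h1.eventually_mem
    rw [div_self h0]
    exact isOpen_slitPlane.mem_nhds one_mem_slitPlane
  refine ⟨fun z => Complex.log (v z / v p) + Complex.log (v p), ?_⟩
  filter_upwards [h2, hv] with z h3 h4 _
  refine ⟨((h4.div_const _).clog h3).add continuousAt_const, ?_⟩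
  have h5 : v z / v p ≠ 0 := slitPlane_ne_zero h3
  rw [Complex.exp_add, Complex.exp_log h5, Complex.exp_log h0, div_mul_cancel₀ _ h0]
  simp

end basic

section oneVariable

/-- small loops around a zero of finite order -/
theorem hasWind_small {h : ℂ → ℂ} {a : ℂ} (ha : AnalyticAt ℂ h a) {m : ℕ}
    (hm : analyticOrderAt h a = m) :
    ∀ᶠ ε in 𝓝[>] (0:ℝ), HasWind (fun θ => h (circleMap a ε θ)) m := by
  obtain ⟨g, hg, hg0, hgh⟩ := (ha.analyticOrderAt_eq_natCast).1 hm
  have h1 : ∀ᶠ z in 𝓝 a, g z ≠ 0 := hg.continuousAt.eventually_ne hg0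
  have h2 : ∀ᶠ z in 𝓝 a, ContinuousAt g z :=
    hg.eventually_analyticAt.mono fun z hz => hz.continuousAt
  obtain ⟨r, hr, hball⟩ := Metric.eventually_nhds_iff_ball.1 (h1.and (h2.and hgh))
  have h3 : ∀ᶠ ε in 𝓝[>] (0:ℝ), ε < r := by
    filter_upwards [Ioo_mem_nhdsGT hr] with ε hε using hε.2
  filter_upwards [h3, self_mem_nhdsWithin] with ε hε hε0
  have hε0' : (0:ℝ) < ε := hε0
  have hsub : closedBall a ε ⊆ ball a r := closedBall_subset_ball hε
  have hw1 : HasWind (fun θ => g (circleMap a ε θ)) 0 :=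
    hasWind_disc hε0'.le (fun z hz => (hball z (hsub hz)).2.1.continuousWithinAt)
      (fun z hz => (hball z (hsub hz)).1)
  have hw2 := ((hasWind_circleMap hε0'.ne').pow m).mul hw1
  have : (m : ℤ) * 1 + 0 = m := by ring
  rw [this] at hw2
  refine hw2.congr fun θ => ?_
  have hmem : circleMap a ε θ ∈ ball a r := hsub (circleMap_mem_closedBall a hε0'.le θ)
  rw [(hball _ hmem).2.2, smul_eq_mul]
  congr 2
  simp [circleMap]

end oneVariable

section unique

variable {E : Type*} [NormedAddCommGroup E] [NormedSpace ℂ E]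

/-- A nonzero analytic germ is nonzero on some line through `p`. -/
theorem exists_line_order {f : E → ℂ} {p : E} (hf : AnalyticAt ℂ f p) (h0 : f p = 0)
    (hne : ¬ ∀ᶠ z in 𝓝 p, f z = 0) :
    ∃ v : E, ∃ m : ℕ, m ≠ 0 ∧ analyticOrderAt (fun t : ℂ => f (p + t • v)) 0 = m ∧
      AnalyticAt ℂ (fun t : ℂ => f (p + t • v)) 0 := by
  obtain ⟨r, hr, hball⟩ := Metric.eventually_nhds_iff_ball.1 hf.eventually_analyticAt
  rw [not_eventually] at hne
  obtain ⟨q, hq1, hq2⟩ := (hne.and_eventually (Metric.ball_mem_nhds p hr)).exists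
  set v := q - p with hv
  have hvr : ‖v‖ < r := by rw [hv, ← dist_eq_norm]; exact hq2
  have hlin : ∀ t : ℂ, AnalyticAt ℂ (fun t : ℂ => p + t • v) t := by
    intro t
    fun_prop
  have hmem : ∀ t : ℂ, ‖t‖ * ‖v‖ < r → p + t • v ∈ ball p r := by
    intro t ht
    rw [mem_ball, dist_eq_norm, add_sub_cancel_left, norm_smul]; exact ht
  have han : AnalyticOnNhd ℂ (fun t : ℂ => f (p + t • v)) {t : ℂ | ‖t‖ * ‖v‖ < r} := by
    intro t ht
    exact AnalyticAt.fun_comp (g := f) (f := fun t : ℂ => p + t • v) (hball _ (hmem t ht)) (hlin t)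
  have hconv : Convex ℝ {t : ℂ | ‖t‖ * ‖v‖ < r} := by
    have : {t : ℂ | ‖t‖ * ‖v‖ < r} = (fun t : ℂ => ‖t‖ * ‖v‖) ⁻¹' (Iio r) := rfl
    have hcf : ConvexOn ℝ univ (fun t : ℂ => ‖t‖ * ‖v‖) := by
      have := (convexOn_norm (convex_univ (𝕜 := ℝ) (E := ℂ))).smul (norm_nonneg v)
      refine this.congr ?_
      intro t _
      simp [mul_comm]
    simpa using hcf.convex_lt r
  have h0mem : (0:ℂ) ∈ {t : ℂ | ‖t‖ * ‖v‖ < r} := by simpa using hr
  have h1mem : (1:ℂ) ∈ {t : ℂ | ‖t‖ * ‖v‖ < r} := by simpa using hvr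
  have hA0 : AnalyticAt ℂ (fun t : ℂ => f (p + t • v)) 0 := han 0 h0mem
  have hnt : analyticOrderAt (fun t : ℂ => f (p + t • v)) 0 ≠ ⊤ := by
    intro htop
    rw [analyticOrderAt_eq_top] at htop
    have := han.eqOn_zero_of_preconnected_of_eventuallyEq_zero hconv.isPreconnected h0mem htop
    have h1 := this h1mem
    apply hq1
    simpa [hv] using h1
  obtain ⟨m, hm⟩ := ENat.ne_top_iff_exists.1 hnt
  refine ⟨v, m, ?_, hm.symm, hA0⟩
  intro hm0
  rw [hm0] at hm
  have := (hA0.analyticOrderAt_eq_zero).1 hm.symm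
  apply this
  simpa using h0

theorem HasIdx.unique {f u : E → ℂ} {p : E} (hf : AnalyticAt ℂ f p) (h0 : f p = 0)
    (hne : ¬ ∀ᶠ z in 𝓝 p, f z = 0) {k l : ℤ} (hk : HasIdx f u p k) (hl : HasIdx f u p l) :
    k = l := by
  obtain ⟨v, m, hm0, hm, hA⟩ := exists_line_order hf h0 hne
  obtain ⟨w, hw⟩ := hk
  obtain ⟨w', hw'⟩ := hl
  obtain ⟨r, hr, hball⟩ := Metric.eventually_nhds_iff_ball.1 (hw.and hw')
  have hlim : ContinuousAt (fun t : ℂ => p + t • v) 0 := by fun_prop
  have hev : ∀ᶠ t in 𝓝 (0:ℂ), p + t • v ∈ ball p r := by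
    apply hlim.eventually_mem
    simpa using Metric.ball_mem_nhds p hr
  obtain ⟨ρ, hρ, hρ2⟩ := Metric.eventually_nhds_iff_ball.1 hev
  have hev2 : ∀ᶠ ε in 𝓝[>] (0:ℝ), ε < ρ := by
    filter_upwards [Ioo_mem_nhdsGT hρ] with ε hε using hε.2
  obtain ⟨ε, ⟨hε1, hε2⟩, hε3⟩ := ((hasWind_small hA hm).and hev2 |>.and self_mem_nhdsWithin).exists
  have hε3' : (0:ℝ) < ε := hε3
  set c : ℝ → E := fun θ => p + (circleMap 0 ε θ) • v with hc
  have hcc : Continuous c := by
    rw [hc]; fun_prop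
  have hcmem : ∀ θ, c θ ∈ ball p r := by
    intro θ
    apply hρ2
    rw [mem_ball, dist_zero_right, norm_circleMap_zero, abs_of_pos hε3']; exact hε2
  have hfne : ∀ θ, f (c θ) ≠ 0 := hε1.ne_zero
  have hcp : ∀ θ, c (θ + 2 * Real.pi) = c θ := by
    intro θ; simp only [hc, periodic_circleMap 0 ε θ]
  have key : ∀ θ, f (c θ) ^ (k - l) = exp (w' (c θ) - w (c θ)) := by
    intro θ
    have h1 := (hball (c θ) (hcmem θ)).1 (hfne θ)
    have h2 := (hball (c θ) (hcmem θ)).2 (hfne θ)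
    have h3 : f (c θ) ^ k * exp (w (c θ)) = f (c θ) ^ l * exp (w' (c θ)) := by
      rw [← h1.2, ← h2.2]
    rw [zpow_sub₀ (hfne θ), Complex.exp_sub, div_eq_div_iff (zpow_ne_zero _ (hfne θ))
      (exp_ne_zero _), h3]; ring
  have hW1 := hε1.zpow (k - l)
  have hW2 : HasWind (fun θ => exp (w' (c θ) - w (c θ))) 0 := by
    apply hasWind_exp
    · rw [continuous_iff_continuousAt]
      intro θ
      have h1 := ((hball (c θ) (hcmem θ)).1 (hfne θ)).1
      have h2 := ((hball (c θ) (hcmem θ)).2 (hfne θ)).1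
      exact (ContinuousAt.comp (g := w') h2 hcc.continuousAt).sub
        (ContinuousAt.comp (g := w) h1 hcc.continuousAt)
    · intro θ; simp only [hcp]
  have h4 : (k - l) * (m : ℤ) = 0 := hW1.unique (hW2.congr fun θ => (key θ).symm)
  rcases mul_eq_zero.1 h4 with h | h
  · omega
  · exact absurd (by exact_mod_cast h) hm0

end unique

end Vale.Agent.P268
end
end

section

section

/-!
The winding number on the boundary of a disc is the sum of the local indices.
-/

namespace Vale.Agent.P268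

open Complex Set Topology Filter Metric

theorem hasWind_sub_of_mem {R : ℝ} {a : ℂ} (ha : a ∈ ball (0:ℂ) R) :
    HasWind (fun θ => circleMap 0 R θ - a) 1 := by
  have hR : 0 < R := pos_of_mem_ball ha
  refine (hasWind_circleMap hR.ne').of_close (by fun_prop) ?_ ?_
  · intro θ; simp only [periodic_circleMap 0 R θ]
  · intro θ
    have : ‖circleMap 0 R θ - a - circleMap 0 R θ‖ = ‖a‖ := by
      rw [sub_sub_cancel_left, norm_neg]
    rw [this, norm_circleMap_zero, abs_of_pos hR]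
    simpa using ha

/-- cut-off function -/
noncomputable def cut (a : ℂ) (ρ : ℝ) (z : ℂ) : ℝ := max 0 (min 1 (2 * ‖z - a‖ / ρ - 1))

theorem continuous_cut (a : ℂ) (ρ : ℝ) : Continuous (cut a ρ) := by
  unfold cut; fun_prop

theorem cut_eq_one {a z : ℂ} {ρ : ℝ} (hρ : 0 < ρ) (h : ρ ≤ ‖z - a‖) : cut a ρ z = 1 := by
  have : 1 ≤ 2 * ‖z - a‖ / ρ - 1 := by
    rw [le_sub_iff_add_le, le_div_iff₀ hρ]; linarith
  unfold cut
  rw [min_eq_left this]; norm_num

theorem cut_eq_zero {a z : ℂ} {ρ : ℝ} (hρ : 0 < ρ) (h : ‖z - a‖ ≤ ρ / 2) : cut a ρ z = 0 := by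
  have : 2 * ‖z - a‖ / ρ - 1 ≤ 0 := by
    rw [sub_nonpos, div_le_iff₀ hρ]; linarith
  unfold cut
  rw [max_eq_left]
  exact (min_le_right _ _).trans this

/-- Removing a puncture of index `0`. -/
theorem exists_fill {R : ℝ} {v : ℂ → ℂ} {a : ℂ} (ha : a ∈ ball (0:ℂ) R) {S : Finset ℂ}
    (haS : a ∉ S) (hv : ContinuousOn v (closedBall 0 R \ (insert a S : Finset ℂ)))
    (h0 : ∀ z ∈ closedBall (0:ℂ) R \ (insert a S : Finset ℂ), v z ≠ 0)
    (hidx : HasIdx (fun z => z - a) v a 0) :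
    ∃ v' : ℂ → ℂ, ContinuousOn v' (closedBall 0 R \ (S : Set ℂ)) ∧
      (∀ z ∈ closedBall (0:ℂ) R \ (S : Set ℂ), v' z ≠ 0) ∧
      (∀ z ∈ sphere (0:ℂ) R, v' z = v z) ∧ (∀ b ∈ S, v' =ᶠ[𝓝 b] v) := by
  classical
  obtain ⟨w, hw⟩ := hidx
  have hS : ∀ᶠ z in 𝓝 a, z ∉ (S : Set ℂ) :=
    (S.finite_toSet.isClosed.isOpen_compl).mem_nhds haS
  have hb : ∀ᶠ z in 𝓝 a, z ∈ ball (0:ℂ) R := isOpen_ball.mem_nhds ha
  obtain ⟨r, hr, hball⟩ := Metric.eventually_nhds_iff_ball.1 (hw.and (hS.and hb))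
  set ρ := r / 2 with hρdef
  have hρ : 0 < ρ := by positivity
  have hρr : ρ < r := by rw [hρdef]; linarith
  -- the new function
  let v' : ℂ → ℂ := fun z => if ‖z - a‖ < r then exp (cut a ρ z * w z) else v z
  have hv'in : ∀ z, ‖z - a‖ < r → v' z = exp (cut a ρ z * w z) := fun z hz => if_pos hz
  have hv'out : ∀ z, ρ ≤ ‖z - a‖ → v' z = v z := by
    intro z hz
    by_cases h : ‖z - a‖ < r
    · rw [hv'in z h, cut_eq_one hρ hz]
      have hne : z - a ≠ 0 := by
        intro h1; rw [h1, norm_zero] at hz; linarith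
      have := ((hball z (by rwa [mem_ball, dist_eq_norm])).1 hne).2
      rw [this]; simp
    · exact if_neg h
  have hval : ∀ z, z ≠ a → ‖z - a‖ < r → ContinuousAt w z := by
    intro z hz h
    exact ((hball z (by rwa [mem_ball, dist_eq_norm])).1 (sub_ne_zero.2 hz)).1
  refine ⟨v', ?_, ?_, ?_, ?_⟩
  · intro z hz
    by_cases hza : z = a
    · -- near a, v' = 1
      subst hza
      apply ContinuousAt.continuousWithinAt
      have : ∀ᶠ y in 𝓝 z, v' y = 1 := by
        have : ∀ᶠ y in 𝓝 z, ‖y - z‖ < ρ / 2 := by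
          have := Metric.ball_mem_nhds z (half_pos hρ)
          filter_upwards [this] with y hy
          rwa [mem_ball, dist_eq_norm] at hy
        filter_upwards [this] with y hy
        rw [hv'in y (by linarith), cut_eq_zero hρ hy.le]; simp
      exact (continuousAt_const (y := (1:ℂ))).congr (this.mono fun y hy => hy.symm)
    · by_cases hzr : ‖z - a‖ < r
      · apply ContinuousAt.continuousWithinAt
        have hev : ∀ᶠ y in 𝓝 z, v' y = exp (cut a ρ y * w y) := by
          have : ∀ᶠ y in 𝓝 z, ‖y - a‖ < r := by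
            have hc : ContinuousAt (fun y : ℂ => ‖y - a‖) z := by fun_prop
            exact hc.eventually_lt continuousAt_const hzr
          exact this.mono fun y hy => hv'in y hy
        refine ContinuousAt.congr ?_ (hev.mono fun y hy => hy.symm)
        have h1 : ContinuousAt w z := hval z hza hzr
        have h2 : ContinuousAt (fun y => ((cut a ρ y : ℝ) : ℂ)) z :=
          (Complex.continuous_ofReal.comp (continuous_cut a ρ)).continuousAt
        exact (Complex.continuous_exp.continuousAt).comp (h2.mul h1)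
      · push Not at hzr
        have hzmem : z ∈ closedBall (0:ℂ) R \ (insert a S : Finset ℂ) := by
          refine ⟨hz.1, ?_⟩
          simp only [Finset.coe_insert, mem_insert_iff, not_or]
          exact ⟨hza, hz.2⟩
        have hev : ∀ᶠ y in 𝓝 z, v' y = v y := by
          have : ∀ᶠ y in 𝓝 z, ρ < ‖y - a‖ := by
            have hc : ContinuousAt (fun y : ℂ => ‖y - a‖) z := by fun_prop
            exact continuousAt_const.eventually_lt hc (by linarith)
          exact this.mono fun y hy => hv'out y hy.le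
        have h1 : ContinuousWithinAt v (closedBall 0 R \ (insert a S : Finset ℂ)) z := hv z hzmem
        have h2 : ContinuousWithinAt v' (closedBall 0 R \ (insert a S : Finset ℂ)) z :=
          h1.congr_of_eventuallyEq (hev.filter_mono nhdsWithin_le_nhds) (hv'out z (by linarith))
        refine h2.mono_of_mem_nhdsWithin ?_
        have h3 : {a}ᶜ ∈ 𝓝 z := isOpen_compl_singleton.mem_nhds hza
        filter_upwards [self_mem_nhdsWithin, mem_nhdsWithin_of_mem_nhds h3] with y hy hy2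
        refine ⟨hy.1, ?_⟩
        simp only [Finset.coe_insert, mem_insert_iff, not_or]
        exact ⟨hy2, hy.2⟩
  · intro z hz
    by_cases hzr : ‖z - a‖ < r
    · rw [hv'in z hzr]; exact exp_ne_zero _
    · push Not at hzr
      rw [hv'out z (by linarith)]
      apply h0
      refine ⟨hz.1, ?_⟩
      simp only [Finset.coe_insert, mem_insert_iff, not_or]
      refine ⟨?_, hz.2⟩
      rintro rfl
      simp at hzr; linarith
  · intro z hz
    apply hv'out
    by_contra hlt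
    push Not at hlt
    have := (hball z (by rw [mem_ball, dist_eq_norm]; linarith)).2.2
    rw [mem_sphere] at hz
    rw [mem_ball, hz] at this
    exact lt_irrefl _ this
  · intro b hb
    have hbr : r ≤ ‖b - a‖ := by
      by_contra hlt
      push Not at hlt
      exact (hball b (by rwa [mem_ball, dist_eq_norm])).2.1 hb
    have : ∀ᶠ y in 𝓝 b, ρ < ‖y - a‖ := by
      have hc : ContinuousAt (fun y : ℂ => ‖y - a‖) b := by fun_prop
      exact continuousAt_const.eventually_lt hc (by linarith)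
    exact this.mono fun y hy => hv'out y hy.le

/-- The winding number on the boundary is the sum of the local indices. -/
theorem hasWind_sum {R : ℝ} (hR : 0 ≤ R) (S : Finset ℂ) (hS : ∀ a ∈ S, a ∈ ball (0:ℂ) R)
    (k : ℂ → ℤ) (u : ℂ → ℂ) (hu : ContinuousOn u (closedBall 0 R \ (S : Set ℂ)))
    (h0 : ∀ z ∈ closedBall (0:ℂ) R \ (S : Set ℂ), u z ≠ 0)
    (hk : ∀ a ∈ S, HasIdx (fun z => z - a) u a (k a)) :
    HasWind (fun θ => u (circleMap 0 R θ)) (∑ a ∈ S, k a) := by
  classical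
  induction S using Finset.induction_on generalizing u with
  | empty =>
    simp only [Finset.coe_empty, Set.sdiff_empty] at hu h0
    simpa using hasWind_disc hR hu h0
  | insert a S haS ih =>
    have ha : a ∈ ball (0:ℂ) R := hS a (Finset.mem_insert_self a S)
    have hR0 : 0 < R := pos_of_mem_ball ha
    -- divide by (z - a)^(k a)
    set v : ℂ → ℂ := fun z => u z * (z - a) ^ (-(k a)) with hv
    have hne : ∀ z, z ∉ (insert a S : Finset ℂ) → z - a ≠ 0 := by
      intro z hz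
      rw [Finset.mem_insert, not_or] at hz
      exact sub_ne_zero.2 hz.1
    have hvc : ContinuousOn v (closedBall 0 R \ (insert a S : Finset ℂ)) := by
      refine hu.mul ?_
      intro z hz
      exact ((continuous_id.sub continuous_const).continuousAt.zpow₀ _
        (Or.inl (hne z hz.2))).continuousWithinAt
    have hv0 : ∀ z ∈ closedBall (0:ℂ) R \ (insert a S : Finset ℂ), v z ≠ 0 := by
      intro z hz
      exact mul_ne_zero (h0 z hz) (zpow_ne_zero _ (hne z hz.2))
    have hva : HasIdx (fun z => z - a) v a 0 := by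
      have h1 := (hk a (Finset.mem_insert_self a S)).mul
        ((hasIdx_self (fun z : ℂ => z - a) a).zpow (-(k a)))
      have h2 : k a + -(k a) * 1 = 0 := by ring
      rwa [h2] at h1
    obtain ⟨v', hv'c, hv'0, hv's, hv'b⟩ := exists_fill ha haS hvc hv0 hva
    have hvb : ∀ b ∈ S, HasIdx (fun z => z - b) v' b (k b) := by
      intro b hb
      have hab : b ≠ a := by rintro rfl; exact haS hb
      have h1 := hk b (Finset.mem_insert_of_mem hb)
      have h2 : HasIdx (fun z : ℂ => z - b) (fun z : ℂ => (z - a) ^ (-(k a))) b 0 := by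
        apply hasIdx_zero_of_ne
        · have : ∀ᶠ z in 𝓝 b, z ≠ a := isOpen_compl_singleton.mem_nhds hab
          filter_upwards [this] with z hz
          exact (continuous_id.sub continuous_const).continuousAt.zpow₀ _
            (Or.inl (sub_ne_zero.2 hz))
        · exact zpow_ne_zero _ (sub_ne_zero.2 hab)
      have h3 := h1.mul h2
      rw [add_zero] at h3
      exact h3.congr (EventuallyEq.refl _ _) (hv'b b hb).symm
    have hW := ih (fun b hb => hS b (Finset.mem_insert_of_mem hb)) v' hv'c hv'0 hvb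
    have hW2 := hW.mul ((hasWind_sub_of_mem ha).zpow (k a))
    rw [Finset.sum_insert haS]
    have h4 : ∑ x ∈ S, k x + k a * 1 = k a + ∑ x ∈ S, k x := by ring
    rw [h4] at hW2
    refine hW2.congr fun θ => ?_
    have hmem : circleMap 0 R θ ∈ sphere (0:ℂ) R := circleMap_mem_sphere 0 hR0.le θ
    rw [hv's _ hmem]
    simp only [hv]
    have hne2 : circleMap 0 R θ - a ≠ 0 := by
      intro h5
      rw [sub_eq_zero] at h5
      rw [h5] at hmem
      rw [mem_sphere] at hmem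
      rw [mem_ball, hmem] at ha
      exact lt_irrefl _ ha
    rw [mul_assoc, ← zpow_add₀ hne2]; simp

end Vale.Agent.P268
end
end

section

section

/-!
Existence of the index at simple points, index `±1` for homeomorphisms, and the perturbation
lemma for discs.
-/

namespace Vale.Agent.P268

open Complex Set Topology Filter Metric

section existence

variable {E : Type*} [NormedAddCommGroup E] [NormedSpace ℂ E] [CompleteSpace E]

/-- At a simple point of `f`, any function which is continuous and nonvanishing off the zero set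
of `f` has an index. -/
theorem exists_idx {f u : E → ℂ} {p : E} (hf : AnalyticAt ℂ f p) (hfp : f p = 0)
    (hdf : fderiv ℂ f p ≠ 0) (hu : ∀ᶠ z in 𝓝 p, f z ≠ 0 → ContinuousAt u z)
    (hne : ∀ᶠ z in 𝓝 p, f z ≠ 0 → u z ≠ 0) : ∃ k : ℤ, HasIdx f u p k := by
  have hs : HasStrictFDerivAt f (fderiv ℂ f p) p := hf.hasStrictFDerivAt
  have hr : (fderiv ℂ f p).range = ⊤ := by
    rw [LinearMap.range_eq_top]
    apply LinearMap.surjective
    intro h
    apply hdf
    ext v
    exact congrArg (fun l : E →ₗ[ℂ] ℂ => l v) h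
  set Ψ := hs.implicitToOpenPartialHomeomorph f (fderiv ℂ f p) hr with hΨ
  have hps : p ∈ Ψ.source := hs.mem_implicitToOpenPartialHomeomorph_source hr
  have hΨp : Ψ p = (0, 0) := by
    rw [hΨ, hs.implicitToOpenPartialHomeomorph_self hr, hfp]
  have hfst : ∀ z, (Ψ z).1 = f z := fun z => rfl
  have hpt : ((0 : ℂ), (0 : (fderiv ℂ f p).ker)) ∈ Ψ.target := by
    rw [← hΨp]; exact Ψ.map_source hps
  have hsymm0 : Ψ.symm (0, 0) = p := by rw [← hΨp]; exact Ψ.left_inv hps
  -- good neighbourhood in the target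
  have hev : ∀ᶠ y in 𝓝 ((0 : ℂ), (0 : (fderiv ℂ f p).ker)), y ∈ Ψ.target ∧
      (f (Ψ.symm y) ≠ 0 → ContinuousAt u (Ψ.symm y)) ∧ (f (Ψ.symm y) ≠ 0 → u (Ψ.symm y) ≠ 0) := by
    have h1 : ∀ᶠ y in 𝓝 ((0 : ℂ), (0 : (fderiv ℂ f p).ker)), y ∈ Ψ.target :=
      Ψ.open_target.mem_nhds hpt
    have h2 : Tendsto Ψ.symm (𝓝 ((0 : ℂ), (0 : (fderiv ℂ f p).ker))) (𝓝 p) := by
      have := Ψ.continuousAt_symm hpt
      rwa [ContinuousAt, hsymm0] at this
    exact h1.and ((h2.eventually hu).and (h2.eventually hne))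
  obtain ⟨δ, hδ, hball⟩ := Metric.eventually_nhds_iff_ball.1 hev
  have hprod : ∀ y : ℂ × (fderiv ℂ f p).ker, ‖y.1‖ < δ → ‖y.2‖ < δ → y ∈ ball (0, 0) δ := by
    intro y h1 h2
    rw [mem_ball, dist_eq_norm]
    have : y - (0, 0) = y := by ext <;> simp
    rw [this, Prod.norm_def]
    exact max_lt h1 h2
  have hfs : ∀ y ∈ ball ((0 : ℂ), (0 : (fderiv ℂ f p).ker)) δ, f (Ψ.symm y) = y.1 := by
    intro y hy
    rw [← hfst, Ψ.right_inv (hball y hy).1]
  have hB : ∀ y ∈ ({z : ℂ | z ≠ 0 ∧ ‖z‖ < δ} ×ˢ ball (0 : (fderiv ℂ f p).ker) δ),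
      y ∈ ball ((0 : ℂ), (0 : (fderiv ℂ f p).ker)) δ := by
    intro y hy
    exact hprod y hy.1.2 (by simpa using hy.2)
  obtain ⟨n, ψ, hψc, hψ⟩ := product_log (K := (fderiv ℂ f p).ker) hδ
    (B := ball (0 : (fderiv ℂ f p).ker) δ) isOpen_ball (convex_ball _ _)
    ⟨0, mem_ball_self hδ⟩ (u := fun y => u (Ψ.symm y))
    (by
      intro y hy
      have hy' := hB y hy
      have h1 : f (Ψ.symm y) ≠ 0 := by rw [hfs y hy']; exact hy.1.1
      exact (ContinuousAt.comp (g := u) ((hball y hy').2.1 h1)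
        (Ψ.continuousAt_symm (hball y hy').1)).continuousWithinAt)
    (by
      intro y hy
      have hy' := hB y hy
      have h1 : f (Ψ.symm y) ≠ 0 := by rw [hfs y hy']; exact hy.1.1
      exact (hball y hy').2.2 h1)
  have hopen : IsOpen ({z : ℂ | z ≠ 0 ∧ ‖z‖ < δ} ×ˢ ball (0 : (fderiv ℂ f p).ker) δ) := by
    refine IsOpen.prod ?_ isOpen_ball
    exact isOpen_ne.inter (isOpen_lt continuous_norm continuous_const)
  refine ⟨n, ψ ∘ Ψ, ?_⟩
  have h3 : ∀ᶠ z in 𝓝 p, Ψ z ∈ ball ((0 : ℂ), (0 : (fderiv ℂ f p).ker)) δ := by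
    have := Ψ.continuousAt hps
    rw [ContinuousAt, hΨp] at this
    exact this (ball_mem_nhds _ hδ)
  filter_upwards [h3, Ψ.open_source.mem_nhds hps] with z hz hzs hfz
  have hzm : Ψ z ∈ ({z : ℂ | z ≠ 0 ∧ ‖z‖ < δ} ×ˢ ball (0 : (fderiv ℂ f p).ker) δ) := by
    rw [mem_ball, dist_eq_norm] at hz
    have h5 : Ψ z - (0, 0) = Ψ z := by ext <;> simp
    rw [h5, Prod.norm_def, max_lt_iff] at hz
    exact ⟨⟨by rwa [hfst], hz.1⟩, by simpa using hz.2⟩
  refine ⟨?_, ?_⟩
  · exact ContinuousAt.comp (g := ψ) (hψc.continuousAt (hopen.mem_nhds hzm)) (Ψ.continuousAt hzs)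
  · have := hψ (Ψ z) hzm
    simp only [Ψ.left_inv hzs, hfst] at this
    exact this

end existence

section unit

theorem not_eventually_zero {E : Type*} [NormedAddCommGroup E] [NormedSpace ℂ E] {f : E → ℂ}
    {p : E} (hdf : fderiv ℂ f p ≠ 0) : ¬ ∀ᶠ z in 𝓝 p, f z = 0 := by
  intro h
  apply hdf
  have : f =ᶠ[𝓝 p] fun _ => (0:ℂ) := h
  rw [this.fderiv_eq]; simp

variable {E F : Type*} [NormedAddCommGroup E] [NormedSpace ℂ E] [NormedAddCommGroup F]
  [NormedSpace ℂ F]

omit [NormedSpace ℂ F] in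
theorem idx_unit {f : E → ℂ} {g : F → ℂ} (φ : OpenPartialHomeomorph E F) {p : E}
    (hp : p ∈ φ.source) (hf : AnalyticAt ℂ f p) (hfp : f p = 0)
    (hne : ¬ ∀ᶠ z in 𝓝 p, f z = 0) {k k' : ℤ} (hk : HasIdx f (g ∘ φ) p k)
    (hk' : HasIdx g (f ∘ φ.symm) (φ p) k') : k = 1 ∨ k = -1 := by
  have hc : ∀ᶠ z in 𝓝 p, ContinuousAt φ z := by
    filter_upwards [φ.open_source.mem_nhds hp] with z hz using φ.continuousAt hz
  have h1 : HasIdx (g ∘ φ) ((f ∘ φ.symm) ∘ φ) p k' := hk'.comp hc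
  have h2 : (f ∘ φ.symm) ∘ φ =ᶠ[𝓝 p] f := by
    filter_upwards [φ.open_source.mem_nhds hp] with z hz
    simp [φ.left_inv hz]
  have h3 : HasIdx f f p (k * k') := hk.trans (h1.congr (EventuallyEq.refl _ _) h2)
  have h4 : k * k' = 1 := h3.unique hf hfp hne (hasIdx_self f p)
  exact Int.eq_one_or_neg_one_of_mul_eq_one h4

/-- Index `±1` at every simple point, provided simple points of `g` accumulate at the image. -/
theorem index_one [CompleteSpace E] [CompleteSpace F] {f : E → ℂ} {g : F → ℂ}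
    (φ : OpenPartialHomeomorph E F) {p : E} (hp : p ∈ φ.source) (hf : AnalyticAt ℂ f p)
    (hfp : f p = 0) (hdf : fderiv ℂ f p ≠ 0)
    (hz : ∀ᶠ z in 𝓝 p, (f z = 0 ↔ g (φ z) = 0))
    (hg : AnalyticAt ℂ g (φ p))
    (hd : ∃ᶠ q in 𝓝 (φ p), g q = 0 ∧ fderiv ℂ g q ≠ 0) :
    ∃ k : ℤ, HasIdx f (g ∘ φ) p k ∧ (k = 1 ∨ k = -1) := by
  have hcφ : ContinuousAt φ p := φ.continuousAt hp
  have hgc : ∀ᶠ z in 𝓝 p, ContinuousAt (g ∘ φ) z := by
    have h1 : ∀ᶠ z in 𝓝 p, AnalyticAt ℂ g (φ z) := hcφ.eventually hg.eventually_analyticAt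
    filter_upwards [h1, φ.open_source.mem_nhds hp] with z h2 h3
    exact ContinuousAt.comp (g := g) h2.continuousAt (φ.continuousAt h3)
  obtain ⟨k, hk⟩ := exists_idx (u := g ∘ φ) hf hfp hdf (hgc.mono fun z hz _ => hz)
    (hz.mono fun z h1 h2 h3 => h2 (h1.2 h3))
  refine ⟨k, hk, ?_⟩
  -- move to a nearby point whose image is simple
  have hdf' : ∀ᶠ z in 𝓝 p, fderiv ℂ f z ≠ 0 := by
    have : ContinuousAt (fderiv ℂ f) p := hf.fderiv.continuousAt
    exact this.eventually_ne hdf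
  have hgood : ∀ᶠ z in 𝓝 p, HasIdx f (g ∘ φ) z k ∧ AnalyticAt ℂ f z ∧ fderiv ℂ f z ≠ 0 ∧
      (∀ᶠ y in 𝓝 z, (f y = 0 ↔ g (φ y) = 0)) ∧ z ∈ φ.source ∧ AnalyticAt ℂ g (φ z) := by
    filter_upwards [hk.eventually, hf.eventually_analyticAt, hdf',
      eventually_eventually_nhds.2 hz, φ.open_source.mem_nhds hp,
      hcφ.eventually hg.eventually_analyticAt] with z a1 a2 a3 a4 a5 a6
    exact ⟨a1, a2, a3, a4, a5, a6⟩
  have hpt : φ p ∈ φ.target := φ.map_source hp
  have hsymm : ContinuousAt φ.symm (φ p) := φ.continuousAt_symm hpt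
  have h5 : ∀ᶠ q in 𝓝 (φ p), HasIdx f (g ∘ φ) (φ.symm q) k ∧ AnalyticAt ℂ f (φ.symm q) ∧
      fderiv ℂ f (φ.symm q) ≠ 0 ∧ (∀ᶠ y in 𝓝 (φ.symm q), (f y = 0 ↔ g (φ y) = 0)) ∧
      φ.symm q ∈ φ.source ∧ AnalyticAt ℂ g (φ (φ.symm q)) := by
    have : Tendsto φ.symm (𝓝 (φ p)) (𝓝 p) := by
      rwa [ContinuousAt, φ.left_inv hp] at hsymm
    exact this.eventually hgood
  obtain ⟨q, ⟨hq1, hq2⟩, ⟨b1, b2, b3, b4, b5, b6⟩, hqt⟩ :=
    (hd.and_eventually (h5.and (φ.open_target.mem_nhds hpt))).exists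
  have hφq : φ (φ.symm q) = q := φ.right_inv hqt
  rw [hφq] at b6
  have hf0 : f (φ.symm q) = 0 := by
    apply (b4.self_of_nhds).2; rw [hφq]; exact hq1
  -- index of f ∘ φ.symm at q
  have hc2 : ContinuousAt φ.symm q := φ.continuousAt_symm hqt
  obtain ⟨k', hk'⟩ := exists_idx (u := f ∘ φ.symm) b6 hq1 hq2
    (by
      have h1 : ∀ᶠ y in 𝓝 q, AnalyticAt ℂ f (φ.symm y) := hc2.eventually b2.eventually_analyticAt
      filter_upwards [h1, φ.open_target.mem_nhds hqt] with y h2 h3 _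
      exact ContinuousAt.comp (g := f) h2.continuousAt (φ.continuousAt_symm h3))
    (by
      have h1 : ∀ᶠ y in 𝓝 q, (f (φ.symm y) = 0 ↔ g (φ (φ.symm y)) = 0) := hc2.eventually b4
      filter_upwards [h1, φ.open_target.mem_nhds hqt] with y h2 h3 h4 h6
      rw [φ.right_inv h3] at h2
      exact h4 (h2.1 h6))
  have hk'' : HasIdx g (f ∘ φ.symm) (φ (φ.symm q)) k' := by rwa [hφq]
  exact idx_unit φ b5 b2 hf0 (not_eventually_zero b3) b1 hk''

end unit

section pert

/-- index of an analytic function of one variable -/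
theorem hasIdx_analytic {h : ℂ → ℂ} {a : ℂ} (ha : AnalyticAt ℂ h a) {m : ℕ}
    (hm : analyticOrderAt h a = m) : HasIdx (fun z => z - a) h a m := by
  obtain ⟨g, hg, hg0, hgh⟩ := (ha.analyticOrderAt_eq_natCast).1 hm
  have h1 : HasIdx (fun z : ℂ => z - a) g a 0 :=
    hasIdx_zero_of_ne (hg.eventually_analyticAt.mono fun z hz => hz.continuousAt) hg0
  have h2 := ((hasIdx_self (fun z : ℂ => z - a) a).zpow m).mul h1
  have h3 : (m : ℤ) * 1 + 0 = m := by ring
  rw [h3] at h2
  refine h2.congr (EventuallyEq.refl _ _) ?_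
  filter_upwards [hgh] with z hz
  rw [hz, smul_eq_mul]; simp

/-- The perturbation lemma. -/
theorem pert {X : Type*} [NormedAddCommGroup X] [NormedSpace ℂ X] {f U : X × ℂ → ℂ} {ν : ℕ}
    (hf : AnalyticAt ℂ f 0) (hν : analyticOrderAt (fun w : ℂ => f (0, w)) 0 = ν)
    (hU : ∀ᶠ z in 𝓝 (0 : X × ℂ), ContinuousAt U z)
    (hz : ∀ᶠ z in 𝓝 (0 : X × ℂ), (U z = 0 → f z = 0))
    (hs : ∀ᶠ r in 𝓝[>] (0:ℝ), ∃ᶠ x in 𝓝 (0 : X), ∀ w : ℂ, ‖w‖ < r → f (x, w) = 0 →
      deriv (fun w : ℂ => f (x, w)) w ≠ 0)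
    {k : ℤ} (hk : HasIdx (fun w : ℂ => w) (fun w : ℂ => U (0, w)) 0 k)
    {W : Set (X × ℂ)} (hW : W ∈ 𝓝 (0 : X × ℂ)) :
    ∃ (x : X) (S : Finset ℂ), S.card = ν ∧ (∀ w ∈ S, (x, w) ∈ W ∧ f (x, w) = 0 ∧
      deriv (fun w : ℂ => f (x, w)) w ≠ 0) ∧
      ∀ κ : ℂ → ℤ, (∀ w ∈ S, HasIdx f U (x, w) (κ w)) → k = ∑ w ∈ S, κ w := by
  classical
  have hline : ∀ x : X, ∀ w : ℂ, AnalyticAt ℂ (fun w : ℂ => (x, w)) w := by
    intro x w
    exact analyticAt_const.prod analyticAt_id
  have hA0 : AnalyticAt ℂ (fun w : ℂ => f (0, w)) 0 :=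
    AnalyticAt.fun_comp (g := f) (f := fun w : ℂ => ((0:X), w)) hf (hline 0 0)
  -- isolated zero on the line
  have hiso : ∀ᶠ w in 𝓝 (0:ℂ), w ≠ 0 → f (0, w) ≠ 0 := by
    rcases hA0.eventually_eq_zero_or_eventually_ne_zero with h | h
    · rw [← analyticOrderAt_eq_top, hν] at h
      exact absurd h (ENat.natCast_ne_top ν)
    · rwa [eventually_nhdsWithin_iff] at h
  -- good radius
  have hgood : ∀ᶠ z in 𝓝 (0 : X × ℂ), ContinuousAt U z ∧ (U z = 0 → f z = 0) ∧
      AnalyticAt ℂ f z ∧ z ∈ W := by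
    filter_upwards [hU, hz, hf.eventually_analyticAt, hW] with z a1 a2 a3 a4
    exact ⟨a1, a2, a3, a4⟩
  obtain ⟨ρ, hρ, hball⟩ := Metric.eventually_nhds_iff_ball.1 hgood
  obtain ⟨ρ', hρ', hball'⟩ := Metric.eventually_nhds_iff_ball.1 hiso
  have hrs : ∀ᶠ r in 𝓝[>] (0:ℝ), r < ρ ∧ r < ρ' := by
    filter_upwards [Ioo_mem_nhdsGT hρ, Ioo_mem_nhdsGT hρ'] with r h1 h2 using ⟨h1.2, h2.2⟩
  obtain ⟨r, ⟨hr1, hr2, hr3⟩, hr0⟩ := (hs.and hrs |>.and self_mem_nhdsWithin).exists
  have hr0' : (0:ℝ) < r := hr0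
  have hmem : ∀ x : X, ‖x‖ < ρ → ∀ w : ℂ, ‖w‖ ≤ r → ((x, w) : X × ℂ) ∈ ball 0 ρ := by
    intro x hx w hw
    rw [mem_ball, dist_zero_right, Prod.norm_def]
    exact max_lt hx (lt_of_le_of_lt hw hr2)
  -- nonvanishing on the circle, for x near 0
  have hcirc : ∀ᶠ x in 𝓝 (0 : X), ∀ w ∈ sphere (0:ℂ) r, f (x, w) ≠ 0 := by
    apply (isCompact_sphere (0:ℂ) r).eventually_forall_of_forall_eventually
    intro w hw
    have hw' : ‖w‖ = r := by simpa using hw
    have h1 : f (0, w) ≠ 0 := by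
      apply hball' w
      · rw [mem_ball, dist_zero_right, hw']; exact hr3
      · rintro rfl; rw [norm_zero] at hw'; linarith
    have h2 : ContinuousAt f (0, w) :=
      (hball (0, w) (hmem 0 (by simpa using hρ) w hw'.le)).2.2.1.continuousAt
    exact h2.eventually_ne h1
  obtain ⟨η, hη, hηb⟩ := Metric.eventually_nhds_iff_ball.1 hcirc
  set η' := min η ρ with hη'
  have hη'0 : 0 < η' := lt_min hη hρ
  have hlt : ∀ x ∈ ball (0:X) η', ‖x‖ < ρ := by
    intro x hx
    rw [mem_ball, dist_zero_right] at hx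
    exact lt_of_lt_of_le hx (min_le_right _ _)
  have hfc : ∀ x ∈ ball (0:X) η', ∀ w ∈ sphere (0:ℂ) r, f (x, w) ≠ 0 := by
    intro x hx
    exact hηb x (ball_subset_ball (min_le_left _ _) hx)
  -- the good x
  obtain ⟨x, hx1, hx2⟩ := (hr1.and_eventually (ball_mem_nhds (0:X) hη'0)).exists
  -- homotopy
  have hhom : ∀ (G : X × ℂ → ℂ), (∀ z ∈ ball (0 : X × ℂ) ρ, ContinuousAt G z) →
      (∀ x ∈ ball (0:X) η', ∀ w ∈ sphere (0:ℂ) r, G (x, w) ≠ 0) → ∀ n : ℤ,
      HasWind (fun θ => G (0, circleMap 0 r θ)) n → HasWind (fun θ => G (x, circleMap 0 r θ)) n := by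
    intro G hGc hG0 n hn
    refine HasWind.homotopy (S := ball (0:X) η') (convex_ball _ _).isPreconnected
      (H := fun y θ => G (y, circleMap 0 r θ)) ?_ ?_ ?_ (mem_ball_self hη'0) hx2 hn
    · rintro ⟨y, θ⟩ ⟨hy, -⟩
      have h1 : ContinuousAt G (y, circleMap 0 r θ) :=
        hGc _ (hmem y (hlt y hy) _ (by rw [norm_circleMap_zero, abs_of_pos hr0']))
      exact (ContinuousAt.comp (f := fun q : X × ℝ => (q.1, circleMap 0 r q.2)) (g := G) h1
        (by fun_prop)).continuousWithinAt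
    · intro y _ θ; simp only [periodic_circleMap 0 r θ]
    · intro y hy θ; exact hG0 y hy _ (circleMap_mem_sphere 0 hr0'.le θ)
  have hUne : ∀ x ∈ ball (0:X) η', ∀ w ∈ sphere (0:ℂ) r, U (x, w) ≠ 0 := by
    intro y hy w hw h0
    have hw' : ‖w‖ = r := by simpa using hw
    exact hfc y hy w hw ((hball (y, w) (hmem y (hlt y hy) w hw'.le)).2.1 h0)
  -- winding numbers at 0
  have h0ρ : ‖(0:X)‖ < ρ := by simpa using hρ
  have hW0 : HasWind (fun θ => U (0, circleMap 0 r θ)) k := by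
    have := hasWind_sum (R := r) hr0'.le {0} (by simpa using hr0') (fun _ => k)
      (fun w => U (0, w)) (by
        intro w hw
        have hw' : ‖w‖ ≤ r := by simpa using hw.1
        exact (ContinuousAt.comp (f := fun w : ℂ => ((0:X), w)) (g := U)
          (hball (0, w) (hmem 0 h0ρ w hw')).1 (by fun_prop)).continuousWithinAt)
      (by
        intro w hw h0
        have hw' : ‖w‖ ≤ r := by simpa using hw.1
        have h1 := (hball (0, w) (hmem 0 h0ρ w hw')).2.1 h0
        have h2 : w ≠ 0 := by simpa using hw.2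
        exact hball' w (by rw [mem_ball, dist_zero_right]; linarith) h2 h1)
      (by
        intro a ha
        rw [Finset.mem_singleton] at ha
        subst ha
        simpa using hk)
    simpa using this
  have hWf0 : HasWind (fun θ => f (0, circleMap 0 r θ)) ν := by
    have := hasWind_sum (R := r) hr0'.le {0} (by simpa using hr0') (fun _ => (ν : ℤ))
      (fun w => f (0, w)) (by
        intro w hw
        have hw' : ‖w‖ ≤ r := by simpa using hw.1
        exact (ContinuousAt.comp (f := fun w : ℂ => ((0:X), w)) (g := f)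
          (hball (0, w) (hmem 0 h0ρ w hw')).2.2.1.continuousAt (by fun_prop)).continuousWithinAt)
      (by
        intro w hw
        have hw' : ‖w‖ ≤ r := by simpa using hw.1
        have h2 : w ≠ 0 := by simpa using hw.2
        exact hball' w (by rw [mem_ball, dist_zero_right]; linarith) h2)
      (by
        intro a ha
        rw [Finset.mem_singleton] at ha
        subst ha
        exact hasIdx_analytic hA0 hν)
    simpa using this
  have hWx := hhom U (fun z hz => (hball z hz).1) hUne k hW0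
  have hWfx := hhom f (fun z hz => (hball z hz).2.2.1.continuousAt) hfc ν hWf0
  -- the zeros of f(x, ·)
  have hxρ : ‖x‖ < ρ := hlt x hx2
  have hAx : ∀ w : ℂ, ‖w‖ ≤ r → AnalyticAt ℂ (fun w : ℂ => f (x, w)) w := by
    intro w hw
    exact AnalyticAt.fun_comp (g := f) (f := fun w : ℂ => (x, w))
      (hball (x, w) (hmem x hxρ w hw)).2.2.1 (hline x w)
  have hderiv : ∀ w : ℂ, ‖w‖ ≤ r → f (x, w) = 0 → deriv (fun w : ℂ => f (x, w)) w ≠ 0 := by
    intro w hw h0
    refine hx1 w (lt_of_le_of_ne hw ?_) h0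
    intro h1
    exact hfc x hx2 w (by simpa using h1) h0
  have hfin : {w : ℂ | w ∈ closedBall (0:ℂ) r ∧ f (x, w) = 0}.Finite := by
    by_contra hinf
    obtain ⟨a, ha, hacc⟩ := Set.Infinite.exists_accPt_of_subset_isCompact hinf
      (isCompact_closedBall (0:ℂ) r) (fun w hw => hw.1)
    have ha' : ‖a‖ ≤ r := by simpa using ha
    rw [accPt_iff_frequently] at hacc
    have h1 : ∃ᶠ w in 𝓝[≠] a, f (x, w) = 0 := by
      rw [frequently_nhdsWithin_iff]
      exact hacc.mono fun w hw => ⟨hw.2.2, hw.1⟩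
    have h2 := (hAx a ha').frequently_zero_iff_eventually_zero.1 h1
    have h3 : f (x, a) = 0 := h2.self_of_nhds
    apply hderiv a ha' h3
    have h4 : (fun w : ℂ => f (x, w)) =ᶠ[𝓝 a] fun _ => 0 := h2
    rw [h4.deriv_eq]; simp
  set S : Finset ℂ := hfin.toFinset with hS
  have hSmem : ∀ w, w ∈ S ↔ ‖w‖ ≤ r ∧ f (x, w) = 0 := by
    intro w; rw [hS, Set.Finite.mem_toFinset]; simp
  have hSball : ∀ w ∈ S, w ∈ ball (0:ℂ) r := by
    intro w hw
    rw [hSmem] at hw
    rw [mem_ball, dist_zero_right]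
    refine lt_of_le_of_ne hw.1 ?_
    intro h1
    exact hfc x hx2 w (by simpa using h1) hw.2
  have hord : ∀ w ∈ S, HasIdx (fun z => z - w) (fun w : ℂ => f (x, w)) w 1 := by
    intro w hw
    rw [hSmem] at hw
    have h1 : analyticOrderAt (fun w : ℂ => f (x, w)) w = 1 :=
      (hAx w hw.1).analyticOrderAt_eq_one_of_zero_deriv_ne_zero hw.2 (hderiv w hw.1 hw.2)
    exact_mod_cast hasIdx_analytic (hAx w hw.1) (m := 1) (by simpa using h1)
  have hcard : (S.card : ℤ) = ν := by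
    have h1 := hasWind_sum (R := r) hr0'.le S hSball (fun _ => (1:ℤ))
      (fun w => f (x, w)) (by
        intro w hw
        exact (hAx w (by simpa using hw.1)).continuousAt.continuousWithinAt)
      (by
        intro w hw h0
        exact hw.2 ((hSmem w).2 ⟨by simpa using hw.1, h0⟩))
      hord
    have h2 := h1.unique hWfx
    simpa using h2
  refine ⟨x, S, by exact_mod_cast hcard, ?_, ?_⟩
  · intro w hw
    rw [hSmem] at hw
    exact ⟨(hball (x, w) (hmem x hxρ w hw.1)).2.2.2, hw.2, hderiv w hw.1 hw.2⟩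
  · intro κ hκ
    have h1 := hasWind_sum (R := r) hr0'.le S hSball κ
      (fun w => U (x, w)) (by
        intro w hw
        have hw' : ‖w‖ ≤ r := by simpa using hw.1
        exact (ContinuousAt.comp (f := fun w : ℂ => (x, w)) (g := U)
          (hball (x, w) (hmem x hxρ w hw')).1 (by fun_prop)).continuousWithinAt)
      (by
        intro w hw h0
        have hw' : ‖w‖ ≤ r := by simpa using hw.1
        exact hw.2 ((hSmem w).2 ⟨hw', (hball (x, w) (hmem x hxρ w hw')).2.1 h0⟩))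
      (by
        intro w hw
        have h2 : HasIdx (f ∘ fun w : ℂ => (x, w)) (U ∘ fun w : ℂ => (x, w)) w (κ w) :=
          (hκ w hw).comp (Eventually.of_forall fun z => by fun_prop)
        have h3 := (hord w hw).trans h2
        rwa [one_mul] at h3)
    exact hWx.unique h1

end pert

end Vale.Agent.P268
end
end

section

section

open Set Filter Metric Topology

namespace Vale.Agent.P268

variable {E F : Type*} [NormedAddCommGroup E] [NormedSpace ℂ E]
  [NormedAddCommGroup F] [NormedSpace ℂ F]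

/-- Cauchy estimate for the Frechet derivative. -/
theorem norm_fderiv_le_of_ball {f : E → F} {x : E} {r C : ℝ} (hr : 0 < r)
    (hf : DifferentiableOn ℂ f (ball x r)) (hC : ∀ y ∈ ball x r, ‖f y‖ ≤ C) :
    ‖fderiv ℂ f x‖ ≤ C / r := by
  have hC0 : 0 ≤ C := (norm_nonneg _).trans (hC x (mem_ball_self hr))
  have hfx : DifferentiableAt ℂ f x := hf.differentiableAt (ball_mem_nhds x hr)
  refine ContinuousLinearMap.opNorm_le_bound _ (by positivity) fun v => ?_
  rcases eq_or_ne v 0 with rfl | hv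
  · simp
  have hv' : 0 < ‖v‖ := norm_pos_iff.2 hv
  have hder : deriv (fun t : ℂ => f (x + t • v)) 0 = fderiv ℂ f x v := by
    have h1 : HasDerivAt (fun t : ℂ => x + t • v) v 0 := by
      simpa using ((hasDerivAt_id (0 : ℂ)).smul_const v).const_add x
    have h2 : HasFDerivAt f (fderiv ℂ f x) (x + (0 : ℂ) • v) := by simpa using hfx.hasFDerivAt
    exact (h2.comp_hasDerivAt (0 : ℂ) h1).deriv
  have hmem : ∀ t ∈ ball (0 : ℂ) (r / ‖v‖), x + t • v ∈ ball x r := by
    intro t ht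
    rw [mem_ball_zero_iff] at ht
    rw [mem_ball, dist_eq_norm, add_sub_cancel_left, norm_smul]
    exact (lt_div_iff₀ hv').1 ht
  have hd : DifferentiableOn ℂ (fun t : ℂ => f (x + t • v)) (ball 0 (r / ‖v‖)) := by
    refine hf.comp ?_ hmem
    fun_prop
  rw [← hder]
  have key : ∀ s : ℝ, 0 < s → s < r / ‖v‖ → ‖deriv (fun t : ℂ => f (x + t • v)) 0‖ ≤ C / s := by
    intro s hs hs'
    apply Complex.norm_deriv_le_of_forall_mem_sphere_norm_le hs
    · exact (hd.mono (closedBall_subset_ball hs')).diffContOnCl_ball (le_refl _) |>.mono (le_refl _)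
    · intro z hz
      exact hC _ (hmem z (by
        rw [mem_sphere_zero_iff_norm] at hz
        rw [mem_ball_zero_iff, hz]; exact hs'))
  have hlim : Tendsto (fun s : ℝ => C / s) (𝓝[<] (r / ‖v‖)) (𝓝 (C / (r / ‖v‖))) := by
    apply tendsto_nhdsWithin_of_tendsto_nhds
    exact tendsto_const_nhds.div tendsto_id (by positivity)
  have hev : ∀ᶠ s : ℝ in 𝓝[<] (r / ‖v‖), ‖deriv (fun t : ℂ => f (x + t • v)) 0‖ ≤ C / s := by
    have : Ioo 0 (r / ‖v‖) ∈ 𝓝[<] (r / ‖v‖) := Ioo_mem_nhdsLT (by positivity)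
    filter_upwards [this] with s hs using key s hs.1 hs.2
  have := ge_of_tendsto hlim hev
  calc _ ≤ C / (r / ‖v‖) := this
    _ = C / r * ‖v‖ := by field_simp

/-- The Frechet derivative of a holomorphic function is continuous. -/
theorem continuousOn_fderiv_of_differentiableOn [FiniteDimensional ℂ E] {f : E → F} {U : Set E}
    (hU : IsOpen U) (hf : DifferentiableOn ℂ f U) : ContinuousOn (fderiv ℂ f) U := by
  have : ProperSpace E := FiniteDimensional.proper ℂ E
  intro x hx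
  apply ContinuousAt.continuousWithinAt
  obtain ⟨r, hr, hrU⟩ : ∃ r > 0, closedBall x (2 * r) ⊆ U := by
    obtain ⟨r, hr, h⟩ := Metric.isOpen_iff.1 hU x hx
    exact ⟨r / 4, by positivity, (closedBall_subset_ball (by linarith)).trans h⟩
  have hunif : UniformContinuousOn f (closedBall x (2 * r)) :=
    (isCompact_closedBall x (2 * r)).uniformContinuousOn_of_continuous (hf.continuousOn.mono hrU)
  rw [Metric.continuousAt_iff]
  intro ε hε
  obtain ⟨δ, hδ, hδf⟩ := Metric.uniformContinuousOn_iff.1 hunif (ε * r / 2) (by positivity)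
  refine ⟨min δ r, by positivity, fun {y} hy => ?_⟩
  have hyδ : dist y x < δ := hy.trans_le (min_le_left _ _)
  have hyr : dist y x < r := hy.trans_le (min_le_right _ _)
  have hxm : ∀ h ∈ ball (0 : E) r, x + h ∈ closedBall x (2 * r) := by
    intro h hh
    rw [mem_ball_zero_iff] at hh
    rw [mem_closedBall, dist_eq_norm, add_sub_cancel_left]; linarith
  have hym : ∀ h ∈ ball (0 : E) r, y + h ∈ closedBall x (2 * r) := by
    intro h hh
    rw [mem_ball_zero_iff] at hh
    rw [mem_closedBall, dist_eq_norm]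
    calc ‖y + h - x‖ = ‖(y - x) + h‖ := by congr 1; abel
      _ ≤ ‖y - x‖ + ‖h‖ := norm_add_le _ _
      _ ≤ 2 * r := by rw [← dist_eq_norm]; linarith
  have hdx : DifferentiableAt ℂ f x := hf.differentiableAt (hU.mem_nhds hx)
  have hyU : y ∈ U := hrU (by simpa using hym 0 (mem_ball_self hr))
  have hdy : DifferentiableAt ℂ f y := hf.differentiableAt (hU.mem_nhds hyU)
  have h1 : HasFDerivAt (fun h : E => f (y + h) - f (x + h)) (fderiv ℂ f y - fderiv ℂ f x) 0 := by
    have hy1 : HasFDerivAt (fun h : E => f (y + h)) (fderiv ℂ f y) 0 := by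
      have := (show HasFDerivAt f (fderiv ℂ f y) (y + 0) by simpa using hdy.hasFDerivAt)
      have h3 := this.comp (0 : E) ((hasFDerivAt_id (0 : E)).const_add y)
      rw [ContinuousLinearMap.comp_id] at h3
      exact h3
    have hx1 : HasFDerivAt (fun h : E => f (x + h)) (fderiv ℂ f x) 0 := by
      have := (show HasFDerivAt f (fderiv ℂ f x) (x + 0) by simpa using hdx.hasFDerivAt)
      have h3 := this.comp (0 : E) ((hasFDerivAt_id (0 : E)).const_add x)
      rw [ContinuousLinearMap.comp_id] at h3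
      exact h3
    exact hy1.sub hx1
  have h2 : ‖fderiv ℂ (fun h : E => f (y + h) - f (x + h)) 0‖ ≤ (ε * r / 2) / r := by
    apply norm_fderiv_le_of_ball hr
    · apply DifferentiableOn.sub
      · exact hf.comp (by fun_prop) fun h hh => hrU (hym h hh)
      · exact hf.comp (by fun_prop) fun h hh => hrU (hxm h hh)
    · intro h hh
      have := hδf (y + h) (hym h hh) (x + h) (hxm h hh) (by simpa using hyδ)
      rw [dist_eq_norm] at this
      exact this.le
  rw [h1.fderiv] at h2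
  rw [dist_eq_norm]
  calc _ ≤ (ε * r / 2) / r := h2
    _ = ε / 2 := by field_simp
    _ < ε := by linarith

/-- Holomorphic dependence of circle integrals on parameters. -/
theorem differentiableOn_circleIntegral [FiniteDimensional ℂ E] [CompleteSpace F]
    {G : E × ℂ → F} {U : Set E} {W : Set ℂ} {c : ℂ} {R : ℝ} (hR : 0 ≤ R)
    (hU : IsOpen U) (hW : IsOpen W) (hsW : sphere c R ⊆ W)
    (hG : DifferentiableOn ℂ G (U ×ˢ W)) :
    DifferentiableOn ℂ (fun x => ∮ t in C(c, R), G (x, t)) U := by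
  have : ProperSpace E := FiniteDimensional.proper ℂ E
  intro x₀ hx₀
  apply DifferentiableAt.differentiableWithinAt
  have hUW : IsOpen (U ×ˢ W) := hU.prod hW
  -- bound near `x₀`
  obtain ⟨r, hr, hrU⟩ : ∃ r > 0, closedBall x₀ (2 * r) ⊆ U := by
    obtain ⟨r, hr, h⟩ := Metric.isOpen_iff.1 hU x₀ hx₀
    exact ⟨r / 4, by positivity, (closedBall_subset_ball (by linarith)).trans h⟩
  have hcomp : IsCompact (closedBall x₀ (2 * r) ×ˢ sphere c R) :=
    (isCompact_closedBall _ _).prod (isCompact_sphere _ _)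
  have hsub : closedBall x₀ (2 * r) ×ˢ sphere c R ⊆ U ×ˢ W := prod_mono hrU hsW
  obtain ⟨C, hC⟩ := hcomp.exists_bound_of_continuousOn (hG.continuousOn.mono hsub)
  have hcirc : ∀ θ : ℝ, circleMap c R θ ∈ sphere c R := fun θ => circleMap_mem_sphere c hR θ
  have hdG : ∀ x ∈ ball x₀ (2 * r), ∀ t ∈ sphere c R,
      HasFDerivAt (fun x => G (x, t))
        ((fderiv ℂ G (x, t)).comp (ContinuousLinearMap.inl ℂ E ℂ)) x := by
    intro x hx t ht
    have h1 : DifferentiableAt ℂ G (x, t) :=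
      hG.differentiableAt (hUW.mem_nhds ⟨hrU (ball_subset_closedBall hx), hsW ht⟩)
    have h2 : HasFDerivAt (fun x : E => (x, t)) (ContinuousLinearMap.inl ℂ E ℂ) x :=
      hasFDerivAt_prodMk_left x t
    exact h1.hasFDerivAt.comp x h2
  have hbound : ∀ x ∈ ball x₀ r, ∀ t ∈ sphere c R,
      ‖(fderiv ℂ G (x, t)).comp (ContinuousLinearMap.inl ℂ E ℂ)‖ ≤ C / r := by
    intro x hx t ht
    have hxb : ball x r ⊆ ball x₀ (2 * r) := by
      intro y hy
      rw [mem_ball] at hx hy ⊢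
      calc dist y x₀ ≤ dist y x + dist x x₀ := dist_triangle _ _ _
        _ < 2 * r := by linarith
    have hx2 : x ∈ ball x₀ (2 * r) := hxb (mem_ball_self hr)
    rw [← (hdG x hx2 t ht).fderiv]
    apply norm_fderiv_le_of_ball hr
    · intro y hy
      exact (hdG y (hxb hy) t ht).differentiableAt.differentiableWithinAt
    · intro y hy
      exact hC (y, t) ⟨ball_subset_closedBall (hxb hy), ht⟩
  have hcontD : ContinuousOn (fderiv ℂ G) (U ×ˢ W) := continuousOn_fderiv_of_differentiableOn hUW hG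
  have hcd : Continuous (deriv (circleMap c R)) := by
    have : deriv (circleMap c R) = fun θ => circleMap 0 R θ * Complex.I := by
      ext θ; exact deriv_circleMap c R θ
    rw [this]
    exact (continuous_circleMap 0 R).mul continuous_const
  simp only [circleIntegral]
  have key := hasFDerivAt_integral_of_dominated_of_fderiv_le
    (μ := MeasureTheory.volume.restrict (Set.uIoc 0 (2 * Real.pi)))
    (F := fun (x : E) (θ : ℝ) => deriv (circleMap c R) θ • G (x, circleMap c R θ))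
    (F' := fun (x : E) (θ : ℝ) => deriv (circleMap c R) θ •
      ((fderiv ℂ G (x, circleMap c R θ)).comp (ContinuousLinearMap.inl ℂ E ℂ)))
    (x₀ := x₀) (s := ball x₀ r) (bound := fun _ => |R| * (C / r)) (𝕜 := ℂ)
    (ball_mem_nhds x₀ hr) ?_ ?_ ?_ ?_ ?_ ?_
  · have h0 : (0 : ℝ) ≤ 2 * Real.pi := by positivity
    simp only [intervalIntegral.integral_of_le h0, Set.uIoc_of_le h0] at key ⊢
    exact key.differentiableAt
  · filter_upwards [ball_mem_nhds x₀ hr] with x hx
    apply ContinuousOn.aestronglyMeasurable _ measurableSet_uIoc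
    refine hcd.continuousOn.smul ?_
    · refine hG.continuousOn.comp (by fun_prop) fun θ _ => ?_
      exact ⟨hrU (ball_subset_closedBall (ball_subset_ball (by linarith) hx)), hsW (hcirc θ)⟩
  · have hci : CircleIntegrable (fun t => G (x₀, t)) c R := by
      apply ContinuousOn.circleIntegrable hR
      refine hG.continuousOn.comp (by fun_prop) fun t ht => ?_
      exact ⟨hx₀, hsW ht⟩
    have := hci.out
    rw [intervalIntegrable_iff] at this
    exact this
  · apply ContinuousOn.aestronglyMeasurable _ measurableSet_uIoc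
    refine hcd.continuousOn.smul ?_
    · have h1 : ContinuousOn (fun θ : ℝ => fderiv ℂ G (x₀, circleMap c R θ))
          (Set.uIoc 0 (2 * Real.pi)) := by
        refine hcontD.comp (by fun_prop) fun θ _ => ?_
        exact ⟨hx₀, hsW (hcirc θ)⟩
      exact h1.clm_comp continuousOn_const
  · refine Eventually.of_forall fun θ x hx => ?_
    rw [norm_smul]
    have : ‖deriv (circleMap c R) θ‖ = |R| := by simp [deriv_circleMap]
    rw [this]
    exact mul_le_mul_of_nonneg_left (hbound x hx _ (hcirc θ)) (abs_nonneg R)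
  · rw [Set.uIoc_of_le (by positivity)]
    exact MeasureTheory.integrable_const _
  · refine Eventually.of_forall fun θ x hx => ?_
    exact (hdG x (ball_subset_ball (by linarith) hx) _ (hcirc θ)).const_smul _

/-- Directional derivatives of holomorphic functions are holomorphic. -/
theorem differentiableOn_fderiv_apply [FiniteDimensional ℂ E] [CompleteSpace F] {f : E → F}
    {U : Set E} (hU : IsOpen U) (hf : DifferentiableOn ℂ f U) (v : E) :
    DifferentiableOn ℂ (fun x => fderiv ℂ f x v) U := by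
  have : ProperSpace E := FiniteDimensional.proper ℂ E
  intro x₀ hx₀
  apply DifferentiableAt.differentiableWithinAt
  obtain ⟨r, hr, hrU⟩ : ∃ r > 0, ball x₀ (2 * r) ⊆ U := by
    obtain ⟨r, hr, h⟩ := Metric.isOpen_iff.1 hU x₀ hx₀
    exact ⟨r / 4, by positivity, (ball_subset_ball (by linarith)).trans h⟩
  -- radius for the scalar variable
  set s : ℝ := r / (‖v‖ + 1) / 2 with hs_def
  have hv1 : 0 < ‖v‖ + 1 := by positivity
  have hs : 0 < s := by positivity
  have hmem : ∀ x ∈ ball x₀ r, ∀ t ∈ ball (0 : ℂ) (2 * s), x + t • v ∈ ball x₀ (2 * r) := by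
    intro x hx t ht
    rw [mem_ball_zero_iff] at ht
    rw [mem_ball, dist_eq_norm] at hx ⊢
    have h1 : ‖t • v‖ ≤ r := by
      rw [norm_smul]
      calc ‖t‖ * ‖v‖ ≤ (2 * s) * (‖v‖ + 1) := by gcongr; linarith
        _ = r := by rw [hs_def]; field_simp
    calc ‖x + t • v - x₀‖ = ‖(x - x₀) + t • v‖ := by congr 1; abel
      _ ≤ ‖x - x₀‖ + ‖t • v‖ := norm_add_le _ _
      _ < 2 * r := by linarith
  have hG : DifferentiableOn ℂ (fun p : E × ℂ => (p.2 ^ 2)⁻¹ • f (p.1 + p.2 • v))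
      (ball x₀ r ×ˢ (ball (0 : ℂ) (2 * s) \ {0})) := by
    apply DifferentiableOn.smul
    · apply DifferentiableOn.inv
      · fun_prop
      · intro p hp
        exact pow_ne_zero 2 hp.2.2
    · refine hf.comp (by fun_prop) fun p hp => hrU (hmem p.1 hp.1 p.2 hp.2.1)
  have hsW : sphere (0 : ℂ) s ⊆ ball (0 : ℂ) (2 * s) \ {0} := by
    intro t ht
    rw [mem_sphere_zero_iff_norm] at ht
    refine ⟨by rw [mem_ball_zero_iff, ht]; linarith, fun h => ?_⟩
    rw [mem_singleton_iff] at h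
    rw [h, norm_zero] at ht
    exact hs.ne ht
  have key := differentiableOn_circleIntegral (c := 0) (R := s) hs.le isOpen_ball
    (isOpen_ball.sdiff isClosed_singleton) hsW hG
  have hEq : ∀ x ∈ ball x₀ r, fderiv ℂ f x v =
      (2 * Real.pi * Complex.I : ℂ)⁻¹ • ∮ t in C(0, s), (t ^ 2)⁻¹ • f (x + t • v) := by
    intro x hx
    have hfx : DifferentiableAt ℂ f x :=
      hf.differentiableAt (hU.mem_nhds (hrU (ball_subset_ball (by linarith) hx)))
    have hder : deriv (fun t : ℂ => f (x + t • v)) 0 = fderiv ℂ f x v := by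
      have h1 : HasDerivAt (fun t : ℂ => x + t • v) v 0 := by
        simpa using ((hasDerivAt_id (0 : ℂ)).smul_const v).const_add x
      have h2 : HasFDerivAt f (fderiv ℂ f x) (x + (0 : ℂ) • v) := by simpa using hfx.hasFDerivAt
      exact (h2.comp_hasDerivAt (0 : ℂ) h1).deriv
    rw [← hder]
    have hd : DiffContOnCl ℂ (fun t : ℂ => f (x + t • v)) (ball 0 s) := by
      have : DifferentiableOn ℂ (fun t : ℂ => f (x + t • v)) (ball 0 (2 * s)) :=
        hf.comp (by fun_prop) fun t ht => hrU (hmem x hx t ht)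
      exact (this.mono (closedBall_subset_ball (by linarith))).diffContOnCl_ball (le_refl _)
    have h3 := hd.deriv_eq_smul_circleIntegral hs
    simp only [sub_zero, one_div] at h3
    rw [h3, inv_smul_smul₀ Complex.two_pi_I_ne_zero]
  have h2 : DifferentiableAt ℂ (fun x => (2 * Real.pi * Complex.I : ℂ)⁻¹ •
      ∮ t in C(0, s), (t ^ 2)⁻¹ • f (x + t • v)) x₀ :=
    (key.differentiableAt (ball_mem_nhds x₀ hr)).const_smul _
  refine h2.congr_of_eventuallyEq ?_
  filter_upwards [ball_mem_nhds x₀ hr] with x hx using hEq x hx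

theorem contDiffOn_of_differentiableOn [FiniteDimensional ℂ E] [CompleteSpace F] {f : E → F}
    {U : Set E} (hU : IsOpen U) (hf : DifferentiableOn ℂ f U) (n : ℕ) :
    ContDiffOn ℂ n f U := by
  induction n generalizing f with
  | zero => exact_mod_cast contDiffOn_zero.2 hf.continuousOn
  | succ n ih =>
    rw [Nat.cast_add, Nat.cast_one, contDiffOn_succ_iff_fderiv_of_isOpen hU]
    refine ⟨hf, by simp, ?_⟩
    rw [contDiffOn_clm_apply]
    exact fun v => ih (differentiableOn_fderiv_apply hU hf v)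

/-- Iterated derivatives along a line. -/
theorem iteratedDeriv_line {f : E → F} {U : Set E} (hU : IsOpen U) {n : ℕ}
    (hf : ContDiffOn ℂ n f U) {x y : E} {t : ℂ} (ht : x + t • y ∈ U) :
    iteratedDeriv n (fun s : ℂ => f (x + s • y)) t =
      iteratedFDeriv ℂ n f (x + t • y) (fun _ => y) := by
  induction n generalizing t with
  | zero => simp
  | succ n ih =>
    have hf' : ContDiffOn ℂ n f U := hf.of_le (by exact_mod_cast Nat.le_succ n)
    have hline : Continuous (fun s : ℂ => x + s • y) := by fun_prop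
    have hev : ∀ᶠ s in 𝓝 t, x + s • y ∈ U := hline.continuousAt.eventually (hU.mem_nhds ht)
    rw [iteratedDeriv_succ]
    have h1 : iteratedDeriv n (fun s : ℂ => f (x + s • y)) =ᶠ[𝓝 t]
        fun s => iteratedFDeriv ℂ n f (x + s • y) (fun _ => y) := by
      filter_upwards [hev] with s hs using ih hf' hs
    rw [h1.deriv_eq]
    have hcd : ContDiffAt ℂ (n + 1 : ℕ) f (x + t • y) := hf.contDiffAt (hU.mem_nhds ht)
    have h2 : DifferentiableAt ℂ (iteratedFDeriv ℂ n f) (x + t • y) :=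
      hcd.differentiableAt_iteratedFDeriv (by exact_mod_cast Nat.lt_succ_self n)
    have h3 : HasDerivAt (fun s : ℂ => x + s • y) y t := by
      simpa using ((hasDerivAt_id t).smul_const y).const_add x
    have h4 : HasDerivAt (fun s : ℂ => iteratedFDeriv ℂ n f (x + s • y))
        (fderiv ℂ (iteratedFDeriv ℂ n f) (x + t • y) y) t := h2.hasFDerivAt.comp_hasDerivAt t h3
    have h5 : HasDerivAt (fun s : ℂ => iteratedFDeriv ℂ n f (x + s • y) (fun _ => y))
        ((fderiv ℂ (iteratedFDeriv ℂ n f) (x + t • y) y) (fun _ => y)) t :=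
      (ContinuousMultilinearMap.apply ℂ (fun _ : Fin n => E) F (fun _ => y)).hasFDerivAt.comp_hasDerivAt
        t h4
    rw [h5.deriv, iteratedFDeriv_succ_apply_left]
    rfl

/-- Osgood lemma: holomorphic functions on open sets of finite-dimensional spaces are analytic. -/
theorem analyticAt_of_differentiableOn [FiniteDimensional ℂ E] [CompleteSpace F] {f : E → F}
    {U : Set E} (hU : IsOpen U) (hf : DifferentiableOn ℂ f U) {x : E} (hx : x ∈ U) :
    AnalyticAt ℂ f x := by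
  have : ProperSpace E := FiniteDimensional.proper ℂ E
  obtain ⟨r, hr, hrU⟩ : ∃ r > 0, closedBall x r ⊆ U := by
    obtain ⟨r, hr, h⟩ := Metric.isOpen_iff.1 hU x hx
    exact ⟨r / 2, by positivity, (closedBall_subset_ball (by linarith)).trans h⟩
  obtain ⟨C, hC⟩ := (isCompact_closedBall x r).exists_bound_of_continuousOn
    (hf.continuousOn.mono hrU)
  have hC0 : 0 ≤ C := (norm_nonneg _).trans (hC x (mem_closedBall_self hr.le))
  have hcd : ∀ n : ℕ, ContDiffOn ℂ n f U := contDiffOn_of_differentiableOn hU hf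
  -- bounds for the iterated derivatives
  have hbd : ∀ (δ : ℝ), 0 < δ → ∀ k : ℕ, ∀ y, dist y x + k * δ ≤ r →
      ‖iteratedFDeriv ℂ k f y‖ ≤ C / δ ^ k := by
    intro δ hδ k
    induction k with
    | zero =>
      intro y hy
      simp only [CharP.cast_eq_zero, zero_mul, add_zero] at hy
      simpa using hC y hy
    | succ k ih =>
      intro y hy
      push_cast at hy
      rw [← norm_fderiv_iteratedFDeriv]
      have hb : ball y δ ⊆ ball x r := by
        intro z hz
        rw [mem_ball] at hz ⊢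
        have : dist z x ≤ dist z y + dist y x := dist_triangle _ _ _
        nlinarith [hδ.le, (Nat.cast_nonneg k : (0 : ℝ) ≤ k), mul_nonneg (Nat.cast_nonneg k : (0 : ℝ) ≤ k) hδ.le]
      have hd : DifferentiableOn ℂ (iteratedFDeriv ℂ k f) (ball y δ) := by
        intro z hz
        have hzU : z ∈ U := hrU (ball_subset_closedBall (hb hz))
        exact (((hcd (k + 1)).contDiffAt (hU.mem_nhds hzU)).differentiableAt_iteratedFDeriv
          (by exact_mod_cast Nat.lt_succ_self k)).differentiableWithinAt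
      have := norm_fderiv_le_of_ball hδ hd (C := C / δ ^ k) (by
        intro z hz
        apply ih
        rw [mem_ball] at hz
        have : dist z x ≤ dist z y + dist y x := dist_triangle _ _ _
        linarith)
      calc _ ≤ C / δ ^ k / δ := this
        _ = C / δ ^ (k + 1) := by rw [pow_succ, div_div]
  -- the power series
  let p : FormalMultilinearSeries ℂ E F := fun n => ((n.factorial : ℂ)⁻¹) • iteratedFDeriv ℂ n f x
  have hp : ∀ n, ‖p n‖ ≤ C * Real.exp 1 * (Real.exp 1 / r) ^ n := by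
    intro n
    have h1 : ‖iteratedFDeriv ℂ n f x‖ ≤ C / (r / (n + 1)) ^ n := by
      apply hbd (r / (n + 1)) (by positivity) n x
      rw [dist_self, zero_add]
      rw [mul_div_assoc', div_le_iff₀ (by positivity)]
      nlinarith [hr.le]
    have h2 : ((n : ℝ) + 1) ^ n / n.factorial ≤ Real.exp (n + 1) :=
      Real.pow_div_factorial_le_exp _ (by positivity) n
    calc ‖p n‖ = ((n.factorial : ℝ))⁻¹ * ‖iteratedFDeriv ℂ n f x‖ := by
          simp only [p, norm_smul, norm_inv, Complex.norm_natCast]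
      _ ≤ ((n.factorial : ℝ))⁻¹ * (C / (r / (n + 1)) ^ n) := by gcongr
      _ = C * (((n : ℝ) + 1) ^ n / n.factorial) / r ^ n := by
          rw [div_pow]; field_simp
      _ ≤ C * Real.exp (n + 1) / r ^ n := by gcongr
      _ = C * Real.exp 1 * (Real.exp 1 / r) ^ n := by
          rw [Real.exp_add, div_pow, ← Real.exp_nat_mul]; ring_nf
  have hρ : 0 < r / Real.exp 1 := by positivity
  set ρ : NNReal := ⟨r / Real.exp 1, hρ.le⟩ with hρdef
  have hrad : (ρ : ENNReal) ≤ p.radius := by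
    apply p.le_radius_of_bound (C * Real.exp 1)
    intro n
    have : ((ρ : NNReal) : ℝ) = r / Real.exp 1 := rfl
    rw [this]
    calc ‖p n‖ * (r / Real.exp 1) ^ n ≤ (C * Real.exp 1 * (Real.exp 1 / r) ^ n) * (r / Real.exp 1) ^ n := by
          gcongr; exact hp n
      _ = C * Real.exp 1 := by
          rw [mul_assoc, ← mul_pow]
          have : Real.exp 1 / r * (r / Real.exp 1) = 1 := by field_simp
          rw [this, one_pow, mul_one]
  refine ⟨p, ρ, hrad, by exact_mod_cast hρ, ?_⟩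
  intro y hy
  have hy' : ‖y‖ < r / Real.exp 1 := by
    rw [mem_eball, edist_zero_right] at hy
    exact_mod_cast (show (‖y‖₊ : ENNReal) < (ρ : ENNReal) from hy)
  have hyr : ‖y‖ < r := by
    refine hy'.trans_le ?_
    apply div_le_self hr.le
    have := Real.add_one_le_exp 1
    linarith
  have hd : DifferentiableOn ℂ (fun t : ℂ => f (x + t • y)) (ball 0 (r / (‖y‖ + (r - ‖y‖) / 2))) := by
    refine hf.comp (by fun_prop) fun t ht => hrU ?_
    rw [mem_ball_zero_iff] at ht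
    rw [mem_closedBall, dist_eq_norm, add_sub_cancel_left, norm_smul]
    have hpos : 0 < ‖y‖ + (r - ‖y‖) / 2 := by linarith [norm_nonneg y]
    rw [lt_div_iff₀ hpos] at ht
    have : ‖t‖ * ‖y‖ ≤ ‖t‖ * (‖y‖ + (r - ‖y‖) / 2) := by
      apply mul_le_mul_of_nonneg_left _ (norm_nonneg _)
      linarith
    linarith
  have h1 : (1 : ℂ) ∈ ball (0 : ℂ) (r / (‖y‖ + (r - ‖y‖) / 2)) := by
    rw [mem_ball_zero_iff, norm_one]
    have hpos : 0 < ‖y‖ + (r - ‖y‖) / 2 := by linarith [norm_nonneg y]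
    rw [lt_div_iff₀ hpos]
    linarith
  have := Complex.hasSum_taylorSeries_on_ball hd h1
  simp only [sub_zero, one_pow, one_smul] at this
  convert this using 2 with n
  rw [iteratedDeriv_line hU (hcd n) (by simpa using hx)]
  simp [p]

end Vale.Agent.P268
end
end

section

section

open Set Filter Metric Topology

namespace Vale.Agent.P268

/-- zeros of a function analytic near a closed disc without zeros on the circle form a finite set -/
theorem finite_zeros {a : ℂ → ℂ} {c : ℂ} {R : ℝ} (hR : 0 < R)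
    (ha : AnalyticOnNhd ℂ a (closedBall c R)) (hs : ∀ w ∈ sphere c R, a w ≠ 0) :
    (closedBall c R ∩ {w | a w = 0}).Finite := by
  by_contra hinf
  obtain ⟨z, hz, hacc⟩ := Set.Infinite.exists_accPt_of_subset_isCompact
    (show (closedBall c R ∩ {w | a w = 0}).Infinite from hinf) (isCompact_closedBall c R)
    inter_subset_left
  have hfreq : ∃ᶠ w in 𝓝[≠] z, a w = 0 := by
    rw [accPt_iff_frequently_nhdsNE] at hacc
    exact hacc.mono fun w hw => hw.2
  have hpre : IsPreconnected (closedBall c R) := (convex_closedBall c R).isPreconnected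
  have h0 := ha.eqOn_zero_of_preconnected_of_frequently_eq_zero hpre hz hfreq
  obtain ⟨w, hw⟩ : (sphere c R).Nonempty := NormedSpace.sphere_nonempty.2 hR.le
  exact hs w hw (h0 (sphere_subset_closedBall hw))

theorem exists_factor_aux (Z : Finset ℂ) : ∀ {a : ℂ → ℂ} {K : Set ℂ},
    AnalyticOnNhd ℂ a K → (∀ w ∈ K, a w = 0 ↔ w ∈ Z) → (∀ w ∈ Z, w ∈ K) →
    (∀ w ∈ Z, ¬ (∀ᶠ z in 𝓝 w, a z = 0)) →
    ∃ (s : Multiset ℂ) (u : ℂ → ℂ), (∀ r, r ∈ s ↔ r ∈ Z) ∧ AnalyticOnNhd ℂ u K ∧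
      (∀ w ∈ K, u w ≠ 0) ∧ ∀ w, a w = (s.map (fun r => w - r)).prod * u w := by
  classical
  induction Z using Finset.induction_on with
  | empty =>
    intro a K ha hz _ _
    refine ⟨0, a, by simp, ha, fun w hw h => ?_, by simp⟩
    simpa using (hz w hw).1 h
  | insert z₀ Z hz₀ ih =>
    intro a K ha hz hZK hne
    have hz₀K : z₀ ∈ K := hZK z₀ (Finset.mem_insert_self _ _)
    have ha0 : AnalyticAt ℂ a z₀ := ha z₀ hz₀K
    have ha00 : a z₀ = 0 := (hz z₀ hz₀K).2 (Finset.mem_insert_self _ _)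
    obtain ⟨n, g, hg, hg0, hag⟩ := (ha0.exists_eventuallyEq_pow_smul_nonzero_iff).2
      (hne z₀ (Finset.mem_insert_self _ _))
    have hn : n ≠ 0 := by
      rintro rfl
      have := hag.self_of_nhds
      simp [ha00] at this
      exact hg0 this.symm
    let b : ℂ → ℂ := fun w => if w = z₀ then g z₀ else a w / (w - z₀) ^ n
    have hb0 : b =ᶠ[𝓝 z₀] g := by
      filter_upwards [hag] with w hw
      simp only [b]
      split_ifs with h
      · rw [h]
      · rw [hw, smul_eq_mul, mul_div_cancel_left₀]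
        exact pow_ne_zero _ (sub_ne_zero.2 h)
    have hbne : ∀ w, w ≠ z₀ → b =ᶠ[𝓝 w] fun w => a w / (w - z₀) ^ n := by
      intro w hw
      filter_upwards [isOpen_ne.mem_nhds hw] with z hz
      simp only [b]
      rw [if_neg hz]
    have hban : AnalyticOnNhd ℂ b K := by
      intro w hw
      by_cases h : w = z₀
      · rw [h]; exact hg.congr hb0.symm
      · refine AnalyticAt.congr ?_ (hbne w h).symm
        exact (ha w hw).div (by fun_prop) (pow_ne_zero _ (sub_ne_zero.2 h))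
    have hab : ∀ w, a w = (w - z₀) ^ n * b w := by
      intro w
      simp only [b]
      split_ifs with h
      · rw [h, ha00]; simp [hn]
      · rw [mul_div_cancel₀]
        exact pow_ne_zero _ (sub_ne_zero.2 h)
    have hbz₀ : b z₀ ≠ 0 := by simp only [b, if_true]; exact hg0
    have hbz : ∀ w ∈ K, b w = 0 ↔ w ∈ Z := by
      intro w hw
      by_cases h : w = z₀
      · subst h
        simp [hbz₀, hz₀]
      · have h1 := hz w hw
        rw [hab w, Finset.mem_insert] at h1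
        have h2 : (w - z₀) ^ n ≠ 0 := pow_ne_zero _ (sub_ne_zero.2 h)
        simp only [mul_eq_zero, h2, false_or, h] at h1
        exact h1
    obtain ⟨s, u, hs, hu, hu0, hbu⟩ := ih hban hbz (fun w hw => hZK w (Finset.mem_insert_of_mem hw))
      (fun w hw hev => hne w (Finset.mem_insert_of_mem hw) (by
        filter_upwards [hev] with z hz
        rw [hab z, hz, mul_zero]))
    refine ⟨Multiset.replicate n z₀ + s, u, ?_, hu, hu0, ?_⟩
    · intro r
      rw [Multiset.mem_add, Multiset.mem_replicate, hs, Finset.mem_insert]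
      simp [hn]
    · intro w
      rw [hab w, hbu w, Multiset.map_add, Multiset.prod_add, Multiset.map_replicate,
        Multiset.prod_replicate, mul_assoc]

/-- One variable factorization. -/
theorem exists_factor {a : ℂ → ℂ} {c : ℂ} {R : ℝ} (hR : 0 < R)
    (ha : AnalyticOnNhd ℂ a (closedBall c R)) (hs : ∀ w ∈ sphere c R, a w ≠ 0) :
    ∃ (s : Multiset ℂ) (u : ℂ → ℂ), (∀ r ∈ s, r ∈ ball c R) ∧ AnalyticOnNhd ℂ u (closedBall c R) ∧
      (∀ w ∈ closedBall c R, u w ≠ 0) ∧ ∀ w, a w = (s.map (fun r => w - r)).prod * u w := by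
  have hfin := finite_zeros hR ha hs
  obtain ⟨s, u, h1, h2, h3, h4⟩ := exists_factor_aux hfin.toFinset ha (K := closedBall c R)
    (by intro w hw; simp [hw]) (by intro w hw; simp at hw; simpa using hw.1)
    (by
      intro w hw hev
      have hw' : w ∈ closedBall c R := by simp at hw; simpa using hw.1
      have hpre : IsPreconnected (closedBall c R) := (convex_closedBall c R).isPreconnected
      have h0 := ha.eqOn_zero_of_preconnected_of_eventuallyEq_zero hpre hw' hev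
      obtain ⟨w, hw⟩ : (sphere c R).Nonempty := NormedSpace.sphere_nonempty.2 hR.le
      exact hs w hw (h0 (sphere_subset_closedBall hw)))
  refine ⟨s, u, ?_, h2, h3, h4⟩
  intro r hr
  have := (h1 r).1 hr
  simp only [Finite.mem_toFinset, mem_inter_iff, mem_ofPred_eq] at this
  rcases this with ⟨hr1, hr2⟩
  rcases (mem_closedBall.1 hr1).lt_or_eq with h | h
  · exact h
  · exact absurd hr2 (hs r h)

theorem analyticAt_multiset_prod (s : Multiset ℂ) (w : ℂ) :
    AnalyticAt ℂ (fun w : ℂ => (s.map (fun r => w - r)).prod) w := by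
  induction s using Multiset.induction_on with
  | empty => simpa using analyticAt_const
  | cons r' s' ih' =>
    simp only [Multiset.map_cons, Multiset.prod_cons]
    exact AnalyticAt.mul (by fun_prop) ih'

/-- The residue formula for the logarithmic derivative. -/
theorem circleIntegral_logDeriv {c : ℂ} {R : ℝ} (hR : 0 < R) {b : ℂ → ℂ}
    (hb : AnalyticOnNhd ℂ b (closedBall c R)) {u : ℂ → ℂ} (hu : AnalyticOnNhd ℂ u (closedBall c R))
    (hu0 : ∀ w ∈ closedBall c R, u w ≠ 0) (s : Multiset ℂ) (hs : ∀ r ∈ s, r ∈ ball c R) {a : ℂ → ℂ}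
    (ha : ∀ w, a w = (s.map (fun r => w - r)).prod * u w) :
    ∮ w in C(c, R), b w * (deriv a w / a w) = 2 * Real.pi * Complex.I * (s.map b).sum := by
  induction s using Multiset.induction_on generalizing a with
  | empty =>
    have hau : a = u := by ext w; simp [ha w]
    subst hau
    simp only [Multiset.map_zero, Multiset.sum_zero, mul_zero]
    have han : AnalyticOnNhd ℂ (fun w => b w * (deriv a w / a w)) (closedBall c R) :=
      hb.mul (hu.deriv.div hu hu0)
    exact Complex.circleIntegral_eq_zero_of_differentiable_on_off_countable hR.le countable_empty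
      han.continuousOn fun z hz => (han z (ball_subset_closedBall hz.1)).differentiableAt
  | cons r s ih =>
    have hr : r ∈ ball c R := hs r (Multiset.mem_cons_self _ _)
    have hs' : ∀ r ∈ s, r ∈ ball c R := fun r' hr' => hs r' (Multiset.mem_cons_of_mem hr')
    set a' : ℂ → ℂ := fun w => (s.map (fun r => w - r)).prod * u w with ha'
    have haa' : a = fun w => (w - r) * a' w := by
      ext w; rw [ha w, ha', Multiset.map_cons, Multiset.prod_cons, mul_assoc]
    have ha'an : AnalyticOnNhd ℂ a' (closedBall c R) :=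
      AnalyticOnNhd.mul (fun w _ => analyticAt_multiset_prod s w) hu
    have ha'0 : ∀ w ∈ sphere c R, a' w ≠ 0 := by
      intro w hw
      apply mul_ne_zero _ (hu0 w (sphere_subset_closedBall hw))
      apply Multiset.prod_ne_zero
      intro h0
      obtain ⟨r', hr', h0'⟩ := Multiset.mem_map.1 h0
      have : w = r' := sub_eq_zero.1 h0'
      subst this
      exact (mem_ball.1 (hs' w hr')).ne (mem_sphere.1 hw)
    have hwr : ∀ w ∈ sphere c R, w - r ≠ 0 := by
      intro w hw h0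
      have : w = r := sub_eq_zero.1 h0
      subst this
      exact (mem_ball.1 hr).ne (mem_sphere.1 hw)
    have hder : ∀ w ∈ sphere c R, b w * (deriv a w / a w) =
        (w - r)⁻¹ • b w + b w * (deriv a' w / a' w) := by
      intro w hw
      have h1 : HasDerivAt a (1 * a' w + (w - r) * deriv a' w) w := by
        rw [haa']
        exact ((hasDerivAt_id w).sub_const r).mul
          (ha'an w (sphere_subset_closedBall hw)).differentiableAt.hasDerivAt
      rw [h1.deriv, haa']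
      have := hwr w hw
      have := ha'0 w hw
      simp only [smul_eq_mul]
      field_simp
    have hc1 : ContinuousOn (fun w => (w - r)⁻¹ • b w) (sphere c R) := by
      exact ContinuousOn.fun_smul (ContinuousOn.inv₀ (by fun_prop) hwr)
        (hb.continuousOn.mono sphere_subset_closedBall)
    have hc2 : ContinuousOn (fun w => b w * (deriv a' w / a' w)) (sphere c R) := by
      apply ContinuousOn.mul (hb.continuousOn.mono sphere_subset_closedBall)
      apply ContinuousOn.div _ _ ha'0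
      · exact ha'an.deriv.continuousOn.mono sphere_subset_closedBall
      · exact ha'an.continuousOn.mono sphere_subset_closedBall
    rw [circleIntegral.integral_congr hR.le hder,
      circleIntegral.integral_add (hc1.circleIntegrable hR.le) (hc2.circleIntegrable hR.le),
      ih hs' (fun w => rfl),
      Complex.circleIntegral_sub_inv_smul_of_differentiable_on_off_countable countable_empty hr
        hb.continuousOn (fun z hz => (hb z (ball_subset_closedBall hz.1)).differentiableAt),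
      Multiset.map_cons, Multiset.sum_cons, smul_eq_mul]
    ring

end Vale.Agent.P268
end
end

section

section

open Set Filter Metric Topology

namespace Vale.Agent.P268

variable {X : Type*} [NormedAddCommGroup X] [NormedSpace ℂ X]

/-- Circle integrals of analytic families are analytic. -/
theorem analyticAt_circleIntegral [FiniteDimensional ℂ X] {G : X × ℂ → ℂ} {x₀ : X} {c : ℂ} {R : ℝ}
    (hR : 0 ≤ R) (hG : ∀ t ∈ sphere c R, AnalyticAt ℂ G (x₀, t)) :
    AnalyticAt ℂ (fun x => ∮ t in C(c, R), G (x, t)) x₀ := by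
  have hop : IsOpen {z : X × ℂ | AnalyticAt ℂ G z} := isOpen_analyticAt ℂ G
  obtain ⟨u, v, hu, hv, hxu, hsv, huv⟩ := generalized_tube_lemma (isCompact_singleton (x := x₀))
    (isCompact_sphere c R) hop (by
      rintro ⟨x, t⟩ ⟨hx, ht⟩
      rw [mem_singleton_iff] at hx
      subst hx
      exact hG t ht)
  apply analyticAt_of_differentiableOn hu _ (hxu rfl)
  refine differentiableOn_circleIntegral hR hu hv hsv ?_
  intro z hz
  exact (show AnalyticAt ℂ G z from huv hz).differentiableAt.differentiableWithinAt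

/-- An enumeration of the roots of `f x` in a disc, with analytic sums. -/
structure RootFam (f : X × ℂ → ℂ) (Ω : Set X) (c : ℂ) (R : ℝ) (ν : ℕ) (ρ : X → Fin ν → ℂ) :
    Prop where
  isOpen : IsOpen Ω
  pos : 0 < R
  an : AnalyticOnNhd ℂ f (Ω ×ˢ closedBall c R)
  ne : ∀ x ∈ Ω, ∀ w ∈ sphere c R, f (x, w) ≠ 0
  mem : ∀ x ∈ Ω, ∀ i, ρ x i ∈ ball c R
  fac : ∀ x ∈ Ω, ∃ u : ℂ → ℂ, AnalyticOnNhd ℂ u (closedBall c R) ∧
    (∀ w ∈ closedBall c R, u w ≠ 0) ∧ ∀ w, f (x, w) = (∏ i, (w - ρ x i)) * u w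
  sum_an : ∀ x ∈ Ω, ∀ b : X × ℂ → ℂ, (∀ w ∈ closedBall c R, AnalyticAt ℂ b (x, w)) →
    AnalyticAt ℂ (fun x => ∑ i, b (x, ρ x i)) x

theorem exists_fin_enum {α : Type*} (s : Multiset α) {ν : ℕ} (h : Multiset.card s = ν) :
    ∃ ρ : Fin ν → α, s = (Finset.univ : Finset (Fin ν)).val.map ρ := by
  obtain ⟨l, rfl⟩ : ∃ l : List α, s = (l : Multiset α) := ⟨s.toList, s.coe_toList.symm⟩
  rw [Multiset.coe_card] at h
  subst h
  refine ⟨l.get, ?_⟩
  rw [Fin.univ_val_map]
  simp

theorem analyticAt_partial {f : X × ℂ → ℂ} {x : X} {w : ℂ} (h : AnalyticAt ℂ f (x, w)) :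
    AnalyticAt ℂ (fun w => f (x, w)) w := by
  have : AnalyticAt ℂ (fun w : ℂ => (x, w)) w := by fun_prop
  exact h.comp this

theorem deriv_partial {f : X × ℂ → ℂ} {x : X} {w : ℂ} (h : AnalyticAt ℂ f (x, w)) :
    deriv (fun w => f (x, w)) w = fderiv ℂ f (x, w) (0, 1) := by
  have h1 : HasDerivAt (fun w : ℂ => (x, w)) (0, 1) w :=
    (hasDerivAt_const w x).prodMk (hasDerivAt_id w)
  exact (h.differentiableAt.hasFDerivAt.comp_hasDerivAt w h1).deriv

theorem exists_rootFam [FiniteDimensional ℂ X] {f : X × ℂ → ℂ} {x₀ : X} {c : ℂ} {R : ℝ} (hR : 0 < R)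
    (hf : ∀ w ∈ closedBall c R, AnalyticAt ℂ f (x₀, w)) (hne : ∀ w ∈ sphere c R, f (x₀, w) ≠ 0) :
    ∃ ε > 0, ∃ (ν : ℕ) (ρ : X → Fin ν → ℂ), RootFam f (ball x₀ ε) c R ν ρ := by
  classical
  -- choose the ball
  have hop : IsOpen {z : X × ℂ | AnalyticAt ℂ f z} := isOpen_analyticAt ℂ f
  have hop2 : IsOpen {z : X × ℂ | AnalyticAt ℂ f z ∧ f z ≠ 0} := by
    rw [isOpen_iff_mem_nhds]
    rintro z ⟨hz1, hz2⟩
    exact (hz1.eventually_analyticAt).and (hz1.continuousAt.eventually_ne hz2)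
  obtain ⟨u, v, hu, hv, hxu, hsv, huv⟩ := generalized_tube_lemma (isCompact_singleton (x := x₀))
    (isCompact_closedBall c R) hop (by
      rintro ⟨x, t⟩ ⟨hx, ht⟩
      rw [mem_singleton_iff] at hx
      subst hx
      exact hf t ht)
  obtain ⟨u2, v2, hu2, hv2, hxu2, hsv2, huv2⟩ := generalized_tube_lemma
    (isCompact_singleton (x := x₀)) (isCompact_sphere c R) hop2 (by
      rintro ⟨x, t⟩ ⟨hx, ht⟩
      rw [mem_singleton_iff] at hx
      subst hx
      exact ⟨hf t (sphere_subset_closedBall ht), hne t ht⟩)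
  obtain ⟨ε, hε, hεu⟩ := Metric.isOpen_iff.1 (hu.inter hu2) x₀ ⟨hxu rfl, hxu2 rfl⟩
  have han : AnalyticOnNhd ℂ f (ball x₀ ε ×ˢ closedBall c R) := fun z hz =>
    huv ⟨(hεu hz.1).1, hsv hz.2⟩
  have hne' : ∀ x ∈ ball x₀ ε, ∀ w ∈ sphere c R, f (x, w) ≠ 0 := fun x hx w hw =>
    (huv2 (show (x, w) ∈ u2 ×ˢ v2 from ⟨(hεu hx).2, hsv2 hw⟩)).2
  have hex : ∀ x ∈ ball x₀ ε, ∃ (s : Multiset ℂ) (u : ℂ → ℂ), (∀ r ∈ s, r ∈ ball c R) ∧
      AnalyticOnNhd ℂ u (closedBall c R) ∧ (∀ w ∈ closedBall c R, u w ≠ 0) ∧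
      ∀ w, f (x, w) = (s.map (fun r => w - r)).prod * u w := by
    intro x hx
    exact exists_factor hR (fun w hw => analyticAt_partial (han (x, w) ⟨hx, hw⟩)) (hne' x hx)
  choose! s U hsmem hUan hU0 hfac using hex
  -- the sum formula
  have hsum : ∀ b : X × ℂ → ℂ, ∀ x ∈ ball x₀ ε, (∀ w ∈ closedBall c R, AnalyticAt ℂ b (x, w)) →
      ((s x).map (fun r => b (x, r))).sum = (2 * Real.pi * Complex.I)⁻¹ *
        ∮ w in C(c, R), b (x, w) * (fderiv ℂ f (x, w) (0, 1) / f (x, w)) := by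
    intro b x hx hb
    have h1 := circleIntegral_logDeriv hR (b := fun w => b (x, w))
      (fun w hw => analyticAt_partial (hb w hw)) (hUan x hx) (hU0 x hx) (s x)
      (hsmem x hx) (hfac x hx)
    rw [eq_inv_mul_iff_mul_eq₀ Complex.two_pi_I_ne_zero, ← h1]
    apply circleIntegral.integral_congr hR.le
    intro w hw
    simp only
    rw [deriv_partial (han (x, w) ⟨hx, sphere_subset_closedBall hw⟩)]
  have hsum_an : ∀ b : X × ℂ → ℂ, ∀ x ∈ ball x₀ ε, (∀ w ∈ closedBall c R, AnalyticAt ℂ b (x, w)) →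
      AnalyticAt ℂ (fun x => ((s x).map (fun r => b (x, r))).sum) x := by
    intro b x hx hb
    have h2 : AnalyticAt ℂ (fun x => (2 * Real.pi * Complex.I : ℂ)⁻¹ *
        ∮ w in C(c, R), b (x, w) * (fderiv ℂ f (x, w) (0, 1) / f (x, w))) x := by
      apply AnalyticAt.mul analyticAt_const
      refine analyticAt_circleIntegral (G := fun z => b z * (fderiv ℂ f z (0, 1) / f z)) hR.le ?_
      intro t ht
      have hm : (x, t) ∈ ball x₀ ε ×ˢ closedBall c R := ⟨hx, sphere_subset_closedBall ht⟩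
      apply (hb t (sphere_subset_closedBall ht)).mul
      apply AnalyticAt.div _ (han _ hm) (hne' x hx t ht)
      have h3 : AnalyticAt ℂ (fderiv ℂ f) (x, t) := (han _ hm).fderiv
      exact ((ContinuousLinearMap.apply ℂ ℂ ((0 : X), (1 : ℂ))).analyticAt _).comp h3
    refine h2.congr ?_
    obtain ⟨u', v', hu', hv', hxu', hsv', huv'⟩ := generalized_tube_lemma
      (isCompact_singleton (x := x)) (isCompact_closedBall c R) (isOpen_analyticAt ℂ b) (by
        rintro ⟨x, t⟩ ⟨hx, ht⟩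
        rw [mem_singleton_iff] at hx
        subst hx
        exact hb t ht)
    filter_upwards [isOpen_ball.mem_nhds hx, hu'.mem_nhds (hxu' rfl)] with y hy hy' using
      (hsum b y hy fun w hw => huv' ⟨hy', hsv' hw⟩).symm
  -- the number of roots is constant
  have hcard_cont : ContinuousOn (fun x => Multiset.card (s x)) (ball x₀ ε) := by
    have h1 : ContinuousOn (fun x => (((s x).map (fun _ => (1 : ℂ))).sum).re) (ball x₀ ε) :=
      Complex.continuous_re.comp_continuousOn (show ContinuousOn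
        (fun x => ((s x).map (fun _ => (1 : ℂ))).sum) (ball x₀ ε) from fun x hx =>
          (hsum_an (fun _ => 1) x hx (fun _ _ => analyticAt_const)).continuousAt.continuousWithinAt)
    have h2 : (fun x => (((s x).map (fun _ => (1 : ℂ))).sum).re) =
        (fun n : ℕ => (n : ℝ)) ∘ fun x => Multiset.card (s x) := by
      ext x
      simp
    rw [h2] at h1
    exact (Nat.isClosedEmbedding_coe_real.isInducing.continuousOn_iff).2 h1
  have hcard : ∀ x ∈ ball x₀ ε, Multiset.card (s x) = Multiset.card (s x₀) := fun x hx =>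
    (convex_ball x₀ ε).isPreconnected.constant hcard_cont hx (mem_ball_self hε)
  have henum : ∀ x ∈ ball x₀ ε, ∃ ρ : Fin (Multiset.card (s x₀)) → ℂ,
      s x = (Finset.univ : Finset _).val.map ρ := fun x hx => exists_fin_enum _ (hcard x hx)
  choose! ρ hρ using henum
  refine ⟨ε, hε, Multiset.card (s x₀), ρ, ⟨isOpen_ball, hR, han, hne', ?_, ?_, ?_⟩⟩
  · intro x hx i
    apply hsmem x hx
    rw [hρ x hx]
    exact Multiset.mem_map_of_mem _ (Finset.mem_univ_val i)
  · intro x hx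
    refine ⟨U x, hUan x hx, hU0 x hx, fun w => ?_⟩
    rw [hfac x hx w, hρ x hx, Multiset.map_map]
    rfl
  · intro x hx b hb
    refine (hsum_an b x hx hb).congr ?_
    filter_upwards [isOpen_ball.mem_nhds hx] with y hy
    rw [hρ y hy, Multiset.map_map]
    rfl

/-- Newton: elementary symmetric functions are analytic if power sums are. -/
theorem analyticAt_esymm {Y : Type*} [NormedAddCommGroup Y] [NormedSpace ℂ Y] {ν : ℕ}
    {A : Y → Fin ν → ℂ} {y₀ : Y} (h : ∀ k : ℕ, AnalyticAt ℂ (fun y => ∑ i, A y i ^ k) y₀) (k : ℕ) :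
    AnalyticAt ℂ (fun y => MvPolynomial.aeval (A y) (MvPolynomial.esymm (Fin ν) ℂ k)) y₀ := by
  induction k using Nat.strong_induction_on with
  | _ k ih =>
    rcases Nat.eq_zero_or_pos k with rfl | hk
    · simp only [MvPolynomial.esymm_zero, map_one]
      exact analyticAt_const
    · have hk0 : (k : ℂ) ≠ 0 := by exact_mod_cast hk.ne'
      have key : ∀ y, MvPolynomial.aeval (A y) (MvPolynomial.esymm (Fin ν) ℂ k) =
          (k : ℂ)⁻¹ * ((-1) ^ (k + 1) * ∑ a ∈ Finset.HasAntidiagonal.antidiagonal k with a.1 < k,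
            (-1) ^ a.1 * MvPolynomial.aeval (A y) (MvPolynomial.esymm (Fin ν) ℂ a.1) *
              ∑ i, A y i ^ a.2) := by
        intro y
        have h1 := congrArg (MvPolynomial.aeval (A y)) (MvPolynomial.mul_esymm_eq_sum (Fin ν) ℂ k)
        simp only [map_mul, map_sum, map_pow, map_neg, map_one, map_natCast, MvPolynomial.psum,
          MvPolynomial.aeval_X] at h1
        rw [← h1, inv_mul_cancel_left₀ hk0]
      simp only [key]
      apply AnalyticAt.mul analyticAt_const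
      apply AnalyticAt.mul analyticAt_const
      apply Finset.analyticAt_fun_sum
      intro a ha
      rw [Finset.mem_filter] at ha
      exact (analyticAt_const.mul (ih a.1 ha.2)).mul (h a.2)

theorem analyticAt_prod_of_psum {Y : Type*} [NormedAddCommGroup Y] [NormedSpace ℂ Y] {ν : ℕ}
    {A : Y → Fin ν → ℂ} {y₀ : Y} (h : ∀ k : ℕ, AnalyticAt ℂ (fun y => ∑ i, A y i ^ k) y₀) :
    AnalyticAt ℂ (fun y => ∏ i, A y i) y₀ := by
  have h1 := analyticAt_esymm h ν
  have h2 : ∀ y, MvPolynomial.aeval (A y) (MvPolynomial.esymm (Fin ν) ℂ ν) = ∏ i, A y i := by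
    intro y
    have hcard : Finset.powersetCard ν (Finset.univ : Finset (Fin ν)) = {Finset.univ} := by
      have := Finset.powersetCard_self (Finset.univ : Finset (Fin ν))
      rwa [Finset.card_univ, Fintype.card_fin] at this
    rw [MvPolynomial.esymm, hcard]
    simp [map_prod]
  simpa only [h2] using h1

namespace RootFam

variable {f : X × ℂ → ℂ} {Ω : Set X} {c : ℂ} {R : ℝ} {ν : ℕ} {ρ : X → Fin ν → ℂ}

theorem prod_an (h : RootFam f Ω c R ν ρ) {b : X × ℂ → ℂ} {x : X} (hx : x ∈ Ω)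
    (hb : ∀ w ∈ closedBall c R, AnalyticAt ℂ b (x, w)) :
    AnalyticAt ℂ (fun x => ∏ i, b (x, ρ x i)) x :=
  analyticAt_prod_of_psum fun k => h.sum_an x hx (fun z => b z ^ k) fun w hw => (hb w hw).pow k

theorem sum_pow_an (h : RootFam f Ω c R ν ρ) (k : ℕ) :
    AnalyticOnNhd ℂ (fun x => ∑ i, ρ x i ^ k) Ω := fun x hx =>
  h.sum_an x hx (fun z => z.2 ^ k) (fun _ _ => analyticAt_snd.pow k)

/-- The Weierstrass polynomial is analytic. -/
theorem poly_an (h : RootFam f Ω c R ν ρ) {z : X × ℂ} (hz : z.1 ∈ Ω) :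
    AnalyticAt ℂ (fun z : X × ℂ => ∏ i, (z.2 - ρ z.1 i)) z := by
  apply analyticAt_prod_of_psum (A := fun z : X × ℂ => fun i => z.2 - ρ z.1 i)
  intro k
  have h1 : ∀ z : X × ℂ, ∑ i, (z.2 - ρ z.1 i) ^ k = ∑ m ∈ Finset.range (k + 1),
      z.2 ^ m * ((-1) ^ (k - m) * (k.choose m : ℂ)) * ∑ i, ρ z.1 i ^ (k - m) := by
    intro z
    simp only [sub_eq_add_neg, add_pow, Finset.mul_sum]
    rw [Finset.sum_comm]
    refine Finset.sum_congr rfl fun m _ => Finset.sum_congr rfl fun i _ => ?_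
    rw [neg_pow]
    ring
  simp only [h1]
  apply Finset.analyticAt_fun_sum
  intro m _
  apply AnalyticAt.mul ((analyticAt_snd.pow m).mul analyticAt_const)
  exact AnalyticAt.fun_comp (f := Prod.fst) (h.sum_pow_an (k - m) z.1 hz) analyticAt_fst

theorem zero_iff (h : RootFam f Ω c R ν ρ) {x : X} (hx : x ∈ Ω) {w : ℂ} (hw : w ∈ closedBall c R) :
    f (x, w) = 0 ↔ ∃ i, w = ρ x i := by
  obtain ⟨u, _, hu0, hfac⟩ := h.fac x hx
  rw [hfac w, mul_eq_zero, or_iff_left (hu0 w hw), Finset.prod_eq_zero_iff]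
  simp [sub_eq_zero]

theorem mono (h : RootFam f Ω c R ν ρ) {Ω' : Set X} (hΩ : Ω' ⊆ Ω) (ho : IsOpen Ω') :
    RootFam f Ω' c R ν ρ :=
  ⟨ho, h.pos, h.an.mono (prod_mono hΩ le_rfl), fun x hx => h.ne x (hΩ hx),
    fun x hx => h.mem x (hΩ hx), fun x hx => h.fac x (hΩ hx), fun x hx => h.sum_an x (hΩ hx)⟩

/-- The unit factor is jointly analytic. -/
theorem exists_unit [FiniteDimensional ℂ X] (h : RootFam f Ω c R ν ρ) :
    ∃ u : X × ℂ → ℂ, AnalyticOnNhd ℂ u (Ω ×ˢ ball c R) ∧ (∀ z ∈ Ω ×ˢ ball c R, u z ≠ 0) ∧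
      ∀ z ∈ Ω ×ˢ ball c R, f z = (∏ i, (z.2 - ρ z.1 i)) * u z := by
  let u : X × ℂ → ℂ := fun z => (2 * Real.pi * Complex.I)⁻¹ *
    ∮ t in C(c, R), (t - z.2)⁻¹ * (f (z.1, t) / ∏ i, (t - ρ z.1 i))
  have hprod0 : ∀ x ∈ Ω, ∀ t ∈ sphere c R, ∏ i, (t - ρ x i) ≠ 0 := by
    intro x hx t ht h0
    obtain ⟨i, _, hi⟩ := Finset.prod_eq_zero_iff.1 h0
    have : t = ρ x i := sub_eq_zero.1 hi
    have h2 := h.mem x hx i
    rw [← this] at h2
    exact (mem_ball.1 h2).ne (mem_sphere.1 ht)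
  have hval : ∀ z ∈ Ω ×ˢ ball c R, ∀ v : ℂ → ℂ, AnalyticOnNhd ℂ v (closedBall c R) →
      (∀ w, f (z.1, w) = (∏ i, (w - ρ z.1 i)) * v w) → u z = v z.2 := by
    intro z hz v hv hfac
    have h1 := Complex.circleIntegral_sub_inv_smul_of_differentiable_on_off_countable
      countable_empty hz.2 hv.continuousOn
      (fun w hw => (hv w (ball_subset_closedBall hw.1)).differentiableAt)
    simp only [u]
    rw [inv_mul_eq_iff_eq_mul₀ Complex.two_pi_I_ne_zero]
    rw [smul_eq_mul] at h1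
    rw [← h1]
    apply circleIntegral.integral_congr h.pos.le
    intro t ht
    simp only [smul_eq_mul]
    rw [hfac t, mul_div_cancel_left₀ _ (hprod0 z.1 hz.1 t ht)]
  refine ⟨u, ?_, ?_, ?_⟩
  · intro z hz
    apply AnalyticAt.mul analyticAt_const
    refine analyticAt_circleIntegral
      (G := fun p : (X × ℂ) × ℂ => (p.2 - p.1.2)⁻¹ * (f (p.1.1, p.2) / ∏ i, (p.2 - ρ p.1.1 i)))
      h.pos.le ?_
    intro t ht
    have e1 : AnalyticAt ℂ (fun p : (X × ℂ) × ℂ => (p.1.1, p.2)) (z, t) :=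
      (analyticAt_fst.comp analyticAt_fst).prod analyticAt_snd
    apply AnalyticAt.mul
    · apply AnalyticAt.inv
      · exact analyticAt_snd.sub (analyticAt_snd.comp analyticAt_fst)
      · intro h0
        have : t = z.2 := sub_eq_zero.1 h0
        have h2 := hz.2
        rw [← this] at h2
        exact (mem_ball.1 h2).ne (mem_sphere.1 ht)
    · apply AnalyticAt.div
      · exact AnalyticAt.fun_comp (f := fun p : (X × ℂ) × ℂ => (p.1.1, p.2))
          (h.an (z.1, t) ⟨hz.1, sphere_subset_closedBall ht⟩) e1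
      · exact AnalyticAt.fun_comp (f := fun p : (X × ℂ) × ℂ => (p.1.1, p.2))
          (h.poly_an (z := (z.1, t)) hz.1) e1
      · exact hprod0 z.1 hz.1 t ht
  · intro z hz
    obtain ⟨v, hv, hv0, hfac⟩ := h.fac z.1 hz.1
    rw [hval z hz v hv hfac]
    exact hv0 _ (ball_subset_closedBall hz.2)
  · intro z hz
    obtain ⟨v, hv, hv0, hfac⟩ := h.fac z.1 hz.1
    rw [hval z hz v hv hfac, ← hfac z.2]

end RootFam

end Vale.Agent.P268
end
end

section

section

open Set Filter Metric Topology Polynomial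

namespace Vale.Agent.P268

/-- Hankel matrix of power sums. -/
noncomputable def hankel {ν : ℕ} (s : ℕ) (r : Fin ν → ℂ) : Matrix (Fin s) (Fin s) ℂ :=
  Matrix.of fun i j => ∑ k, r k ^ ((i : ℕ) + (j : ℕ))

theorem hankel_mulVec {ν s : ℕ} (r : Fin ν → ℂ) (c : Fin s → ℂ) (i : Fin s) :
    (hankel s r).mulVec c i = ∑ k, r k ^ (i : ℕ) * (∑ j : Fin s, c j * r k ^ (j : ℕ)) := by
  simp only [hankel, Matrix.mulVec, dotProduct, Matrix.of_apply, Finset.sum_mul, Finset.mul_sum]
  rw [Finset.sum_comm]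
  refine Finset.sum_congr rfl fun k _ => Finset.sum_congr rfl fun j _ => ?_
  rw [pow_add]; ring

theorem det_hankel_eq_zero {ν s : ℕ} (r : Fin ν → ℂ) (h : (Finset.univ.image r).card < s) :
    (hankel s r).det = 0 := by
  classical
  rw [← Matrix.exists_mulVec_eq_zero_iff]
  set P : ℂ[X] := ∏ a ∈ Finset.univ.image r, (X - C a) with hP
  have hdeg : P.natDegree = (Finset.univ.image r).card := by
    rw [hP, natDegree_prod_of_monic _ _ fun a _ => monic_X_sub_C a]
    simp
  have hmonic : P.Monic := monic_prod_of_monic _ _ fun a _ => monic_X_sub_C a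
  refine ⟨fun j => P.coeff j, ?_, ?_⟩
  · intro h0
    have := congrFun h0 ⟨P.natDegree, by rw [hdeg]; exact h⟩
    simp only [Pi.zero_apply] at this
    rw [coeff_natDegree, hmonic.leadingCoeff] at this
    exact one_ne_zero this
  · ext i
    rw [hankel_mulVec]
    simp only [Pi.zero_apply]
    apply Finset.sum_eq_zero
    intro k _
    have h1 : ∑ j : Fin s, P.coeff j * r k ^ (j : ℕ) = P.eval (r k) := by
      rw [eval_eq_sum_range' (n := s) (by rw [hdeg]; exact h)]
      exact Fin.sum_univ_eq_sum_range (fun j => P.coeff j * r k ^ j) s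
    rw [h1]
    have h2 : P.eval (r k) = 0 := by
      rw [hP, eval_prod]
      apply Finset.prod_eq_zero (Finset.mem_image_of_mem r (Finset.mem_univ k))
      simp
    rw [h2, mul_zero]

theorem det_hankel_ne_zero {ν s : ℕ} (r : Fin ν → ℂ) (h : (Finset.univ.image r).card = s) :
    (hankel s r).det ≠ 0 := by
  classical
  intro hdet
  rw [← Matrix.exists_mulVec_eq_zero_iff] at hdet
  obtain ⟨c, hc0, hc⟩ := hdet
  apply hc0
  set p : ℂ[X] := ∑ j : Fin s, C (c j) * X ^ (j : ℕ) with hp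
  have hpe : ∀ z, p.eval z = ∑ j : Fin s, c j * z ^ (j : ℕ) := by
    intro z; simp [hp, eval_finsetSum]
  have hpcoeff : ∀ j : Fin s, p.coeff j = c j := by
    intro j
    simp only [hp, finsetSum_coeff, coeff_C_mul, coeff_X_pow]
    rw [Finset.sum_eq_single j]
    · simp
    · intro b _ hb
      rw [if_neg (fun h => hb (Fin.ext h.symm)), mul_zero]
    · simp
  have hpdeg : p.degree < s := by
    rw [hp]
    refine (degree_sum_le _ _).trans_lt ?_
    refine (Finset.sup_lt_iff (WithBot.bot_lt_coe s)).2 ?_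
    intro j _
    refine (degree_C_mul_X_pow_le _ _).trans_lt ?_
    exact WithBot.coe_lt_coe.2 j.2
  -- orthogonality
  have horth : ∀ i : Fin s, ∑ k, r k ^ (i : ℕ) * p.eval (r k) = 0 := by
    intro i
    have := congrFun hc i
    rw [hankel_mulVec] at this
    simpa only [hpe, Pi.zero_apply] using this
  have horth' : ∀ q : ℂ[X], q.natDegree < s → ∑ k, q.eval (r k) * p.eval (r k) = 0 := by
    intro q hq
    have h1 : ∀ z, q.eval z = ∑ i ∈ Finset.range s, q.coeff i * z ^ i :=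
      fun z => eval_eq_sum_range' hq z
    simp only [h1, Finset.sum_mul]
    rw [Finset.sum_comm]
    apply Finset.sum_eq_zero
    intro i hi
    have := horth ⟨i, Finset.mem_range.1 hi⟩
    simp only at this
    calc ∑ k, q.coeff i * r k ^ i * p.eval (r k) = q.coeff i * ∑ k, r k ^ i * p.eval (r k) := by
          rw [Finset.mul_sum]
          exact Finset.sum_congr rfl fun k _ => by ring
      _ = 0 := by rw [this, mul_zero]
  have hroot : ∀ a ∈ Finset.univ.image r, p.eval a = 0 := by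
    intro a ha
    set q : ℂ[X] := ∏ b ∈ (Finset.univ.image r).erase a, (X - C b) with hq
    have hqdeg : q.natDegree < s := by
      rw [hq, natDegree_prod_of_monic _ _ fun a _ => monic_X_sub_C a]
      simp only [natDegree_X_sub_C, Finset.sum_const, smul_eq_mul, mul_one]
      rw [← h]
      exact Finset.card_erase_lt_of_mem ha
    have hqa : q.eval a ≠ 0 := by
      rw [hq, eval_prod, Finset.prod_ne_zero_iff]
      intro b hb
      simp only [eval_sub, eval_X, eval_C]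
      exact sub_ne_zero.2 (Finset.ne_of_mem_erase hb).symm
    have h1 := horth' q hqdeg
    have h2 : ∑ k, q.eval (r k) * p.eval (r k) =
        ∑ k with r k = a, q.eval a * p.eval a := by
      rw [Finset.sum_filter]
      refine Finset.sum_congr rfl fun k _ => ?_
      split_ifs with hk
      · rw [hk]
      · have : q.eval (r k) = 0 := by
          rw [hq, eval_prod]
          apply Finset.prod_eq_zero (i := r k)
          · exact Finset.mem_erase.2 ⟨hk, Finset.mem_image_of_mem r (Finset.mem_univ k)⟩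
          · simp
        rw [this, zero_mul]
    rw [h2, Finset.sum_const, nsmul_eq_mul] at h1
    obtain ⟨k, _, hk⟩ := Finset.mem_image.1 ha
    have hcard : ((Finset.univ.filter fun k => r k = a).card : ℂ) ≠ 0 := by
      rw [Nat.cast_ne_zero, ← Nat.pos_iff_ne_zero, Finset.card_pos]
      exact ⟨k, by simp [hk]⟩
    rcases mul_eq_zero.1 h1 with h3 | h3
    · exact absurd h3 hcard
    · exact (mul_eq_zero.1 h3).resolve_left hqa
  have hp0 : p = 0 := by
    apply Polynomial.eq_zero_of_degree_lt_of_eval_finset_eq_zero (Finset.univ.image r)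
    · rw [h]; exact hpdeg
    · exact hroot
  ext j
  rw [← hpcoeff j, hp0]
  simp

variable {X : Type*} [NormedAddCommGroup X] [NormedSpace ℂ X]
  {f : X × ℂ → ℂ} {Ω : Set X} {c : ℂ} {R : ℝ} {ν : ℕ} {ρ : X → Fin ν → ℂ}

theorem RootFam.det_hankel_an (h : RootFam f Ω c R ν ρ) (s : ℕ) :
    AnalyticOnNhd ℂ (fun x => (hankel s (ρ x)).det) Ω := by
  intro x hx
  simp only [Matrix.det_apply]
  apply Finset.analyticAt_fun_sum
  intro σ _
  have : AnalyticAt ℂ (fun x => ∏ i, hankel s (ρ x) (σ i) i) x := by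
    apply Finset.analyticAt_fun_prod
    intro i _
    exact h.sum_pow_an _ x hx
  exact this.const_smul

end Vale.Agent.P268
end
end

section

section

open Set Filter Metric Topology

namespace Vale.Agent.P268

variable {X : Type*} [NormedAddCommGroup X] [NormedSpace ℂ X]
  {f : X × ℂ → ℂ} {Ω : Set X} {c : ℂ} {R : ℝ} {ν : ℕ} {ρ : X → Fin ν → ℂ}

namespace RootFam

theorem analyticOrderAt_eq (h : RootFam f Ω c R ν ρ) {x : X} (hx : x ∈ Ω) {r : ℂ}
    (hr : r ∈ closedBall c R) :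
    analyticOrderAt (fun w => f (x, w)) r = (Finset.univ.filter fun i => ρ x i = r).card := by
  classical
  obtain ⟨u, hu, hu0, hfac⟩ := h.fac x hx
  have han : AnalyticAt ℂ (fun w => f (x, w)) r := analyticAt_partial (h.an (x, r) ⟨hx, hr⟩)
  rw [han.analyticOrderAt_eq_natCast]
  refine ⟨fun w => (∏ i with ρ x i ≠ r, (w - ρ x i)) * u w, ?_, ?_, ?_⟩
  · apply AnalyticAt.mul _ (hu r hr)
    apply Finset.analyticAt_fun_prod
    intro i _
    fun_prop
  · apply mul_ne_zero _ (hu0 r hr)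
    rw [Finset.prod_ne_zero_iff]
    intro i hi
    exact sub_ne_zero.2 (Finset.mem_filter.1 hi).2.symm
  · refine Eventually.of_forall fun w => ?_
    rw [hfac w, smul_eq_mul, ← mul_assoc]
    congr 1
    rw [← Finset.prod_filter_mul_prod_filter_not Finset.univ (fun i => ρ x i = r)]
    congr 1
    rw [Finset.prod_congr rfl (g := fun _ => (w - r))]
    · rw [Finset.prod_const]
    · intro i hi
      rw [(Finset.mem_filter.1 hi).2]

theorem mem_image_iff (h : RootFam f Ω c R ν ρ) {x : X} (hx : x ∈ Ω) {w : ℂ} :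
    w ∈ Finset.univ.image (ρ x) ↔ w ∈ closedBall c R ∧ f (x, w) = 0 := by
  constructor
  · intro hw
    obtain ⟨i, _, rfl⟩ := Finset.mem_image.1 hw
    have := ball_subset_closedBall (h.mem x hx i)
    exact ⟨this, (h.zero_iff hx this).2 ⟨i, rfl⟩⟩
  · rintro ⟨hw, h0⟩
    obtain ⟨i, hi⟩ := (h.zero_iff hx hw).1 h0
    rw [hi]
    exact Finset.mem_image_of_mem _ (Finset.mem_univ i)

/-- Near a point where the number of distinct roots is maximal, the distinct roots are given by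
analytic functions. -/
theorem local_roots [FiniteDimensional ℂ X] (h : RootFam f Ω c R ν ρ) {x₁ : X} (hx₁ : x₁ ∈ Ω)
    {s : ℕ} (hs : (Finset.univ.image (ρ x₁)).card = s)
    (hmax : ∀ᶠ x in 𝓝 x₁, (Finset.univ.image (ρ x)).card ≤ s) :
    ∃ (g : Fin s → X → ℂ) (m : Fin s → ℕ), (∀ k, 0 < m k) ∧ (∀ k, AnalyticAt ℂ (g k) x₁) ∧
      ∀ᶠ x in 𝓝 x₁, x ∈ Ω ∧ Function.Injective (fun k => g k x) ∧
        (Finset.univ.image (ρ x) = Finset.univ.image (fun k => g k x)) ∧
        (∀ k, (Finset.univ.filter (fun i => ρ x i = g k x)).card = m k) := by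
  classical
  set Z := Finset.univ.image (ρ x₁) with hZ
  let e : Fin s ≃ Z := (Z.equivFinOfCardEq hs).symm
  let r : Fin s → ℂ := fun k => e k
  have hrZ : ∀ k, r k ∈ Z := fun k => (e k).2
  have hrinj : Function.Injective r := fun a b hab => e.injective (Subtype.ext hab)
  have hrZ' : ∀ w ∈ Z, ∃ k, r k = w := fun w hw => ⟨e.symm ⟨w, hw⟩, by simp [r]⟩
  have hrball : ∀ k, r k ∈ ball c R := by
    intro k
    obtain ⟨i, _, hi⟩ := Finset.mem_image.1 (hrZ k)
    rw [← hi]
    exact h.mem x₁ hx₁ i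
  -- small radius
  obtain ⟨R', ⟨hR1, hR2⟩, hR'⟩ : ∃ R' : ℝ, ((∀ k, R' + dist (r k) c < R) ∧
      ∀ j k, j ≠ k → R' + R' < dist (r j) (r k)) ∧ 0 < R' := by
    have h1 : ∀ᶠ R' in 𝓝[>] (0 : ℝ), (∀ k, R' + dist (r k) c < R) ∧
        ∀ j k, j ≠ k → R' + R' < dist (r j) (r k) := by
      apply Filter.Eventually.filter_mono nhdsWithin_le_nhds
      apply Filter.Eventually.and
      · rw [Filter.eventually_all]
        intro k
        have : ContinuousAt (fun R' : ℝ => R' + dist (r k) c) 0 := by fun_prop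
        apply this.eventually_lt continuousAt_const
        have := hrball k
        rw [mem_ball] at this
        simpa using this
      · rw [Filter.eventually_all]
        intro j
        rw [Filter.eventually_all]
        intro k
        by_cases hjk : j = k
        · exact Eventually.of_forall fun _ hne => absurd hjk hne
        · have : ContinuousAt (fun R' : ℝ => R' + R') 0 := by fun_prop
          have h2 : (fun R' : ℝ => R' + R') 0 < dist (r j) (r k) := by
            simpa using dist_pos.2 fun hh => hjk (hrinj hh)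
          exact (this.eventually_lt continuousAt_const h2).mono fun R' h3 _ => h3
    obtain ⟨R', h2, h3⟩ := (h1.and self_mem_nhdsWithin).exists
    exact ⟨R', h2, h3⟩
  have hsub : ∀ k, closedBall (r k) R' ⊆ ball c R := by
    intro k w hw
    rw [mem_closedBall] at hw
    rw [mem_ball]
    calc dist w c ≤ dist w (r k) + dist (r k) c := dist_triangle _ _ _
      _ < R := by linarith [hR1 k]
  have hdisj : ∀ j k w, w ∈ closedBall (r j) R' → w ∈ closedBall (r k) R' → j = k := by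
    intro j k w hj hk
    by_contra hne
    have := hR2 j k hne
    rw [mem_closedBall] at hj hk
    have h3 : dist (r j) (r k) ≤ dist w (r j) + dist w (r k) := dist_triangle_left _ _ _
    linarith
  -- small root families
  have hfam : ∀ k, ∃ ε > 0, ∃ (μ : ℕ) (σ : X → Fin μ → ℂ), RootFam f (ball x₁ ε) (r k) R' μ σ := by
    intro k
    apply exists_rootFam hR'
    · intro w hw
      exact h.an (x₁, w) ⟨hx₁, ball_subset_closedBall (hsub k hw)⟩
    · intro w hw h0
      have hwc : w ∈ closedBall c R := ball_subset_closedBall (hsub k (sphere_subset_closedBall hw))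
      have hwZ : w ∈ Z := (h.mem_image_iff hx₁).2 ⟨hwc, h0⟩
      obtain ⟨j, hj⟩ := hrZ' w hwZ
      have h1 : w ∈ closedBall (r j) R' := by rw [hj]; exact mem_closedBall_self hR'.le
      have h2 := hdisj j k w h1 (sphere_subset_closedBall hw)
      rw [← h2, hj] at hw
      rw [mem_sphere, dist_self] at hw
      exact hR'.ne hw
  choose ε hε m σ hσ using hfam
  have hm : ∀ k, 0 < m k := by
    intro k
    have h0 : f (x₁, r k) = 0 := ((h.mem_image_iff hx₁).1 (hrZ k)).2
    obtain ⟨i, _⟩ := ((hσ k).zero_iff (mem_ball_self (hε k)) (mem_closedBall_self hR'.le)).1 h0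
    exact i.pos
  refine ⟨fun k x => (m k : ℂ)⁻¹ * ∑ i, σ k x i, m, hm, ?_, ?_⟩
  · intro k
    apply AnalyticAt.mul analyticAt_const
    exact (hσ k).sum_an x₁ (mem_ball_self (hε k)) (fun z => z.2) fun w _ => analyticAt_snd
  have hev : ∀ᶠ x in 𝓝 x₁, ∀ k, x ∈ ball x₁ (ε k) := by
    rw [Filter.eventually_all]
    intro k
    exact ball_mem_nhds x₁ (hε k)
  filter_upwards [hev, hmax, h.isOpen.mem_nhds hx₁] with x hx hxs hxΩ
  -- all roots in a small disc coincide
  let t : Fin s → ℂ := fun k => σ k x ⟨0, hm k⟩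
  have htmem : ∀ k, t k ∈ ball (r k) R' := fun k => (hσ k).mem x (hx k) _
  have htinj : Function.Injective t := by
    intro j k hjk
    apply hdisj j k (t j) (ball_subset_closedBall (htmem j))
    rw [hjk]
    exact ball_subset_closedBall (htmem k)
  have hroot : ∀ k i, σ k x i ∈ Finset.univ.image (ρ x) := by
    intro k i
    have h1 : σ k x i ∈ ball (r k) R' := (hσ k).mem x (hx k) i
    have h2 : σ k x i ∈ closedBall (r k) R' := ball_subset_closedBall h1
    rw [h.mem_image_iff hxΩ]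
    exact ⟨ball_subset_closedBall (hsub k h2), ((hσ k).zero_iff (hx k) h2).2 ⟨i, rfl⟩⟩
  have himg : Finset.univ.image t = Finset.univ.image (ρ x) := by
    apply Finset.eq_of_subset_of_card_le
    · intro w hw
      obtain ⟨k, _, rfl⟩ := Finset.mem_image.1 hw
      exact hroot k _
    · rw [Finset.card_image_of_injective _ htinj, Finset.card_univ, Fintype.card_fin]
      exact hxs
  have hall : ∀ k i, σ k x i = t k := by
    intro k i
    have h1 := hroot k i
    rw [← himg] at h1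
    obtain ⟨j, _, hj⟩ := Finset.mem_image.1 h1
    have h2 : σ k x i ∈ closedBall (r j) R' := by
      rw [← hj]; exact ball_subset_closedBall (htmem j)
    have h3 := hdisj j k _ h2 (ball_subset_closedBall ((hσ k).mem x (hx k) i))
    rw [← hj, h3]
  have hg : ∀ k, (m k : ℂ)⁻¹ * ∑ i, σ k x i = t k := by
    intro k
    rw [Finset.sum_congr rfl fun i _ => hall k i, Finset.sum_const, Finset.card_univ,
      Fintype.card_fin, nsmul_eq_mul, inv_mul_cancel_left₀]
    exact_mod_cast (hm k).ne'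
  simp only [hg]
  refine ⟨hxΩ, htinj, himg.symm, fun k => ?_⟩
  have h1 := h.analyticOrderAt_eq hxΩ (r := t k)
    (ball_subset_closedBall (hsub k (ball_subset_closedBall (htmem k))))
  have h2 := (hσ k).analyticOrderAt_eq (hx k) (r := t k) (ball_subset_closedBall (htmem k))
  rw [h1] at h2
  have h3 : (Finset.univ.filter fun i => σ k x i = t k) = Finset.univ := by
    apply Finset.filter_true_of_mem
    intro i _
    exact hall k i
  rw [h3, Finset.card_univ, Fintype.card_fin] at h2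
  exact_mod_cast h2

end RootFam

end Vale.Agent.P268
end
end

section

section

open Set Filter Metric Topology

namespace Vale.Agent.P268

/-- Cauchy formula for bounded functions with finitely many possible singularities. -/
theorem cauchy_of_bounded {b d : ℂ → ℂ} {r C : ℝ} (hr : 0 < r)
    (hd : AnalyticOnNhd ℂ d (closedBall 0 r)) (hd0 : ∀ t ∈ sphere (0 : ℂ) r, d t ≠ 0)
    (hb : ∀ t ∈ closedBall (0 : ℂ) r, d t ≠ 0 → AnalyticAt ℂ b t)
    (hC : ∀ t ∈ closedBall (0 : ℂ) r, d t ≠ 0 → ‖b t‖ ≤ C) (h0 : d 0 ≠ 0) :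
    ∮ t in C(0, r), t⁻¹ * b t = 2 * Real.pi * Complex.I * b 0 := by
  classical
  let b' : ℂ → ℂ := fun t => if d t = 0 then limUnder (𝓝[≠] t) b else b t
  have hpre : IsPreconnected (closedBall (0 : ℂ) r) := (convex_closedBall _ _).isPreconnected
  have hiso : ∀ t ∈ closedBall (0 : ℂ) r, ∀ᶠ z in 𝓝[≠] t, d z ≠ 0 := by
    intro t ht
    rcases (hd t ht).eventually_eq_zero_or_eventually_ne_zero with h | h
    · exfalso
      have := hd.eqOn_zero_of_preconnected_of_eventuallyEq_zero hpre ht h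
      exact h0 (this (mem_closedBall_self hr.le))
    · exact h
  have hgood : ∀ t ∈ closedBall (0 : ℂ) r, d t ≠ 0 → b' =ᶠ[𝓝 t] b := by
    intro t ht hdt
    filter_upwards [(hd t ht).continuousAt.eventually_ne hdt] with z hz
    simp only [b', if_neg hz]
  have hdiff : ∀ t ∈ ball (0 : ℂ) r, DifferentiableAt ℂ b' t := by
    intro t ht
    have htc := ball_subset_closedBall ht
    by_cases hdt : d t = 0
    · have h1 := hiso t htc
      rw [eventually_nhdsWithin_iff] at h1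
      obtain ⟨ε, hε, hball⟩ := Metric.eventually_nhds_iff_ball.1
        (h1.and (isOpen_ball.mem_nhds ht))
      have h2 := Complex.differentiableOn_update_limUnder_of_bddAbove (f := b) (c := t)
        (ball_mem_nhds t hε) (fun z hz => ((hb z (ball_subset_closedBall (hball z hz.1).2)
          ((hball z hz.1).1 hz.2)).differentiableAt).differentiableWithinAt)
        ⟨C, by
          rintro _ ⟨z, hz, rfl⟩
          exact hC z (ball_subset_closedBall (hball z hz.1).2) ((hball z hz.1).1 hz.2)⟩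
      have h3 : DifferentiableAt ℂ (Function.update b t (limUnder (𝓝[≠] t) b)) t :=
        h2.differentiableAt (ball_mem_nhds t hε)
      refine h3.congr_of_eventuallyEq ?_
      filter_upwards [ball_mem_nhds t hε] with z hz
      by_cases hzt : z = t
      · subst hzt
        simp only [b', if_pos hdt, Function.update_self]
      · simp only [b', if_neg ((hball z hz).1 hzt), Function.update_of_ne hzt]
    · exact ((hb t htc hdt).differentiableAt).congr_of_eventuallyEq (hgood t htc hdt)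
  have hcont : ContinuousOn b' (closedBall 0 r) := by
    intro t ht
    apply ContinuousAt.continuousWithinAt
    rcases (mem_closedBall.1 ht).lt_or_eq with h1 | h1
    · exact (hdiff t (mem_ball.2 h1)).continuousAt
    · have hdt := hd0 t (mem_sphere.2 h1)
      exact (hb t ht hdt).continuousAt.congr (hgood t ht hdt).symm
  have h1 := Complex.circleIntegral_sub_inv_smul_of_differentiable_on_off_countable
    countable_empty (mem_ball_self hr) hcont (fun t ht => hdiff t ht.1)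
  have h2 : b' 0 = b 0 := by simp only [b', if_neg h0]
  rw [smul_eq_mul, h2] at h1
  rw [← h1]
  apply circleIntegral.integral_congr hr.le
  intro t ht
  simp only [smul_eq_mul, sub_zero]
  rw [(hgood t (sphere_subset_closedBall ht) (hd0 t ht)).self_of_nhds]

variable {X : Type*} [NormedAddCommGroup X] [NormedSpace ℂ X]

/-- Local Riemann extension theorem. -/
theorem exists_local_extension [FiniteDimensional ℂ X] {δ a : X → ℂ} {x₀ : X}
    (hδ : AnalyticAt ℂ δ x₀) (hδ0 : ¬ ∀ᶠ x in 𝓝 x₀, δ x = 0)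
    (ha : ∀ᶠ x in 𝓝 x₀, δ x ≠ 0 → AnalyticAt ℂ a x)
    (hb : ∃ C : ℝ, ∀ᶠ x in 𝓝 x₀, δ x ≠ 0 → ‖a x‖ ≤ C) :
    ∃ A : X → ℂ, AnalyticAt ℂ A x₀ ∧ ∀ᶠ x in 𝓝 x₀, δ x ≠ 0 → A x = a x := by
  by_cases h00 : δ x₀ ≠ 0
  · exact ⟨a, ha.self_of_nhds h00, Eventually.of_forall fun _ _ => rfl⟩
  push Not at h00
  obtain ⟨C, hC⟩ := hb
  obtain ⟨v, m, hm0, hm, hline⟩ := exists_line_order hδ h00 hδ0
  obtain ⟨ε, hε, hball⟩ := Metric.eventually_nhds_iff_ball.1
    (hδ.eventually_analyticAt.and (ha.and hC))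
  -- isolated zero on the line
  have hiso : ∀ᶠ t in 𝓝 (0 : ℂ), t ≠ 0 → δ (x₀ + t • v) ≠ 0 := by
    rcases hline.eventually_eq_zero_or_eventually_ne_zero with h | h
    · rw [← analyticOrderAt_eq_top, hm] at h
      exact absurd h (ENat.natCast_ne_top m)
    · rwa [eventually_nhdsWithin_iff] at h
  obtain ⟨ε₂, hε₂, hball₂⟩ := Metric.eventually_nhds_iff_ball.1 hiso
  -- choose the radius
  set r : ℝ := min (ε / 2 / (‖v‖ + 1)) (ε₂ / 2) with hrdef
  have hv1 : 0 < ‖v‖ + 1 := by positivity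
  have hr : 0 < r := lt_min (by positivity) (by positivity)
  have hrv : r * ‖v‖ ≤ ε / 2 := by
    calc r * ‖v‖ ≤ (ε / 2 / (‖v‖ + 1)) * (‖v‖ + 1) := by
          apply mul_le_mul (min_le_left _ _) (by linarith) (norm_nonneg _) (by positivity)
      _ = ε / 2 := by field_simp
  have hmem : ∀ x ∈ ball x₀ (ε / 2), ∀ t ∈ closedBall (0 : ℂ) r, x + t • v ∈ ball x₀ ε := by
    intro x hx t ht
    rw [mem_closedBall_zero_iff] at ht
    rw [mem_ball, dist_eq_norm] at hx ⊢
    calc ‖x + t • v - x₀‖ = ‖(x - x₀) + t • v‖ := by congr 1; abel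
      _ ≤ ‖x - x₀‖ + ‖t • v‖ := norm_add_le _ _
      _ < ε / 2 + ε / 2 := by
          apply add_lt_add_of_lt_of_le hx
          rw [norm_smul]
          exact (mul_le_mul_of_nonneg_right ht (norm_nonneg _)).trans hrv
      _ = ε := by ring
  have hx₀ : x₀ ∈ ball x₀ (ε / 2) := mem_ball_self (by positivity)
  have hsph : ∀ t ∈ sphere (0 : ℂ) r, δ (x₀ + t • v) ≠ 0 := by
    intro t ht
    rw [mem_sphere_zero_iff_norm] at ht
    apply hball₂ t
    · rw [mem_ball_zero_iff, ht]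
      exact (min_le_right _ _).trans_lt (by linarith)
    · intro h0
      rw [h0, norm_zero] at ht
      exact hr.ne ht
  have hlin : ∀ z : X × ℂ, AnalyticAt ℂ (fun z : X × ℂ => z.1 + z.2 • v) z := fun z =>
    analyticAt_fst.add (analyticAt_snd.smul analyticAt_const)
  refine ⟨fun x => (2 * Real.pi * Complex.I)⁻¹ * ∮ t in C(0, r), t⁻¹ * a (x + t • v), ?_, ?_⟩
  · apply AnalyticAt.mul analyticAt_const
    refine analyticAt_circleIntegral (G := fun z : X × ℂ => z.2⁻¹ * a (z.1 + z.2 • v)) hr.le ?_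
    intro t ht
    apply AnalyticAt.mul
    · apply analyticAt_snd.inv
      intro h0
      simp only at h0
      rw [h0, mem_sphere, dist_self] at ht
      exact hr.ne ht
    · exact AnalyticAt.fun_comp (f := fun z : X × ℂ => z.1 + z.2 • v)
        ((hball _ (hmem x₀ hx₀ t (sphere_subset_closedBall ht))).2.1 (hsph t ht)) (hlin _)
  · -- nonvanishing on the circle for nearby `x`
    have hcirc : ∀ᶠ x in 𝓝 x₀, ∀ t ∈ sphere (0 : ℂ) r, δ (x + t • v) ≠ 0 := by
      apply (isCompact_sphere (0 : ℂ) r).eventually_forall_of_forall_eventually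
      intro t ht
      have h2 : ContinuousAt (fun z : X × ℂ => δ (z.1 + z.2 • v)) (x₀, t) :=
        (AnalyticAt.fun_comp (f := fun z : X × ℂ => z.1 + z.2 • v)
          (hball _ (hmem x₀ hx₀ t (sphere_subset_closedBall ht))).1 (hlin _)).continuousAt
      exact h2.eventually_ne (hsph t ht)
    filter_upwards [hcirc, ball_mem_nhds x₀ (show 0 < ε / 2 by positivity)] with x hx1 hx2 hx0
    have hlin' : ∀ t : ℂ, AnalyticAt ℂ (fun t : ℂ => x + t • v) t := fun t => by fun_prop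
    have key := cauchy_of_bounded (b := fun t => a (x + t • v)) (d := fun t => δ (x + t • v))
      (C := C) hr
      (fun t ht => AnalyticAt.fun_comp (f := fun t : ℂ => x + t • v) (hball _ (hmem x hx2 t ht)).1
        (hlin' t)) hx1
      (fun t ht h => AnalyticAt.fun_comp (f := fun t : ℂ => x + t • v)
        ((hball _ (hmem x hx2 t ht)).2.1 h) (hlin' t))
      (fun t ht h => (hball _ (hmem x hx2 t ht)).2.2 h) (by simpa using hx0)
    rw [key]
    simp only [zero_smul, add_zero]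
    rw [inv_mul_cancel_left₀ Complex.two_pi_I_ne_zero]

/-- Global version: glueing of the local extensions. -/
theorem exists_extension [FiniteDimensional ℂ X] {Ω : Set X} {δ a : X → ℂ} (hΩ : IsOpen Ω)
    (hδ : AnalyticOnNhd ℂ δ Ω) (hδ0 : ∀ x ∈ Ω, ¬ ∀ᶠ y in 𝓝 x, δ y = 0)
    (ha : ∀ x ∈ Ω, δ x ≠ 0 → AnalyticAt ℂ a x)
    (hb : ∀ x ∈ Ω, ∃ C : ℝ, ∀ᶠ y in 𝓝 x, δ y ≠ 0 → ‖a y‖ ≤ C) :
    ∃ A : X → ℂ, AnalyticOnNhd ℂ A Ω ∧ ∀ x ∈ Ω, δ x ≠ 0 → A x = a x := by
  classical
  have hloc : ∀ x ∈ Ω, ∃ A : X → ℂ, AnalyticAt ℂ A x ∧ ∀ᶠ y in 𝓝 x, δ y ≠ 0 → A y = a y := by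
    intro x hx
    refine exists_local_extension (hδ x hx) (hδ0 x hx) ?_ (hb x hx)
    filter_upwards [hΩ.mem_nhds hx] with y hy using ha y hy
  choose! B hB1 hB2 using hloc
  have hval : ∀ x ∈ Ω, ∀ᶠ y in 𝓝 x, B y y = B x y := by
    intro x hx
    filter_upwards [hΩ.mem_nhds hx, (hB1 x hx).eventually_analyticAt,
      eventually_eventually_nhds.2 (hB2 x hx)] with y hy h1 h2
    have hfreq : ∃ᶠ z in 𝓝 y, B y z = B x z := by
      have h3 : ∃ᶠ z in 𝓝 y, δ z ≠ 0 := by
        rw [← not_eventually]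
        exact hδ0 y hy
      refine (h3.and_eventually ((hB2 y hy).and h2)).mono ?_
      rintro z ⟨hz, hz1, hz2⟩
      rw [hz1 hz, hz2 hz]
    by_contra hne
    have hc : ContinuousAt (fun z => B y z - B x z) y :=
      (hB1 y hy).continuousAt.sub h1.continuousAt
    have : ∀ᶠ z in 𝓝 y, B y z - B x z ≠ 0 := hc.eventually_ne (sub_ne_zero.2 hne)
    exact hfreq (this.mono fun z hz h => hz (sub_eq_zero.2 h))
  refine ⟨fun x => B x x, fun x hx => (hB1 x hx).congr ?_, fun x hx h => ?_⟩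
  · filter_upwards [hval x hx] with y hy using hy.symm
  · exact (hB2 x hx).self_of_nhds h

/-- A nonzero analytic function on a connected open set does not vanish on an open set. -/
theorem not_eventually_zero_of_ne [FiniteDimensional ℂ X] {Ω : Set X} {δ : X → ℂ}
    (hΩ : IsPreconnected Ω) (hδ : AnalyticOnNhd ℂ δ Ω) {x₁ : X} (hx₁ : x₁ ∈ Ω) (h : δ x₁ ≠ 0) :
    ∀ x ∈ Ω, ¬ ∀ᶠ y in 𝓝 x, δ y = 0 := by
  intro x hx h0
  exact h (hδ.eqOn_zero_of_preconnected_of_eventuallyEq_zero hΩ hx h0 hx₁)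

end Vale.Agent.P268
end
end

section

section

open Set Filter Metric Topology

namespace Vale.Agent.P268

variable {X : Type*} [NormedAddCommGroup X] [NormedSpace ℂ X]
  {f : X × ℂ → ℂ} {Ω : Set X} {c : ℂ} {R : ℝ} {ν : ℕ} {ρ : X → Fin ν → ℂ}

/-- `δ` detects the points where the number of distinct roots is maximal. -/
structure IsDisc (Ω : Set X) {ν : ℕ} (ρ : X → Fin ν → ℂ) (s : ℕ) (δ : X → ℂ) : Prop where
  an : AnalyticOnNhd ℂ δ Ω
  ne : ∀ x ∈ Ω, ¬ ∀ᶠ y in 𝓝 x, δ y = 0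
  card_le : ∀ x ∈ Ω, (Finset.univ.image (ρ x)).card ≤ s
  iff : ∀ x ∈ Ω, δ x ≠ 0 ↔ (Finset.univ.image (ρ x)).card = s

theorem RootFam.exists_disc [FiniteDimensional ℂ X] (h : RootFam f Ω c R ν ρ)
    (hΩ : IsPreconnected Ω) (hne : Ω.Nonempty) : ∃ (s : ℕ) (δ : X → ℂ), IsDisc Ω ρ s δ := by
  classical
  set T : Set ℕ := (fun x => (Finset.univ.image (ρ x)).card) '' Ω with hT
  have hTne : T.Nonempty := hne.image _
  have hTbdd : BddAbove T := by
    refine ⟨ν, ?_⟩
    rintro _ ⟨x, _, rfl⟩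
    exact Finset.card_image_le.trans (by simp)
  obtain ⟨x₁, hx₁, hs⟩ := Nat.sSup_mem hTne hTbdd
  have hle : ∀ x ∈ Ω, (Finset.univ.image (ρ x)).card ≤ sSup T := fun x hx =>
    le_csSup hTbdd ⟨x, hx, rfl⟩
  have hiff : ∀ x ∈ Ω, (hankel (sSup T) (ρ x)).det ≠ 0 ↔ (Finset.univ.image (ρ x)).card = sSup T := by
    intro x hx
    constructor
    · intro h1
      by_contra h2
      exact h1 (det_hankel_eq_zero _ (lt_of_le_of_ne (hle x hx) h2))
    · exact det_hankel_ne_zero _
  refine ⟨sSup T, fun x => (hankel (sSup T) (ρ x)).det, h.det_hankel_an _, ?_, hle, hiff⟩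
  exact not_eventually_zero_of_ne hΩ (h.det_hankel_an _) hx₁ ((hiff x₁ hx₁).2 hs)

theorem IsDisc.frequently {s : ℕ} {δ : X → ℂ} (hδ : IsDisc Ω ρ s δ) {x : X} (hx : x ∈ Ω) :
    ∃ᶠ y in 𝓝 x, δ y ≠ 0 := by
  rw [← not_eventually]
  exact hδ.ne x hx

theorem IsDisc.local_roots [FiniteDimensional ℂ X] {s : ℕ} {δ : X → ℂ} (hδ : IsDisc Ω ρ s δ)
    (h : RootFam f Ω c R ν ρ) {x₁ : X} (hx₁ : x₁ ∈ Ω) (h1 : δ x₁ ≠ 0) :
    ∃ (g : Fin s → X → ℂ) (m : Fin s → ℕ), (∀ k, 0 < m k) ∧ (∀ k, AnalyticAt ℂ (g k) x₁) ∧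
      ∀ᶠ x in 𝓝 x₁, x ∈ Ω ∧ Function.Injective (fun k => g k x) ∧
        (Finset.univ.image (ρ x) = Finset.univ.image (fun k => g k x)) ∧
        (∀ k, (Finset.univ.filter (fun i => ρ x i = g k x)).card = m k) := by
  apply h.local_roots hx₁ ((hδ.iff x₁ hx₁).1 h1)
  filter_upwards [h.isOpen.mem_nhds hx₁] with x hx using hδ.card_le x hx

open Classical in
/-- weighted products over the distinct roots -/
noncomputable def eprod {ν : ℕ} (ρ : X → Fin ν → ℂ) (e : X → ℂ → ℕ) (z : X × ℂ) : ℂ :=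
  ∏ r ∈ Finset.univ.image (ρ z.1), (z.2 - r) ^ (e z.1 r)

/-- weights which are locally constant along the roots -/
def LocConst (Ω : Set X) {ν : ℕ} (ρ : X → Fin ν → ℂ) (δ : X → ℂ) (e : X → ℂ → ℕ) : Prop :=
  ∀ x₁ ∈ Ω, δ x₁ ≠ 0 → ∀ g : X → ℂ, AnalyticAt ℂ g x₁ → (∀ᶠ x in 𝓝 x₁, ∃ i, ρ x i = g x) →
    ∀ᶠ x in 𝓝 x₁, e x (g x) = e x₁ (g x₁)

theorem exists_eprod_ext [FiniteDimensional ℂ X] (h : RootFam f Ω c R ν ρ) {s : ℕ} {δ : X → ℂ}
    (hδ : IsDisc Ω ρ s δ) {e : X → ℂ → ℕ} {B : ℕ} (heB : ∀ x ∈ Ω, ∀ i, e x (ρ x i) ≤ B)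
    (he : LocConst Ω ρ δ e) :
    ∃ P : X × ℂ → ℂ, AnalyticOnNhd ℂ P (Ω ×ˢ univ) ∧
      ∀ z : X × ℂ, z.1 ∈ Ω → δ z.1 ≠ 0 → P z = eprod ρ e z := by
  classical
  have key := exists_extension (X := X × ℂ) (Ω := Ω ×ˢ univ) (δ := fun z => δ z.1)
    (a := eprod ρ e) (h.isOpen.prod isOpen_univ) ?_ ?_ ?_ ?_
  · obtain ⟨P, hP1, hP2⟩ := key
    exact ⟨P, hP1, fun z hz h0 => hP2 z ⟨hz, mem_univ _⟩ h0⟩
  · intro z hz
    exact AnalyticAt.fun_comp (f := Prod.fst) (hδ.an z.1 hz.1) analyticAt_fst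
  · rintro ⟨x, w⟩ hz h0
    apply hδ.ne x hz.1
    have : ContinuousAt (fun x' : X => (x', w)) x := by fun_prop
    exact this.eventually h0
  · rintro ⟨x₁, w⟩ hz h1
    obtain ⟨g, m, hm, hg, hev⟩ := hδ.local_roots h hz.1 h1
    have hloc : ∀ k, ∀ᶠ x in 𝓝 x₁, e x (g k x) = e x₁ (g k x₁) := by
      intro k
      apply he x₁ hz.1 h1 (g k) (hg k)
      filter_upwards [hev] with x hx
      have h2 : g k x ∈ Finset.univ.image (ρ x) := by
        rw [hx.2.2.1]; exact Finset.mem_image_of_mem _ (Finset.mem_univ k)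
      obtain ⟨i, _, hi⟩ := Finset.mem_image.1 h2
      exact ⟨i, hi⟩
    have hform : ∀ᶠ z : X × ℂ in 𝓝 (x₁, w), (∏ k, (z.2 - g k z.1) ^ (e x₁ (g k x₁))) =
        eprod ρ e z := by
      have h3 : ∀ᶠ x in 𝓝 x₁, ∀ k, e x (g k x) = e x₁ (g k x₁) := Filter.eventually_all.2 hloc
      have h4 : Tendsto (fun z : X × ℂ => z.1) (𝓝 (x₁, w)) (𝓝 x₁) := continuousAt_fst
      filter_upwards [h4.eventually h3, h4.eventually hev] with z hz1 hz2
      rw [eprod, hz2.2.2.1, Finset.prod_image fun a _ b _ hab => hz2.2.1 hab]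
      exact Finset.prod_congr rfl fun k _ => by rw [hz1 k]
    refine AnalyticAt.congr ?_ hform
    apply Finset.analyticAt_fun_prod
    intro k _
    apply AnalyticAt.pow
    exact analyticAt_snd.sub (AnalyticAt.fun_comp (f := Prod.fst) (hg k) analyticAt_fst)
  · rintro ⟨x, w⟩ hz
    set K : ℝ := ‖w‖ + 1 + ‖c‖ + R + 1 with hK
    have hK1 : 1 ≤ K := by
      have := h.pos
      have h1 := norm_nonneg w
      have h2 := norm_nonneg c
      rw [hK]; linarith
    refine ⟨K ^ (B * ν), ?_⟩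
    have h1 : ∀ᶠ z : X × ℂ in 𝓝 (x, w), z.1 ∈ Ω :=
      (continuousAt_fst : ContinuousAt (fun z : X × ℂ => z.1) (x, w)).eventually
        (h.isOpen.mem_nhds hz.1)
    have h2 : ∀ᶠ z : X × ℂ in 𝓝 (x, w), ‖z.2‖ < ‖w‖ + 1 := by
      have : ContinuousAt (fun z : X × ℂ => ‖z.2‖) (x, w) := by fun_prop
      exact this.eventually_lt continuousAt_const (by simp)
    filter_upwards [h1, h2] with z hz1 hz2 _
    rw [eprod, norm_prod]
    calc ∏ r ∈ Finset.univ.image (ρ z.1), ‖(z.2 - r) ^ (e z.1 r)‖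
        ≤ ∏ r ∈ Finset.univ.image (ρ z.1), K ^ B := by
          apply Finset.prod_le_prod fun _ _ => norm_nonneg _
          intro r hr
          obtain ⟨i, _, rfl⟩ := Finset.mem_image.1 hr
          rw [norm_pow]
          have h3 : ‖z.2 - ρ z.1 i‖ ≤ K := by
            have h4 := h.mem z.1 hz1 i
            rw [mem_ball, dist_eq_norm] at h4
            have h5 : ‖ρ z.1 i‖ ≤ ‖ρ z.1 i - c‖ + ‖c‖ := by
              calc ‖ρ z.1 i‖ = ‖(ρ z.1 i - c) + c‖ := by congr 1; ring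
                _ ≤ _ := norm_add_le _ _
            calc ‖z.2 - ρ z.1 i‖ ≤ ‖z.2‖ + ‖ρ z.1 i‖ := norm_sub_le _ _
              _ ≤ K := by rw [hK]; linarith
          calc ‖z.2 - ρ z.1 i‖ ^ (e z.1 (ρ z.1 i)) ≤ K ^ (e z.1 (ρ z.1 i)) :=
                pow_le_pow_left₀ (norm_nonneg _) h3 _
            _ ≤ K ^ B := pow_le_pow_right₀ hK1 (heB z.1 hz1 i)
      _ = K ^ (B * (Finset.univ.image (ρ z.1)).card) := by
          rw [Finset.prod_const, pow_mul]
      _ ≤ K ^ (B * ν) := by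
          apply pow_le_pow_right₀ hK1
          apply Nat.mul_le_mul_left
          exact Finset.card_image_le.trans (by simp)

/-- Two functions continuous at a point of `Ω` which agree off the zeros of `δ` agree. -/
theorem IsDisc.eq_of_eq {s : ℕ} {δ : X → ℂ} (hδ : IsDisc Ω ρ s δ) {P Q : X × ℂ → ℂ} {z : X × ℂ}
    (hz : z.1 ∈ Ω) (hP : ContinuousAt P z) (hQ : ContinuousAt Q z)
    (h : ∀ᶠ y in 𝓝 z, δ y.1 ≠ 0 → P y = Q y) : P z = Q z := by
  by_contra hne
  have hc : ContinuousAt (fun y => P y - Q y) z := hP.sub hQ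
  have h1 : ∀ᶠ y in 𝓝 z, P y - Q y ≠ 0 := hc.eventually_ne (sub_ne_zero.2 hne)
  have h2 : ∀ᶠ x in 𝓝 z.1, P (x, z.2) - Q (x, z.2) ≠ 0 ∧
      (δ x ≠ 0 → P (x, z.2) = Q (x, z.2)) := by
    have : ContinuousAt (fun x' : X => (x', z.2)) z.1 := by fun_prop
    exact this.eventually (h1.and h)
  obtain ⟨x, hx1, hx2, hx3⟩ := ((hδ.frequently hz).and_eventually h2).exists
  exact hx2 (sub_eq_zero.2 (hx3 hx1))

end Vale.Agent.P268
end
end

section

section

open Set Filter Metric Topology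

namespace Vale.Agent.P268

/-- A germ is reduced at `p` if it is not divisible by the square of a nonunit. -/
def ReducedAt {E : Type*} [NormedAddCommGroup E] [NormedSpace ℂ E] (f : E → ℂ) (p : E) : Prop :=
  ∀ g h : E → ℂ, AnalyticAt ℂ g p → AnalyticAt ℂ h p → g p = 0 →
    ¬ (f =ᶠ[𝓝 p] fun z => g z ^ 2 * h z)

variable {X : Type*} [NormedAddCommGroup X] [NormedSpace ℂ X]
  {f : X × ℂ → ℂ} {Ω : Set X} {c : ℂ} {R : ℝ} {ν : ℕ} {ρ : X → Fin ν → ℂ}

open Classical in
/-- multiplicity of a root -/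
noncomputable def rmult {ν : ℕ} (ρ : X → Fin ν → ℂ) (x : X) (r : ℂ) : ℕ :=
  (Finset.univ.filter fun i => ρ x i = r).card

omit [NormedAddCommGroup X] [NormedSpace ℂ X] in
theorem rmult_le (x : X) (r : ℂ) : rmult ρ x r ≤ ν := by
  classical
  unfold rmult
  exact (Finset.card_filter_le _ _).trans (by simp)

theorem LocConst.comp {δ : X → ℂ} {e : X → ℂ → ℕ} (he : LocConst Ω ρ δ e) (F : ℕ → ℕ) :
    LocConst Ω ρ δ (fun x r => F (e x r)) := by
  intro x₁ hx₁ h1 g hg hr
  filter_upwards [he x₁ hx₁ h1 g hg hr] with x hx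
  rw [hx]

/-- An analytic root function coincides locally with one of the local root functions. -/
theorem eventually_eq_local_root {s : ℕ} {g : Fin s → X → ℂ} {x₁ : X}
    (hg : ∀ k, AnalyticAt ℂ (g k) x₁)
    (hev : ∀ᶠ x in 𝓝 x₁, Function.Injective (fun k => g k x) ∧
      (Finset.univ.image (ρ x) = Finset.univ.image (fun k => g k x))) {a : X → ℂ}
    (ha : AnalyticAt ℂ a x₁) (har : ∀ᶠ x in 𝓝 x₁, ∃ i, ρ x i = a x) :
    ∃ k, ∀ᶠ x in 𝓝 x₁, a x = g k x := by
  classical
  have hmem : ∀ᶠ x in 𝓝 x₁, ∃ k, g k x = a x := by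
    filter_upwards [hev, har] with x hx1 hx2
    obtain ⟨i, hi⟩ := hx2
    have : a x ∈ Finset.univ.image (ρ x) := by
      rw [← hi]; exact Finset.mem_image_of_mem _ (Finset.mem_univ i)
    rw [hx1.2] at this
    obtain ⟨k, _, hk⟩ := Finset.mem_image.1 this
    exact ⟨k, hk⟩
  obtain ⟨k, hk⟩ := hmem.self_of_nhds
  refine ⟨k, ?_⟩
  have hne : ∀ᶠ x in 𝓝 x₁, ∀ j, j ≠ k → g j x ≠ a x := by
    rw [Filter.eventually_all]
    intro j
    by_cases hjk : j = k
    · exact Eventually.of_forall fun _ h => absurd hjk h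
    · have hc : ContinuousAt (fun x => g j x - a x) x₁ :=
        (hg j).continuousAt.sub ha.continuousAt
      have h0 : g j x₁ - a x₁ ≠ 0 := by
        rw [← hk]
        exact sub_ne_zero.2 fun h => hjk (hev.self_of_nhds.1 h)
      filter_upwards [hc.eventually_ne h0] with x hx _
      exact sub_ne_zero.1 hx
  filter_upwards [hmem, hne] with x hx1 hx2
  obtain ⟨j, hj⟩ := hx1
  by_cases hjk : j = k
  · rw [← hj, hjk]
  · exact absurd hj (hx2 j hjk)

theorem locConst_rmult [FiniteDimensional ℂ X] (h : RootFam f Ω c R ν ρ) {s : ℕ} {δ : X → ℂ}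
    (hδ : IsDisc Ω ρ s δ) : LocConst Ω ρ δ (rmult ρ) := by
  classical
  intro x₁ hx₁ h1 a ha har
  obtain ⟨g, m, hm, hg, hev⟩ := hδ.local_roots h hx₁ h1
  obtain ⟨k, hk⟩ := eventually_eq_local_root hg (hev.mono fun x hx => ⟨hx.2.1, hx.2.2.1⟩) ha har
  have h2 : ∀ᶠ x in 𝓝 x₁, rmult ρ x (a x) = m k := by
    filter_upwards [hk, hev] with x hx1 hx2
    rw [hx1, ← hx2.2.2.2 k]
    unfold rmult
    congr
  filter_upwards [h2] with x hx
  rw [hx, h2.self_of_nhds]

omit [NormedAddCommGroup X] [NormedSpace ℂ X] in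
theorem eprod_rmult (z : X × ℂ) : eprod ρ (rmult ρ) z = ∏ i, (z.2 - ρ z.1 i) := by
  classical
  rw [eprod, Finset.prod_comp (fun r => z.2 - r) (ρ z.1)]
  refine Finset.prod_congr (by congr) fun r _ => ?_
  unfold rmult
  congr

/-- If `f` is reduced at all its zeros over `x₀`, then the generic roots near `x₀` are simple. -/
theorem simple_roots [FiniteDimensional ℂ X] (h : RootFam f Ω c R ν ρ) {s : ℕ} {δ : X → ℂ}
    (hδ : IsDisc Ω ρ s δ) {x₀ : X} (hx₀ : x₀ ∈ Ω)
    (hred : ∀ w ∈ ball c R, f (x₀, w) = 0 → ReducedAt f (x₀, w)) :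
    ∀ᶠ x in 𝓝 x₀, δ x ≠ 0 → Function.Injective (ρ x) := by
  classical
  have hmult := locConst_rmult h hδ
  obtain ⟨PA, hPA, hPA'⟩ := exists_eprod_ext (B := ν) h hδ
    (e := fun x r => if 2 ≤ rmult ρ x r then 1 else 0) (by
      intro x hx i
      split_ifs
      · exact i.pos
      · exact Nat.zero_le _) (hmult.comp fun n => if 2 ≤ n then 1 else 0)
  obtain ⟨PQ, hPQ, hPQ'⟩ := exists_eprod_ext (B := ν) h hδ
    (e := fun x r => rmult ρ x r - 2 * (if 2 ≤ rmult ρ x r then 1 else 0)) (by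
      intro x hx i
      exact (Nat.sub_le _ _).trans (rmult_le _ _)) (hmult.comp fun n => n - 2 * (if 2 ≤ n then 1 else 0))
  obtain ⟨u, hu, hu0, hfu⟩ := h.exists_unit
  -- factorization
  have hfac : ∀ z : X × ℂ, z.1 ∈ Ω → δ z.1 ≠ 0 → ∏ i, (z.2 - ρ z.1 i) = PA z ^ 2 * PQ z := by
    intro z hz h0
    rw [hPA' z hz h0, hPQ' z hz h0, ← eprod_rmult, eprod, eprod, eprod, ← Finset.prod_pow,
      ← Finset.prod_mul_distrib]
    refine Finset.prod_congr rfl fun r _ => ?_
    rw [← pow_mul, ← pow_add]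
    congr 1
    split_ifs with h2
    · omega
    · omega
  have hfac2 : ∀ z ∈ Ω ×ˢ ball c R, f z = PA z ^ 2 * (PQ z * u z) := by
    intro z hz
    have hz' : z ∈ Ω ×ˢ (univ : Set ℂ) := ⟨hz.1, mem_univ _⟩
    refine hδ.eq_of_eq hz.1 (h.an z ⟨hz.1, ball_subset_closedBall hz.2⟩).continuousAt
      (Q := fun z => PA z ^ 2 * (PQ z * u z))
      (((hPA z hz').continuousAt.pow 2).mul ((hPQ z hz').continuousAt.mul (hu z hz).continuousAt)) ?_
    have hopen : IsOpen (Ω ×ˢ ball c R) := h.isOpen.prod isOpen_ball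
    filter_upwards [hopen.mem_nhds hz] with y hy hy0
    rw [hfu y hy, hfac y hy.1 hy0]
    ring
  -- compactness
  have hcpt : ∀ᶠ x in 𝓝 x₀, ∀ w ∈ closedBall c R, ¬ (PA (x, w) = 0 ∧ f (x, w) = 0) := by
    apply (isCompact_closedBall c R).eventually_forall_of_forall_eventually
    intro w hw
    have hz' : (x₀, w) ∈ Ω ×ˢ (univ : Set ℂ) := ⟨hx₀, mem_univ _⟩
    by_cases hf0 : f (x₀, w) = 0
    · by_cases hP0 : PA (x₀, w) = 0
      · exfalso
        have hwb : w ∈ ball c R := by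
          rcases (mem_closedBall.1 hw).lt_or_eq with h1 | h1
          · exact h1
          · exact absurd hf0 (h.ne x₀ hx₀ w (mem_sphere.2 h1))
        have hz : (x₀, w) ∈ Ω ×ˢ ball c R := ⟨hx₀, hwb⟩
        refine hred w hwb hf0 PA (fun z => PQ z * u z) (hPA _ hz') ((hPQ _ hz').mul (hu _ hz)) hP0 ?_
        have hopen : IsOpen (Ω ×ˢ ball c R) := h.isOpen.prod isOpen_ball
        filter_upwards [hopen.mem_nhds hz] with y hy using hfac2 y hy
      · exact ((hPA _ hz').continuousAt.eventually_ne hP0).mono fun z hz h1 => hz h1.1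
    · exact ((h.an _ ⟨hx₀, hw⟩).continuousAt.eventually_ne hf0).mono fun z hz h1 => hz h1.2
  filter_upwards [hcpt, h.isOpen.mem_nhds hx₀] with x hx hxΩ hx0
  by_contra hinj
  simp only [Function.Injective, not_forall] at hinj
  obtain ⟨i, j, hij, hne⟩ := hinj
  have hri : ρ x i ∈ closedBall c R := ball_subset_closedBall (h.mem x hxΩ i)
  refine hx (ρ x i) hri ⟨?_, (h.zero_iff hxΩ hri).2 ⟨i, rfl⟩⟩
  rw [hPA' (x, ρ x i) hxΩ hx0, eprod]
  apply Finset.prod_eq_zero (i := ρ x i)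
  · have : ρ x i ∈ Finset.univ.image (ρ x) := Finset.mem_image_of_mem _ (Finset.mem_univ i)
    convert this
  · have h2 : 2 ≤ rmult ρ x (ρ x i) := by
      unfold rmult
      rw [Nat.succ_le_iff, Finset.one_lt_card]
      exact ⟨i, by simp, j, by simp [hij], hne⟩
    simp only [if_pos h2, pow_one, sub_self]

theorem deriv_ne_zero_of_injective (h : RootFam f Ω c R ν ρ) {x : X} (hx : x ∈ Ω)
    (hinj : Function.Injective (ρ x)) {w : ℂ} (hw : w ∈ closedBall c R) (h0 : f (x, w) = 0) :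
    deriv (fun w => f (x, w)) w ≠ 0 := by
  classical
  have h1 := h.analyticOrderAt_eq hx hw
  obtain ⟨i, hi⟩ := (h.zero_iff hx hw).1 h0
  have h2 : (Finset.univ.filter fun j => ρ x j = w) = {i} := by
    ext j
    simp only [Finset.mem_filter, Finset.mem_univ, true_and, Finset.mem_singleton]
    constructor
    · intro hj; exact hinj (hj.trans hi)
    · rintro rfl; exact hi.symm
  rw [h2, Finset.card_singleton] at h1
  have han : AnalyticAt ℂ (fun w => f (x, w)) w := analyticAt_partial (h.an (x, w) ⟨hx, hw⟩)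
  obtain ⟨g, hg, hg0, hgf⟩ := han.analyticOrderAt_eq_natCast.1 h1
  have h3 : HasDerivAt (fun z => (z - w) ^ 1 • g z) (g w) w := by
    have h4 := ((hasDerivAt_id w).sub_const w).fun_mul hg.differentiableAt.hasDerivAt
    simpa using h4
  have h5 : (fun w => f (x, w)) =ᶠ[𝓝 w] fun z => (z - w) ^ 1 • g z := hgf
  rw [h5.deriv_eq, h3.deriv]
  exact hg0

theorem fderiv_ne_zero_of_deriv_ne_zero {z : X × ℂ} (hf : AnalyticAt ℂ f z)
    (h : deriv (fun w => f (z.1, w)) z.2 ≠ 0) : fderiv ℂ f z ≠ 0 := by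
  intro h0
  apply h
  rw [deriv_partial (x := z.1) (w := z.2) hf]
  change (fderiv ℂ f z) (0, 1) = 0
  rw [h0]
  simp

/-- continuity of roots -/
theorem frequently_zero (h : RootFam f Ω c R ν ρ) {z : X × ℂ} (hz1 : z.1 ∈ Ω)
    (hz2 : z.2 ∈ closedBall c R) (hf : f z = 0) {D : Set X} (hD : ∃ᶠ x in 𝓝 z.1, x ∈ D) :
    ∃ᶠ y in 𝓝 z, f y = 0 ∧ y.1 ∈ D := by
  rw [Metric.nhds_basis_ball.frequently_iff]
  intro ε hε
  set ε' := min ε 1 with hε'
  have hε'0 : 0 < ε' := lt_min hε one_pos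
  have hcont : ContinuousAt (fun x : X => ∏ i, (z.2 - ρ x i)) z.1 := by
    have h1 : ContinuousAt (fun y : X × ℂ => ∏ i, (y.2 - ρ y.1 i)) (z.1, z.2) :=
      (h.poly_an (z := z) hz1).continuousAt
    exact ContinuousAt.comp (f := fun x : X => (x, z.2)) (x := z.1) h1 (by fun_prop)
  have h0 : ∏ i, (z.2 - ρ z.1 i) = 0 := by
    obtain ⟨i, hi⟩ := (h.zero_iff hz1 hz2).1 hf
    exact Finset.prod_eq_zero (Finset.mem_univ i) (sub_eq_zero.2 hi)
  have hsmall : ∀ᶠ x in 𝓝 z.1, ‖∏ i, (z.2 - ρ x i)‖ < ε' ^ ν := by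
    have := hcont.norm
    apply this.eventually_lt continuousAt_const
    rw [h0, norm_zero]
    positivity
  have hev2 : ∀ᶠ x in 𝓝 z.1, x ∈ Ω ∧ x ∈ ball z.1 ε :=
    inter_mem (h.isOpen.mem_nhds hz1) (ball_mem_nhds z.1 hε)
  obtain ⟨x, hxD, hx1, hx2, hx3⟩ := (hD.and_eventually (hsmall.and hev2)).exists
  have : ∃ i, ‖z.2 - ρ x i‖ < ε' := by
    by_contra hcon
    push Not at hcon
    have h2 : ε' ^ ν ≤ ‖∏ i, (z.2 - ρ x i)‖ := by
      rw [norm_prod]
      calc ε' ^ ν = ∏ _i : Fin ν, ε' := by simp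
        _ ≤ _ := Finset.prod_le_prod (fun _ _ => hε'0.le) fun i _ => hcon i
    linarith
  obtain ⟨i, hi⟩ := this
  refine ⟨(x, ρ x i), ?_, ?_, hxD⟩
  · rw [mem_ball, Prod.dist_eq]
    apply max_lt hx3
    rw [dist_comm, dist_eq_norm]
    exact hi.trans_le (min_le_left _ _)
  · exact (h.zero_iff hx2 (ball_subset_closedBall (h.mem x hx2 i))).2 ⟨i, rfl⟩

end Vale.Agent.P268
end
end

section

section

open Set Filter Metric Topology

namespace Vale.Agent.P268

section coord

variable {X : Type*} [NormedAddCommGroup X] [NormedSpace ℂ X]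
  {f : X × ℂ → ℂ} {Ω : Set X} {c : ℂ} {R : ℝ} {ν : ℕ} {ρ : X → Fin ν → ℂ}

open Classical in
/-- Factorization of a Weierstrass family along a decomposition of its zero set. -/
theorem comp_coord [FiniteDimensional ℂ X] (h : RootFam f Ω c R ν ρ) {s : ℕ} {δ : X → ℂ}
    (hδ : IsDisc Ω ρ s δ) (hinj : ∀ x ∈ Ω, δ x ≠ 0 → Function.Injective (ρ x))
    {ι : Type*} [Fintype ι] (B : ι → Set (X × ℂ))
    (H0 : ∀ z ∈ Ω ×ˢ ball c R, ∀ i, z ∈ B i → f z = 0)
    (H1 : ∀ z ∈ Ω ×ˢ ball c R, f z = 0 → ∃ i, z ∈ B i)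
    (H2 : ∀ z ∈ Ω ×ˢ ball c R, ∀ i, (∃ᶠ y in 𝓝 z, y ∈ B i) → z ∈ B i)
    (H3 : ∀ z ∈ Ω ×ˢ ball c R, δ z.1 ≠ 0 → ∀ i, z ∈ B i → ∀ᶠ y in 𝓝 z, f y = 0 → y ∈ B i)
    (H4 : ∀ z ∈ Ω ×ˢ ball c R, δ z.1 ≠ 0 → ∀ i j, z ∈ B i → z ∈ B j → i = j)
    (H5 : ∀ z ∈ Ω ×ˢ ball c R, ∀ i, z ∈ B i → ∃ᶠ y in 𝓝 z, y ∈ B i ∧ δ y.1 ≠ 0) :
    ∃ P : ι → X × ℂ → ℂ, (∀ i, AnalyticOnNhd ℂ (P i) (Ω ×ˢ univ)) ∧
      (∀ i, ∀ z ∈ Ω ×ˢ ball c R, P i z = 0 ↔ z ∈ B i) ∧
      ∃ u : X × ℂ → ℂ, AnalyticOnNhd ℂ u (Ω ×ˢ ball c R) ∧ (∀ z ∈ Ω ×ˢ ball c R, u z ≠ 0) ∧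
        ∀ z ∈ Ω ×ˢ ball c R, f z = (∏ i, P i z) * u z := by
  have hopen : IsOpen (Ω ×ˢ ball c R) := h.isOpen.prod isOpen_ball
  let e : ι → X → ℂ → ℕ := fun i x r => if (x, r) ∈ B i then 1 else 0
  have he : ∀ i, LocConst Ω ρ δ (e i) := by
    intro i x₁ hx₁ h1 a ha har
    have hax : a x₁ ∈ ball c R := by
      obtain ⟨j, hj⟩ := har.self_of_nhds
      rw [← hj]; exact h.mem x₁ hx₁ j
    have hz : (x₁, a x₁) ∈ Ω ×ˢ ball c R := ⟨hx₁, hax⟩
    have hc : ContinuousAt (fun x => (x, a x)) x₁ := continuousAt_id.prodMk ha.continuousAt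
    by_cases hB : (x₁, a x₁) ∈ B i
    · have h2 := hc.eventually (H3 _ hz h1 i hB)
      filter_upwards [h2, har, h.isOpen.mem_nhds hx₁] with x hx1 hx2 hx3
      obtain ⟨j, hj⟩ := hx2
      have hf0 : f (x, a x) = 0 := by
        rw [← hj]
        exact (h.zero_iff hx3 (ball_subset_closedBall (h.mem x hx3 j))).2 ⟨j, rfl⟩
      simp only [e, if_pos (hx1 hf0), if_pos hB]
    · have h2 : ∀ᶠ y in 𝓝 (x₁, a x₁), y ∉ B i := by
        by_contra hcon
        exact hB (H2 _ hz i hcon)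
      filter_upwards [hc.eventually h2] with x hx
      simp only [e, if_neg hx, if_neg hB]
  have hP := fun i => exists_eprod_ext (B := 1) h hδ (e := e i) (by
    intro x hx j
    simp only [e]
    split_ifs <;> simp) (he i)
  choose P hPan hPeq using hP
  obtain ⟨u, hu, hu0, hfu⟩ := h.exists_unit
  refine ⟨P, hPan, ?_, u, hu, hu0, ?_⟩
  · intro i z hz
    have hz' : z ∈ Ω ×ˢ (univ : Set ℂ) := ⟨hz.1, mem_univ _⟩
    have hcont : ContinuousAt (P i) z := (hPan i z hz').continuousAt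
    constructor
    · intro hPz
      apply H2 z hz i
      rw [Metric.nhds_basis_ball.frequently_iff]
      intro ε hε
      set ε' := min ε 1 with hε'
      have hε'0 : 0 < ε' := lt_min hε one_pos
      have hε'1 : ε' ≤ 1 := min_le_right _ _
      have hcx : ContinuousAt (fun x : X => P i (x, z.2)) z.1 :=
        ContinuousAt.comp (f := fun x : X => (x, z.2)) (x := z.1) hcont (by fun_prop)
      have hsmall : ∀ᶠ x in 𝓝 z.1, ‖P i (x, z.2)‖ < ε' ^ ν := by
        have := hcx.norm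
        apply this.eventually_lt continuousAt_const
        have h0 : P i (z.1, z.2) = 0 := hPz
        rw [h0, norm_zero]
        positivity
      have hev2 : ∀ᶠ x in 𝓝 z.1, x ∈ Ω ∧ x ∈ ball z.1 ε :=
        inter_mem (h.isOpen.mem_nhds hz.1) (ball_mem_nhds z.1 hε)
      obtain ⟨x, hx0, hx1, hx2, hx3⟩ :=
        ((hδ.frequently hz.1).and_eventually (hsmall.and hev2)).exists
      rw [hPeq i (x, z.2) hx2 hx0, eprod] at hx1
      by_contra hcon
      push Not at hcon
      have hlow : ε' ^ ν ≤ ‖∏ r ∈ Finset.univ.image (ρ x), (z.2 - r) ^ (e i x r)‖ := by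
        rw [norm_prod]
        calc ε' ^ ν ≤ ε' ^ (Finset.univ.image (ρ x)).card := by
              apply pow_le_pow_of_le_one hε'0.le hε'1
              exact Finset.card_image_le.trans (by simp)
          _ = ∏ _r ∈ Finset.univ.image (ρ x), ε' := by rw [Finset.prod_const]
          _ ≤ ∏ r ∈ Finset.univ.image (ρ x), ‖(z.2 - r) ^ (e i x r)‖ := by
              apply Finset.prod_le_prod fun _ _ => hε'0.le
              intro r hr
              by_cases hB : (x, r) ∈ B i
              · simp only [e, if_pos hB, pow_one]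
                by_contra hlt
                push Not at hlt
                refine hcon (x, r) ?_ hB
                rw [mem_ball, Prod.dist_eq]
                apply max_lt hx3
                rw [dist_comm, dist_eq_norm]
                exact hlt.trans_le (min_le_left _ _)
              · simp only [e, if_neg hB, pow_zero, norm_one]
                exact hε'1
      exact absurd hx1 (not_lt.2 hlow)
    · intro hzB
      by_contra hne
      have h1 : ∀ᶠ y in 𝓝 z, P i y ≠ 0 := hcont.eventually_ne hne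
      have h2 : ∀ᶠ y in 𝓝 z, P i y ≠ 0 ∧ y ∈ Ω ×ˢ ball c R := h1.and (hopen.mem_nhds hz)
      obtain ⟨y, ⟨hyB, hy0⟩, hy1, hy2⟩ := ((H5 z hz i hzB).and_eventually h2).exists
      apply hy1
      rw [hPeq i y hy2.1 hy0, eprod]
      have hf0 : f y = 0 := H0 y hy2 i hyB
      apply Finset.prod_eq_zero (i := y.2)
      · exact (h.mem_image_iff hy2.1).2 ⟨ball_subset_closedBall hy2.2, hf0⟩
      · have : (y.1, y.2) ∈ B i := hyB
        simp only [e, if_pos this, pow_one, sub_self]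
  · intro z hz
    have hz' : z ∈ Ω ×ˢ (univ : Set ℂ) := ⟨hz.1, mem_univ _⟩
    refine hδ.eq_of_eq hz.1 (h.an z ⟨hz.1, ball_subset_closedBall hz.2⟩).continuousAt
      (Q := fun z => (∏ i, P i z) * u z) ?_ ?_
    · apply ContinuousAt.mul _ (hu z hz).continuousAt
      have := Finset.analyticAt_fun_prod (f := P) Finset.univ (c := z) (𝕜 := ℂ)
        (fun i _ => hPan i z hz')
      exact this.continuousAt
    · filter_upwards [hopen.mem_nhds hz] with y hy hy0
      rw [hfu y hy]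
      congr 1
      simp only [hPeq _ y hy.1 hy0, eprod]
      rw [Finset.prod_comm]
      have hinjy := hinj y.1 hy.1 hy0
      rw [Finset.prod_image fun a _ b _ hab => hinjy hab]
      refine Finset.prod_congr rfl fun j _ => ?_
      rw [Finset.prod_pow_eq_pow_sum]
      have hroot : f (y.1, ρ y.1 j) = 0 :=
        (h.zero_iff hy.1 (ball_subset_closedBall (h.mem y.1 hy.1 j))).2 ⟨j, rfl⟩
      have hyj : (y.1, ρ y.1 j) ∈ Ω ×ˢ ball c R := ⟨hy.1, h.mem y.1 hy.1 j⟩
      obtain ⟨i₀, hi₀⟩ := H1 _ hyj hroot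
      have hsum : ∑ i, e i y.1 (ρ y.1 j) = 1 := by
        rw [Finset.sum_eq_single i₀]
        · simp only [e, if_pos hi₀]
        · intro i _ hi
          simp only [e]
          rw [if_neg]
          intro hB
          exact hi (H4 _ hyj hy0 i i₀ hB hi₀)
        · intro h1
          exact absurd (Finset.mem_univ i₀) h1
      rw [hsum, pow_one]

end coord

end Vale.Agent.P268
end
end

section

section

open Set Filter Metric Topology

namespace Vale.Agent.P268

section coord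

variable {X : Type*} [NormedAddCommGroup X] [NormedSpace ℂ X]

theorem IsDisc.mono {Ω Ω' : Set X} {ν : ℕ} {ρ : X → Fin ν → ℂ} {s : ℕ} {δ : X → ℂ}
    (h : IsDisc Ω ρ s δ) (hs : Ω' ⊆ Ω) : IsDisc Ω' ρ s δ :=
  ⟨h.an.mono hs, fun x hx => h.ne x (hs hx), fun x hx => h.card_le x (hs hx),
    fun x hx => h.iff x (hs hx)⟩

/-- Good Weierstrass polydiscs. -/
theorem exists_good [FiniteDimensional ℂ X] {f : X × ℂ → ℂ} (hf : AnalyticAt ℂ f 0)
    (hord : analyticOrderAt (fun w : ℂ => f (0, w)) 0 ≠ ⊤) {W : Set (X × ℂ)}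
    (hW : W ∈ 𝓝 (0 : X × ℂ)) :
    ∀ᶠ R in 𝓝[>] (0 : ℝ), 0 < R ∧ ∃ ε > 0, ∃ (ν : ℕ) (ρ : X → Fin ν → ℂ) (s : ℕ) (δ : X → ℂ),
      RootFam f (ball 0 ε) 0 R ν ρ ∧ IsDisc (ball 0 ε) ρ s δ ∧
      ball 0 ε ×ˢ closedBall 0 R ⊆ W ∧ (∀ w ∈ closedBall (0 : ℂ) R, f (0, w) = 0 → w = 0) ∧
      (ReducedAt f 0 → ∀ x ∈ ball (0 : X) ε, δ x ≠ 0 → Function.Injective (ρ x)) := by
  have hline : AnalyticAt ℂ (fun w : ℂ => f (0, w)) 0 := analyticAt_partial hf
  have hiso : ∀ᶠ w in 𝓝 (0 : ℂ), w ≠ 0 → f (0, w) ≠ 0 := by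
    rcases hline.eventually_eq_zero_or_eventually_ne_zero with h | h
    · exact absurd (analyticOrderAt_eq_top.2 h) hord
    · rwa [eventually_nhdsWithin_iff] at h
  obtain ⟨r₀, hr₀, hball₀⟩ := Metric.eventually_nhds_iff_ball.1 hiso
  obtain ⟨r₁, hr₁, hball₁⟩ := Metric.eventually_nhds_iff_ball.1 (hf.eventually_analyticAt.and hW)
  have hrs : ∀ᶠ r in 𝓝[>] (0:ℝ), 0 < r ∧ r < r₀ ∧ r < r₁ := by
    filter_upwards [Ioo_mem_nhdsGT hr₀, Ioo_mem_nhdsGT hr₁] with r h1 h2 using ⟨h1.1, h1.2, h2.2⟩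
  filter_upwards [hrs] with R hR
  obtain ⟨hR0, hRr₀, hRr₁⟩ := hR
  refine ⟨hR0, ?_⟩
  have hprod : ∀ x ∈ ball (0 : X) r₁, ∀ w ∈ closedBall (0 : ℂ) R, (x, w) ∈ ball (0 : X × ℂ) r₁ := by
    intro x hx w hw
    rw [mem_ball_zero_iff] at hx ⊢
    rw [mem_closedBall_zero_iff] at hw
    rw [Prod.norm_def]
    exact max_lt hx (hw.trans_lt hRr₁)
  have hzero : ∀ w ∈ closedBall (0 : ℂ) R, f (0, w) = 0 → w = 0 := by
    intro w hw h0
    by_contra hw0
    exact hball₀ w (closedBall_subset_ball hRr₀ hw) hw0 h0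
  obtain ⟨ε₁, hε₁, ν, ρ, hfam⟩ := exists_rootFam (f := f) (x₀ := 0) (c := 0) hR0
    (fun w hw => (hball₁ _ (hprod 0 (mem_ball_self hr₁) w hw)).1) (by
      intro w hw h0
      have := hzero w (sphere_subset_closedBall hw) h0
      rw [this, mem_sphere, dist_self] at hw
      exact hR0.ne hw)
  set ε₂ := min ε₁ r₁ with hε₂
  have hε₂0 : 0 < ε₂ := lt_min hε₁ hr₁
  have hfam₂ := hfam.mono (Ω' := ball 0 ε₂) (ball_subset_ball (min_le_left _ _)) isOpen_ball
  obtain ⟨s, δ, hδ⟩ := hfam₂.exists_disc (convex_ball (0 : X) ε₂).isPreconnected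
    ⟨0, mem_ball_self hε₂0⟩
  by_cases hred : ReducedAt f 0
  · have h1 := simple_roots hfam₂ hδ (mem_ball_self hε₂0) (by
      intro w hw h0
      have hw0 : w = 0 := hzero w (ball_subset_closedBall hw) h0
      rw [hw0]
      exact hred)
    obtain ⟨ε₃, hε₃, hball₃⟩ := Metric.eventually_nhds_iff_ball.1 h1
    have hsub : ball (0 : X) (min ε₂ ε₃) ⊆ ball 0 ε₂ := ball_subset_ball (min_le_left _ _)
    refine ⟨min ε₂ ε₃, lt_min hε₂0 hε₃, ν, ρ, s, δ, hfam₂.mono hsub isOpen_ball, hδ.mono hsub,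
      ?_, hzero, ?_⟩
    · rintro ⟨x, w⟩ ⟨hx, hw⟩
      exact (hball₁ _ (hprod x (ball_subset_ball (min_le_right _ _) (hsub hx)) w hw)).2
    · intro _ x hx
      exact hball₃ x (ball_subset_ball (min_le_right _ _) hx)
  · refine ⟨ε₂, hε₂0, ν, ρ, s, δ, hfam₂, hδ, ?_, hzero, fun h => absurd h hred⟩
    rintro ⟨x, w⟩ ⟨hx, hw⟩
    exact (hball₁ _ (hprod x (ball_subset_ball (min_le_right _ _) hx) w hw)).2

/-- The hypothesis of the perturbation lemma holds for reduced germs. -/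
theorem exists_simple_fiber [FiniteDimensional ℂ X] {f : X × ℂ → ℂ} (hf : AnalyticAt ℂ f 0)
    (hord : analyticOrderAt (fun w : ℂ => f (0, w)) 0 ≠ ⊤) (hred : ReducedAt f 0) :
    ∀ᶠ r in 𝓝[>] (0:ℝ), ∃ᶠ x in 𝓝 (0 : X), ∀ w : ℂ, ‖w‖ < r → f (x, w) = 0 →
      deriv (fun w : ℂ => f (x, w)) w ≠ 0 := by
  filter_upwards [exists_good hf hord univ_mem] with R hR
  obtain ⟨hR0, ε, hε, ν, ρ, s, δ, hfam, hδ, -, -, hinj⟩ := hR
  have h0 : (0 : X) ∈ ball (0 : X) ε := mem_ball_self hε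
  refine ((hδ.frequently h0).and_eventually (ball_mem_nhds (0 : X) hε)).mono ?_
  rintro x ⟨hx0, hx⟩ w hw hfw
  exact deriv_ne_zero_of_injective hfam hx (hinj hred x hx hx0)
    (by rw [mem_closedBall_zero_iff]; exact hw.le) hfw

end coord

section E

variable {E : Type*} [NormedAddCommGroup E] [NormedSpace ℂ E]

theorem ReducedAt.not_eventually_zero {F : E → ℂ} {p : E} (h : ReducedAt F p) :
    ¬ ∀ᶠ z in 𝓝 p, F z = 0 := by
  intro h0
  refine h (fun _ => 0) (fun _ => 0) analyticAt_const analyticAt_const rfl ?_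
  filter_upwards [h0] with z hz
  rw [hz]; simp

theorem exists_coord [FiniteDimensional ℂ E] {G : E → ℂ} (hG : AnalyticAt ℂ G 0) (h0 : G 0 = 0)
    (hne : ¬ ∀ᶠ z in 𝓝 (0 : E), G z = 0) :
    ∃ (K : Submodule ℂ E) (L : E ≃L[ℂ] K × ℂ),
      analyticOrderAt (fun w : ℂ => G (L.symm (0, w))) 0 ≠ ⊤ := by
  obtain ⟨v, m, hm0, hm, -⟩ := exists_line_order hG h0 hne
  have hv : v ≠ 0 := by
    rintro rfl
    have : (fun t : ℂ => G (0 + t • (0 : E))) = fun _ => 0 := by
      ext t; simp [h0]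
    rw [this] at hm
    have h2 : analyticOrderAt (fun _ : ℂ => (0 : ℂ)) 0 = ⊤ := by
      rw [analyticOrderAt_eq_top]; simp
    rw [h2] at hm
    exact absurd hm.symm (ENat.natCast_ne_top m)
  obtain ⟨l, hl⟩ := SeparatingDual.exists_eq_one (R := ℂ) hv
  let f₂ : ℂ →L[ℂ] E := ContinuousLinearMap.toSpanSingleton ℂ v
  have hri : Function.RightInverse f₂ l := by
    intro t
    simp [f₂, hl]
  let L₀ := ContinuousLinearEquiv.equivOfRightInverse l f₂ hri
  let L : E ≃L[ℂ] l.ker × ℂ := L₀.trans (ContinuousLinearEquiv.prodComm ℂ ℂ l.ker)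
  refine ⟨l.ker, L, ?_⟩
  have h3 : (fun w : ℂ => G (L.symm (0, w))) = fun t : ℂ => G (0 + t • v) := by
    ext w
    congr 1
    change L₀.symm (w, 0) = 0 + w • v
    simp [L₀, f₂]
  rw [h3, hm]
  exact ENat.natCast_ne_top m

theorem ReducedAt.comp_symm {F' : Type*} [NormedAddCommGroup F'] [NormedSpace ℂ F'] {F : E → ℂ}
    (h : ReducedAt F 0) (L : E ≃L[ℂ] F') : ReducedAt (fun z => F (L.symm z)) 0 := by
  intro g k hg hk hg0 heq
  have hL : Tendsto L (𝓝 (0 : E)) (𝓝 (0 : F')) := by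
    have := L.continuous.tendsto 0
    rwa [map_zero] at this
  refine h (fun z => g (L z)) (fun z => k (L z)) ?_ ?_ ?_ ?_
  · have h1 : AnalyticAt ℂ g (L 0) := by rwa [map_zero]
    exact AnalyticAt.fun_comp (f := L) h1 (L.toContinuousLinearMap.analyticAt 0)
  · have h1 : AnalyticAt ℂ k (L 0) := by rwa [map_zero]
    exact AnalyticAt.fun_comp (f := L) h1 (L.toContinuousLinearMap.analyticAt 0)
  · simpa using hg0
  · filter_upwards [hL.eventually heq] with z hz
    simpa using hz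

theorem analyticAt_comp_symm {F' : Type*} [NormedAddCommGroup F'] [NormedSpace ℂ F'] {F : E → ℂ}
    (L : E ≃L[ℂ] F') {z : F'} (h : AnalyticAt ℂ F (L.symm z)) :
    AnalyticAt ℂ (fun z => F (L.symm z)) z :=
  AnalyticAt.fun_comp (f := L.symm) h (L.symm.toContinuousLinearMap.analyticAt z)

theorem fderiv_comp_symm_ne {F' : Type*} [NormedAddCommGroup F'] [NormedSpace ℂ F'] {F : E → ℂ}
    (L : E ≃L[ℂ] F') {z : F'} :
    fderiv ℂ (fun z => F (L.symm z)) z ≠ 0 ↔ fderiv ℂ F (L.symm z) ≠ 0 := by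
  have h1 : fderiv ℂ (fun z => F (L.symm z)) z =
      (fderiv ℂ F (L.symm z)).comp (L.symm : F' →L[ℂ] E) := L.symm.comp_right_fderiv
  rw [h1]
  constructor
  · intro h h2
    rw [h2] at h
    exact h (by simp)
  · intro h h2
    apply h
    ext v
    have := congrArg (fun T => T (L v)) h2
    simpa using this

/-- Simple points of a reduced germ `F` are dense in the zero set of every factor. -/
theorem frequently_simple [FiniteDimensional ℂ E] {F f : E → ℂ} (hF : AnalyticAt ℂ F 0)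
    (hf : AnalyticAt ℂ f 0) (hred : ReducedAt F 0) (hfF : ∀ᶠ z in 𝓝 (0 : E), f z = 0 → F z = 0) :
    ∀ᶠ p in 𝓝 (0 : E), f p = 0 → ∃ᶠ q in 𝓝 p, f q = 0 ∧ fderiv ℂ F q ≠ 0 := by
  by_cases hf0 : f 0 = 0
  swap
  · filter_upwards [hf.continuousAt.eventually_ne hf0] with p hp h
    exact absurd h hp
  have hF0 : F 0 = 0 := hfF.self_of_nhds hf0
  obtain ⟨K, L, hL⟩ := exists_coord hF hF0 hred.not_eventually_zero
  have hLt : Tendsto L.symm (𝓝 (0 : K × ℂ)) (𝓝 (0 : E)) := by
    have := L.symm.continuous.tendsto 0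
    rwa [map_zero] at this
  set F' : K × ℂ → ℂ := fun z => F (L.symm z) with hF'
  set f' : K × ℂ → ℂ := fun z => f (L.symm z) with hf'
  have hF'an : AnalyticAt ℂ F' 0 := analyticAt_comp_symm L (by simpa using hF)
  have hf'an : AnalyticAt ℂ f' 0 := analyticAt_comp_symm L (by simpa using hf)
  have hF'red : ReducedAt F' 0 := hred.comp_symm L
  have hfF' : ∀ᶠ z in 𝓝 (0 : K × ℂ), f' z = 0 → F' z = 0 := hLt.eventually hfF
  have hLf : analyticOrderAt (fun w : ℂ => f' (0, w)) 0 ≠ ⊤ := by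
    intro htop
    apply hL
    rw [analyticOrderAt_eq_top] at htop ⊢
    have hc : Tendsto (fun w : ℂ => ((0 : K), w)) (𝓝 0) (𝓝 (0 : K × ℂ)) := by
      have : Continuous (fun w : ℂ => ((0 : K), w)) := by fun_prop
      exact this.tendsto 0
    filter_upwards [htop, hc.eventually hfF'] with w hw1 hw2
    exact hw2 hw1
  have hK : FiniteDimensional ℂ K := inferInstance
  obtain ⟨R, ⟨hR0, ε, hε, ν, ρ, s, δ, hfam, hδ, -, -, hinj⟩,
    ⟨-, ε', hε', ν', ρ', s', δ', hfam', -, hsub, -, -⟩⟩ :=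
    ((exists_good hF'an hL (W := univ) univ_mem).and (exists_good hf'an hLf hfF')).exists
  have hnb : ball (0 : K) ε ∩ ball (0 : K) ε' ∈ 𝓝 (0 : K) :=
    inter_mem (ball_mem_nhds _ hε) (ball_mem_nhds _ hε')
  have hev : ∀ᶠ z in 𝓝 (0 : K × ℂ), (z.1 ∈ ball (0 : K) ε ∩ ball (0 : K) ε') ∧ z.2 ∈ ball (0 : ℂ) R := by
    apply Filter.Eventually.and
    · exact (continuousAt_fst : ContinuousAt (fun z : K × ℂ => z.1) 0).eventually hnb
    · exact (continuousAt_snd : ContinuousAt (fun z : K × ℂ => z.2) 0).eventually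
        (ball_mem_nhds (0 : ℂ) hR0)
  have hmain : ∀ᶠ z in 𝓝 (0 : K × ℂ), f' z = 0 → ∃ᶠ y in 𝓝 z, f' y = 0 ∧ fderiv ℂ F' y ≠ 0 := by
    filter_upwards [hev] with z hz hfz
    have hD : ∃ᶠ x in 𝓝 z.1, x ∈ {x | δ x ≠ 0} := hδ.frequently hz.1.1
    have h1 := frequently_zero hfam' hz.1.2 (ball_subset_closedBall hz.2) hfz hD
    have h2 : ∀ᶠ y in 𝓝 z, (y.1 ∈ ball (0 : K) ε ∩ ball (0 : K) ε') ∧ y.2 ∈ ball (0 : ℂ) R := by
      apply Filter.Eventually.and
      · exact (continuousAt_fst : ContinuousAt (fun z : K × ℂ => z.1) z).eventually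
          ((isOpen_ball.inter isOpen_ball).mem_nhds hz.1)
      · exact (continuousAt_snd : ContinuousAt (fun z : K × ℂ => z.2) z).eventually
          (isOpen_ball.mem_nhds hz.2)
    refine (h1.and_eventually h2).mono ?_
    rintro y ⟨⟨hy0, hyD⟩, hy1, hy2⟩
    refine ⟨hy0, ?_⟩
    have hFy : F' y = 0 := hsub (show y ∈ ball (0 : K) ε' ×ˢ closedBall (0 : ℂ) R from
      ⟨hy1.2, ball_subset_closedBall hy2⟩) hy0
    exact fderiv_ne_zero_of_deriv_ne_zero
      (hfam.an y ⟨hy1.1, ball_subset_closedBall hy2⟩)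
      (deriv_ne_zero_of_injective hfam hy1.1 (hinj hF'red y.1 hy1.1 hyD)
        (ball_subset_closedBall hy2) hFy)
  have hLt' : Tendsto L (𝓝 (0 : E)) (𝓝 (0 : K × ℂ)) := by
    have := L.continuous.tendsto 0
    rwa [map_zero] at this
  filter_upwards [hLt'.eventually hmain] with p hp hfp
  have h1 := hp (by simpa [hf'] using hfp)
  have hLs : Tendsto L.symm (𝓝 (L p)) (𝓝 p) := by
    have := L.symm.continuous.tendsto (L p)
    simpa using this
  have h2 : ∃ᶠ y in 𝓝 (L p), f (L.symm y) = 0 ∧ fderiv ℂ F (L.symm y) ≠ 0 := by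
    refine h1.mono ?_
    rintro y ⟨hy1, hy2⟩
    exact ⟨hy1, (fderiv_comp_symm_ne L).1 hy2⟩
  exact hLs.frequently h2

end E

end Vale.Agent.P268
end
end

section

section

/-!
Winding numbers of the transported function along analytic curves.
-/

namespace Vale.Agent.P268

open Set Filter Metric Topology

variable {E : Type*} [NormedAddCommGroup E] [NormedSpace ℂ E] [FiniteDimensional ℂ E]

/-- At all simple points near the origin the local index is one up to sign. -/
theorem eventually_index_one {f g : E → ℂ} (hf : AnalyticAt ℂ f 0) (hg : AnalyticAt ℂ g 0)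
    (hrg : ReducedAt g 0) (φ : OpenPartialHomeomorph E E) (h0 : (0 : E) ∈ φ.source)
    (hφ0 : φ 0 = 0) (hz : ∀ᶠ z in 𝓝 (0 : E), (f z = 0 ↔ g (φ z) = 0)) :
    ∀ᶠ p in 𝓝 (0 : E), f p = 0 → fderiv ℂ f p ≠ 0 →
      ∃ k : ℤ, HasIdx f (g ∘ φ) p k ∧ (k = 1 ∨ k = -1) := by
  have : CompleteSpace E := FiniteDimensional.complete ℂ E
  have hc : Tendsto φ (𝓝 0) (𝓝 0) := by
    have := (φ.continuousAt h0).tendsto
    rwa [hφ0] at this
  have h1 := frequently_simple hg hg hrg (Eventually.of_forall fun z h => h)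
  filter_upwards [φ.open_source.mem_nhds h0, hf.eventually_analyticAt,
    eventually_eventually_nhds.2 hz, hc.eventually hg.eventually_analyticAt,
    hc.eventually h1, hz] with p a1 a2 a3 a4 a5 a6 hfp hdf
  exact index_one φ a1 a2 hfp hdf a3 a4 (a5 (a6.1 hfp))

theorem gp_le {f g : E → ℂ} (hf : AnalyticAt ℂ f 0) (hg : AnalyticAt ℂ g 0)
    (hrf : ReducedAt f 0) (hrg : ReducedAt g 0) (φ : OpenPartialHomeomorph E E)
    (h0 : (0 : E) ∈ φ.source) (hφ0 : φ 0 = 0)
    (hz : ∀ᶠ z in 𝓝 (0 : E), (f z = 0 ↔ g (φ z) = 0)) {γ : ℂ → E} (hγ : AnalyticAt ℂ γ 0)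
    (hγ0 : γ 0 = 0) {ν : ℕ} (hν : analyticOrderAt (fun t => f (γ t)) 0 = ν) {k : ℤ}
    (hk : HasIdx (fun t : ℂ => t) (fun t => g (φ (γ t))) 0 k) : |k| ≤ ν := by
  classical
  -- the translation family
  let T : E × ℂ → E := fun z => γ z.2 + z.1
  have hT0 : T 0 = 0 := by simp [T, hγ0]
  have hTan : ∀ z : E × ℂ, AnalyticAt ℂ γ z.2 → AnalyticAt ℂ T z := by
    intro z hz
    exact (AnalyticAt.fun_comp (g := γ) (f := Prod.snd) hz analyticAt_snd).add analyticAt_fst
  have hT : AnalyticAt ℂ T 0 := hTan 0 hγ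
  have hTt : Tendsto T (𝓝 0) (𝓝 0) := by
    have := hT.continuousAt.tendsto
    rwa [hT0] at this
  have hφt : Tendsto φ (𝓝 0) (𝓝 0) := by
    have := (φ.continuousAt h0).tendsto
    rwa [hφ0] at this
  have hsnd : Tendsto (fun z : E × ℂ => z.2) (𝓝 0) (𝓝 0) :=
    (continuous_snd.tendsto (0 : E × ℂ))
  have hft : AnalyticAt ℂ (fun z => f (T z)) 0 :=
    AnalyticAt.fun_comp (g := f) (f := T) (by rw [hT0]; exact hf) hT
  have hred : ReducedAt (fun z => f (T z)) 0 := by
    intro a b ha hb ha0 hab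
    have hι : AnalyticAt ℂ (fun x : E => ((x, 0) : E × ℂ)) 0 := by fun_prop
    refine hrf (fun x => a (x, 0)) (fun x => b (x, 0)) ?_ ?_ ha0 ?_
    · exact AnalyticAt.fun_comp (g := a) (f := fun x : E => ((x, 0) : E × ℂ)) ha hι
    · exact AnalyticAt.fun_comp (g := b) (f := fun x : E => ((x, 0) : E × ℂ)) hb hι
    · have h1 : Tendsto (fun x : E => ((x, 0) : E × ℂ)) (𝓝 0) (𝓝 0) := hι.continuousAt.tendsto
      filter_upwards [h1.eventually hab] with x hx
      simpa [T, hγ0] using hx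
  have hν' : analyticOrderAt (fun w : ℂ => f (T (0, w))) 0 = ν := by
    have : (fun w : ℂ => f (T (0, w))) = fun t => f (γ t) := by
      ext w; simp [T]
    rw [this, hν]
  have hs := exists_simple_fiber hft (by rw [hν']; exact ENat.natCast_ne_top ν) hred
  have hgood := (eventually_index_one hf hg hrg φ h0 hφ0 hz).and (hf.eventually_analyticAt.and
    ((show ∀ᶠ z in 𝓝 (0 : E), z ∈ φ.source from φ.open_source.mem_nhds h0).and
      (hφt.eventually hg.eventually_analyticAt)))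
  have hW : {z : E × ℂ | ((f (T z) = 0 → fderiv ℂ f (T z) ≠ 0 →
      ∃ k : ℤ, HasIdx f (g ∘ φ) (T z) k ∧ (k = 1 ∨ k = -1)) ∧ (AnalyticAt ℂ f (T z) ∧
      (T z ∈ φ.source ∧ AnalyticAt ℂ g (φ (T z))))) ∧ AnalyticAt ℂ γ z.2} ∈ 𝓝 (0 : E × ℂ) := by
    exact (hTt.eventually hgood).and (hsnd.eventually hγ.eventually_analyticAt)
  obtain ⟨x, S, hcard, hS, hsum⟩ := pert (f := fun z => f (T z)) (U := fun z => g (φ (T z)))
    hft hν' (by
      filter_upwards [hW] with z hz
      obtain ⟨⟨-, -, h2, h3⟩, h4⟩ := hz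
      exact ContinuousAt.comp (g := g) h3.continuousAt
        (ContinuousAt.comp (g := φ) (φ.continuousAt h2) (hTan z h4).continuousAt))
    ((hTt.eventually hz).mono fun z hz1 hz2 => hz1.2 hz2) hs (k := k) (by
      have : (fun w : ℂ => g (φ (T (0, w)))) = fun t => g (φ (γ t)) := by
        ext w; simp [T]
      simpa only [this] using hk) hW
  have hex : ∀ w ∈ S, ∃ κ : ℤ, HasIdx (fun z => f (T z)) (fun z => g (φ (T z))) (x, w) κ ∧
      (κ = 1 ∨ κ = -1) := by
    intro w hw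
    obtain ⟨⟨⟨h1, h2, h3, h4⟩, h5⟩, h6, h7⟩ := hS w hw
    have hfd : fderiv ℂ f (T (x, w)) ≠ 0 := by
      intro hfd0
      apply h7
      have hd : HasDerivAt (fun w : ℂ => T (x, w)) (deriv γ w) w := by
        have := (h5.differentiableAt.hasDerivAt (x := w)).add_const x
        exact this
      have h8 := (show HasFDerivAt f (fderiv ℂ f (T (x, w))) (T (x, w)) from
        h2.differentiableAt.hasFDerivAt).comp_hasDerivAt w hd
      rw [hfd0] at h8
      exact h8.deriv
    obtain ⟨κ, hκ, hκ1⟩ := h1 h6 hfd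
    refine ⟨κ, ?_, hκ1⟩
    have hcT : ∀ᶠ z in 𝓝 (x, w), ContinuousAt T z := by
      filter_upwards [(hTan (x, w) h5).eventually_analyticAt] with z hz using hz.continuousAt
    exact hκ.comp hcT
  choose! κ hκ hκ1 using hex
  have hk' := hsum κ hκ
  rw [hk', ← hcard]
  calc |∑ w ∈ S, κ w| ≤ ∑ w ∈ S, |κ w| := Finset.abs_sum_le_sum_abs _ _
    _ = ∑ _w ∈ S, (1 : ℤ) := by
        apply Finset.sum_congr rfl
        intro w hw
        rcases hκ1 w hw with h | h <;> simp [h]
    _ = S.card := by simp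

/-- index of a local homeomorphism of the plane -/
theorem exists_idx_plane {θ τ : ℂ → ℂ} (hθ : ∀ᶠ t in 𝓝 (0 : ℂ), ContinuousAt θ t)
    (hτ : ∀ᶠ t in 𝓝 (0 : ℂ), ContinuousAt τ t) (hθ0 : θ 0 = 0) (hτ0 : τ 0 = 0)
    (hθτ : ∀ᶠ s in 𝓝 (0 : ℂ), θ (τ s) = s) (hτθ : ∀ᶠ t in 𝓝 (0 : ℂ), τ (θ t) = t) :
    ∃ κ κ' : ℤ, HasIdx (fun t : ℂ => t) θ 0 κ ∧ HasIdx (fun t : ℂ => t) τ 0 κ' ∧
      κ * κ' = 1 := by
  have hid : AnalyticAt ℂ (fun t : ℂ => t) 0 := analyticAt_id
  have hd : fderiv ℂ (fun t : ℂ => t) 0 ≠ 0 := by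
    rw [fderiv_fun_id]
    intro h
    have := congrArg (fun l => l 1) h
    simp at this
  obtain ⟨κ, hκ⟩ := exists_idx (u := θ) hid rfl hd (hθ.mono fun z h _ => h) (by
    filter_upwards [hτθ] with t ht hne h0
    rw [h0, hτ0] at ht
    exact hne ht.symm)
  obtain ⟨κ', hκ'⟩ := exists_idx (u := τ) hid rfl hd (hτ.mono fun z h _ => h) (by
    filter_upwards [hθτ] with t ht hne h0
    rw [h0, hθ0] at ht
    exact hne ht.symm)
  refine ⟨κ, κ', hκ, hκ', ?_⟩
  have hκ2 : HasIdx (fun t : ℂ => t) θ (τ 0) κ := by rwa [hτ0]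
  have h1 : HasIdx ((fun t : ℂ => t) ∘ τ) (θ ∘ τ) 0 κ := hκ2.comp hτ
  have h2 : HasIdx (fun t : ℂ => t) (θ ∘ τ) 0 (κ' * κ) := hκ'.trans h1
  have h3 : HasIdx (fun t : ℂ => t) (fun t : ℂ => t) 0 (κ' * κ) :=
    h2.congr (EventuallyEq.refl _ _) hθτ
  have h4 : κ' * κ = 1 := h3.unique hid rfl (not_eventually_zero hd) (hasIdx_self _ 0)
  rw [mul_comm]; exact h4

theorem gp_half {f g : E → ℂ} (hf : AnalyticAt ℂ f 0) (hg : AnalyticAt ℂ g 0)
    (hrf : ReducedAt f 0) (hrg : ReducedAt g 0) (φ : OpenPartialHomeomorph E E)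
    (h0 : (0 : E) ∈ φ.source) (hφ0 : φ 0 = 0)
    (hz : ∀ᶠ z in 𝓝 (0 : E), (f z = 0 ↔ g (φ z) = 0)) {γ y : ℂ → E} (hγ : AnalyticAt ℂ γ 0)
    (hγ0 : γ 0 = 0) (hy : AnalyticAt ℂ y 0) (hy0 : y 0 = 0) {θ : ℂ → ℂ}
    (hθ : ∀ᶠ t in 𝓝 (0 : ℂ), ContinuousAt θ t) (hθ0 : θ 0 = 0)
    (hrel : ∀ᶠ t in 𝓝 (0 : ℂ), φ (γ t) = y (θ t)) {κ : ℤ}
    (hκ : HasIdx (fun t : ℂ => t) θ 0 κ) (hκ1 : κ = 1 ∨ κ = -1) {μ ν : ℕ}
    (hν : analyticOrderAt (fun t => f (γ t)) 0 = ν)
    (hμ : analyticOrderAt (fun t => g (y t)) 0 = μ) : μ ≤ ν := by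
  have hgy : AnalyticAt ℂ (fun t => g (y t)) 0 :=
    AnalyticAt.fun_comp (g := g) (f := y) (by rw [hy0]; exact hg) hy
  have h1 : HasIdx (fun t : ℂ => t) (fun t => g (y t)) 0 μ := by
    simpa using hasIdx_analytic hgy hμ
  have h2 : HasIdx (fun t : ℂ => t) (fun t => g (y t)) (θ 0) μ := by rwa [hθ0]
  have h3 : HasIdx ((fun t : ℂ => t) ∘ θ) ((fun t => g (y t)) ∘ θ) 0 μ := h2.comp hθ
  have h4 : HasIdx (fun t : ℂ => t) ((fun t => g (y t)) ∘ θ) 0 (κ * μ) := hκ.trans h3
  have h5 : HasIdx (fun t : ℂ => t) (fun t => g (φ (γ t))) 0 (κ * μ) := by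
    refine h4.congr (EventuallyEq.refl _ _) ?_
    filter_upwards [hrel] with t ht
    simp [ht]
  have h6 := gp_le hf hg hrf hrg φ h0 hφ0 hz hγ hγ0 hν h5
  rcases hκ1 with h | h
  · rw [h] at h6
    simpa using h6
  · rw [h] at h6
    simpa using h6

end Vale.Agent.P268
end
end

section

section

open Set Filter Metric Topology

namespace Vale.Agent.P268

variable {E : Type*} [NormedAddCommGroup E] [NormedSpace ℂ E]

theorem frequently_equiv {F' : Type*} [NormedAddCommGroup F'] [NormedSpace ℂ F']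
    (L : E ≃L[ℂ] F') {p : E → Prop} {z : F'} :
    (∃ᶠ y in 𝓝 z, p (L.symm y)) ↔ ∃ᶠ q in 𝓝 (L.symm z), p q := by
  constructor
  · intro h
    exact (L.symm.continuous.tendsto z).frequently h
  · intro h
    have h1 : Tendsto L (𝓝 (L.symm z)) (𝓝 z) := by
      have := L.continuous.tendsto (L.symm z)
      simpa using this
    refine h1.frequently (h.mono fun q hq => ?_)
    simpa using hq

theorem eventually_equiv {F' : Type*} [NormedAddCommGroup F'] [NormedSpace ℂ F']
    (L : E ≃L[ℂ] F') {p : E → Prop} {z : F'} :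
    (∀ᶠ y in 𝓝 z, p (L.symm y)) ↔ ∀ᶠ q in 𝓝 (L.symm z), p q := by
  constructor
  · intro h
    have h1 : Tendsto L (𝓝 (L.symm z)) (𝓝 z) := by
      have := L.continuous.tendsto (L.symm z)
      simpa using this
    filter_upwards [h1.eventually h] with q hq
    simpa using hq
  · intro h
    exact (L.symm.continuous.tendsto z).eventually h

/-- Factorization of a reduced germ along a topological decomposition of its zero set. -/
theorem comp_factor [FiniteDimensional ℂ E] {G : E → ℂ} (hG : AnalyticAt ℂ G 0) (h0 : G 0 = 0)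
    (hred : ReducedAt G 0) {ι : Type*} [Fintype ι] (B : ι → Set E)
    (H1 : ∀ᶠ p in 𝓝 (0 : E), G p = 0 ↔ ∃ i, p ∈ B i)
    (H2 : ∀ i, ∀ᶠ p in 𝓝 (0 : E), (∃ᶠ q in 𝓝 p, q ∈ B i) → p ∈ B i)
    (H3 : ∀ i, ∀ᶠ p in 𝓝 (0 : E), fderiv ℂ G p ≠ 0 → p ∈ B i → ∀ᶠ q in 𝓝 p, G q = 0 → q ∈ B i)
    (H4 : ∀ i j, ∀ᶠ p in 𝓝 (0 : E), fderiv ℂ G p ≠ 0 → p ∈ B i → p ∈ B j → i = j)
    (H5 : ∀ i, ∀ᶠ p in 𝓝 (0 : E), p ∈ B i →
      ∃ᶠ q in 𝓝 p, q ∈ B i ∧ ∀ᶠ r in 𝓝 q, G r = 0 → r ∈ B i) :
    ∃ P : ι → E → ℂ, (∀ i, AnalyticAt ℂ (P i) 0) ∧ (∀ i, ∀ᶠ p in 𝓝 (0 : E), P i p = 0 ↔ p ∈ B i) ∧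
      ∃ u : E → ℂ, AnalyticAt ℂ u 0 ∧ u 0 ≠ 0 ∧ ∀ᶠ p in 𝓝 (0 : E), G p = (∏ i, P i p) * u p := by
  obtain ⟨K, L, hL⟩ := exists_coord hG h0 hred.not_eventually_zero
  have hL0 : L.symm (0 : K × ℂ) = 0 := map_zero _
  set G' : K × ℂ → ℂ := fun z => G (L.symm z) with hG'
  have hG'an : AnalyticAt ℂ G' 0 := analyticAt_comp_symm L (by simpa using hG)
  have hG'red : ReducedAt G' 0 := hred.comp_symm L
  have hK : FiniteDimensional ℂ K := inferInstance
  -- a neighbourhood where everything holds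
  have hall : ∀ᶠ p in 𝓝 (0 : E), (G p = 0 ↔ ∃ i, p ∈ B i) ∧
      (∀ i, (∃ᶠ q in 𝓝 p, q ∈ B i) → p ∈ B i) ∧
      (∀ i, fderiv ℂ G p ≠ 0 → p ∈ B i → ∀ᶠ q in 𝓝 p, G q = 0 → q ∈ B i) ∧
      (∀ i j, fderiv ℂ G p ≠ 0 → p ∈ B i → p ∈ B j → i = j) ∧
      (∀ i, p ∈ B i → ∃ᶠ q in 𝓝 p, q ∈ B i ∧ ∀ᶠ r in 𝓝 q, G r = 0 → r ∈ B i) := by
    refine H1.and ((Filter.eventually_all.2 H2).and ((Filter.eventually_all.2 H3).and
      ((Filter.eventually_all.2 fun i => Filter.eventually_all.2 (H4 i)).and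
        (Filter.eventually_all.2 H5))))
  rw [← hL0, ← eventually_equiv L] at hall
  obtain ⟨R, hR0, ε, hε, ν, ρ, s, δ, hfam, hδ, hsub, -, hinj⟩ :=
    (exists_good hG'an hL hall).exists
  have hinj' := hinj hG'red
  have hW : ∀ z ∈ ball (0 : K) ε ×ˢ ball (0 : ℂ) R, z ∈ ball (0 : K) ε ×ˢ closedBall (0 : ℂ) R :=
    fun z hz => ⟨hz.1, ball_subset_closedBall hz.2⟩
  have hfd : ∀ z ∈ ball (0 : K) ε ×ˢ ball (0 : ℂ) R, δ z.1 ≠ 0 → G' z = 0 →
      fderiv ℂ G (L.symm z) ≠ 0 := by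
    intro z hz hδz hGz
    rw [← fderiv_comp_symm_ne L]
    exact fderiv_ne_zero_of_deriv_ne_zero (hfam.an z (hW z hz))
      (deriv_ne_zero_of_injective hfam hz.1 (hinj' z.1 hz.1 hδz) (ball_subset_closedBall hz.2) hGz)
  have hopen : IsOpen (ball (0 : K) ε ×ˢ ball (0 : ℂ) R) := isOpen_ball.prod isOpen_ball
  obtain ⟨P, hPan, hPiff, u, hu, hu0, hfac⟩ := comp_coord hfam hδ hinj'
    (B := fun i => L.symm ⁻¹' (B i))
    (by
      intro z hz i hzi
      exact (hsub (hW z hz)).1.2 ⟨i, hzi⟩)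
    (by
      intro z hz hz0
      exact (hsub (hW z hz)).1.1 hz0)
    (by
      intro z hz i hfreq
      exact (hsub (hW z hz)).2.1 i ((frequently_equiv L).1 hfreq))
    (by
      intro z hz hδz i hzi
      have hz0 : G' z = 0 := (hsub (hW z hz)).1.2 ⟨i, hzi⟩
      exact (eventually_equiv L).2 ((hsub (hW z hz)).2.2.1 i (hfd z hz hδz hz0) hzi))
    (by
      intro z hz hδz i j hzi hzj
      have hz0 : G' z = 0 := (hsub (hW z hz)).1.2 ⟨i, hzi⟩
      exact (hsub (hW z hz)).2.2.2.1 i j (hfd z hz hδz hz0) hzi hzj)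
    (by
      intro z hz i hzi
      have h1 := (hsub (hW z hz)).2.2.2.2 i hzi
      rw [← frequently_equiv L] at h1
      rw [← frequently_frequently_nhds]
      refine (h1.and_eventually (hopen.mem_nhds hz)).mono ?_
      rintro y ⟨⟨hy1, hy2⟩, hy3⟩
      rw [← eventually_equiv L] at hy2
      have hy0 : G' y = 0 := (hsub (hW y hy3)).1.2 ⟨i, hy1⟩
      have h2 := frequently_zero hfam hy3.1 (ball_subset_closedBall hy3.2) hy0
        (D := {x | δ x ≠ 0}) (hδ.frequently hy3.1)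
      refine (h2.and_eventually hy2).mono ?_
      rintro r ⟨⟨hr1, hr2⟩, hr3⟩
      exact ⟨hr3 hr1, hr2⟩)
  have h0mem : (0 : K × ℂ) ∈ ball (0 : K) ε ×ˢ ball (0 : ℂ) R :=
    ⟨mem_ball_self hε, mem_ball_self hR0⟩
  have hLt : Tendsto L (𝓝 (0 : E)) (𝓝 (0 : K × ℂ)) := by
    have := L.continuous.tendsto 0
    rwa [map_zero] at this
  have hnb : ∀ᶠ p in 𝓝 (0 : E), L p ∈ ball (0 : K) ε ×ˢ ball (0 : ℂ) R :=
    hLt.eventually (hopen.mem_nhds h0mem)
  refine ⟨fun i p => P i (L p), ?_, ?_, fun p => u (L p), ?_, ?_, ?_⟩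
  · intro i
    have h1 : AnalyticAt ℂ (P i) (L 0) := by
      rw [map_zero]; exact hPan i 0 ⟨h0mem.1, mem_univ _⟩
    exact AnalyticAt.fun_comp (f := L) h1 (L.toContinuousLinearMap.analyticAt 0)
  · intro i
    filter_upwards [hnb] with p hp
    rw [hPiff i (L p) hp]
    simp
  · have h1 : AnalyticAt ℂ u (L 0) := by
      rw [map_zero]; exact hu 0 h0mem
    exact AnalyticAt.fun_comp (f := L) h1 (L.toContinuousLinearMap.analyticAt 0)
  · change u (L 0) ≠ 0
    rw [map_zero]; exact hu0 0 h0mem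
  · filter_upwards [hnb] with p hp
    have := hfac (L p) hp
    simpa [hG'] using this

end Vale.Agent.P268
end
end

section

section

open Set Filter Metric Topology

namespace Vale.Agent.P268

section step

variable {X : Type*} [NormedAddCommGroup X] [NormedSpace ℂ X]

/-- Elimination of one variable. -/
theorem elim_step [FiniteDimensional ℂ X] (A : Submodule ℂ (X × ℂ → ℂ)) {r : ℝ} (hr : 0 < r)
    (hA : ∀ a ∈ A, AnalyticOnNhd ℂ a (ball 0 r)) {a₀ : X × ℂ → ℂ} (ha₀ : a₀ ∈ A)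
    (hline : analyticOrderAt (fun w : ℂ => a₀ (0, w)) 0 ≠ ⊤) {R₁ : ℝ} (hR₁ : 0 < R₁) :
    ∃ R, 0 < R ∧ R < R₁ ∧ ∃ ε, 0 < ε ∧ ε < R₁ ∧ ∃ B : Submodule ℂ (X → ℂ),
      (∀ b ∈ B, AnalyticOnNhd ℂ b (ball 0 ε)) ∧
      (∀ x ∈ ball (0 : X) ε, ∀ w ∈ ball (0 : ℂ) R, (∀ a ∈ A, a (x, w) = 0) → ∀ b ∈ B, b x = 0) ∧
      (∀ x ∈ ball (0 : X) ε, (∀ b ∈ B, b x = 0) → ∃ w ∈ ball (0 : ℂ) R, ∀ a ∈ A, a (x, w) = 0) := by
  classical
  have h0 : (0 : X × ℂ) ∈ ball (0 : X × ℂ) r := mem_ball_self hr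
  have hsmall : ∀ᶠ R in 𝓝[>] (0 : ℝ), R < R₁ := by
    filter_upwards [Ioo_mem_nhdsGT hR₁] with R hR using hR.2
  obtain ⟨R, ⟨hR0, ε', hε', ν, ρ, s, δ, hfam', -, hsub', -, -⟩, hRR₁⟩ :=
    ((exists_good (hA a₀ ha₀ 0 h0) hline (ball_mem_nhds (0 : X × ℂ) hr)).and hsmall).exists
  set ε := min ε' (R₁ / 2) with hε_def
  have hε : 0 < ε := lt_min hε' (by linarith)
  have hfam : RootFam a₀ (ball 0 ε) 0 R ν ρ :=
    hfam'.mono (ball_subset_ball (min_le_left _ _)) isOpen_ball
  have hsub : ball (0 : X) ε ×ˢ closedBall (0 : ℂ) R ⊆ ball 0 r :=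
    (Set.prod_mono (ball_subset_ball (min_le_left _ _)) le_rfl).trans hsub'
  refine ⟨R, hR0, hRR₁, ε, hε, (min_le_right _ _).trans_lt (by linarith),
    Submodule.span ℂ ((fun a : X × ℂ → ℂ => fun x => ∏ i, a (x, ρ x i)) '' (A : Set (X × ℂ → ℂ))),
    ?_, ?_, ?_⟩
  · intro b hb
    induction hb using Submodule.span_induction with
    | mem b hb =>
      obtain ⟨a, ha, rfl⟩ := hb
      intro x hx
      exact hfam.prod_an hx fun w hw => hA a ha _ (hsub ⟨hx, hw⟩)
    | zero => exact fun x _ => analyticAt_const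
    | add b b' _ _ hb hb' => exact hb.add hb'
    | smul t b _ hb => exact fun x hx => (hb x hx).const_smul
  · intro x hx w hw hall b hb
    have hroot : ∃ i, w = ρ x i :=
      (hfam.zero_iff hx (ball_subset_closedBall hw)).1 (hall a₀ ha₀)
    obtain ⟨i, hi⟩ := hroot
    induction hb using Submodule.span_induction with
    | mem b hb =>
      obtain ⟨a, ha, rfl⟩ := hb
      apply Finset.prod_eq_zero (Finset.mem_univ i)
      rw [← hi]; exact hall a ha
    | zero => rfl
    | add b b' _ _ hb hb' => rw [Pi.add_apply, hb, hb', add_zero]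
    | smul t b _ hb => rw [Pi.smul_apply, hb, smul_zero]
  · intro x hx hall
    by_contra hcon
    push Not at hcon
    have hex : ∀ i, ∃ a ∈ A, (LinearMap.proj (x, ρ x i) : (X × ℂ → ℂ) →ₗ[ℂ] ℂ) a ≠ 0 := by
      intro i
      obtain ⟨a, ha, hne⟩ := hcon (ρ x i) (hfam.mem x hx i)
      exact ⟨a, ha, hne⟩
    obtain ⟨a, ha, hne⟩ := Module.Dual.exists_forall_mem_ne_zero_of_forall_exists A _ hex
    have h1 := hall _ (Submodule.subset_span ⟨a, ha, rfl⟩)
    simp only at h1
    rw [Finset.prod_eq_zero_iff] at h1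
    obtain ⟨i, _, hi⟩ := h1
    exact hne i hi

end step

universe u v

variable {X : Type v} [NormedAddCommGroup X] [NormedSpace ℂ X] [FiniteDimensional ℂ X]

/-- Elimination of the variable `v` from a system of analytic equations `a (v, x) = 0` which has
only the solution `v = 0` for `x = 0`. -/
theorem elim (n : ℕ) : ∀ {V : Type u} [NormedAddCommGroup V] [NormedSpace ℂ V]
    [FiniteDimensional ℂ V], Module.finrank ℂ V = n → ∀ (A : Submodule ℂ (V × X → ℂ)) {r : ℝ},
    0 < r → (∀ a ∈ A, AnalyticOnNhd ℂ a (ball 0 r)) →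
    (∀ᶠ v in 𝓝 (0 : V), (∀ a ∈ A, a (v, 0) = 0) → v = 0) → ∀ {r₁ : ℝ}, 0 < r₁ →
    ∃ (B : Submodule ℂ (X → ℂ)) (ε : ℝ), 0 < ε ∧ (∀ b ∈ B, AnalyticOnNhd ℂ b (ball 0 ε)) ∧
      (∀ᶠ z in 𝓝 (0 : V × X), (∀ a ∈ A, a z = 0) → ∀ b ∈ B, b z.2 = 0) ∧
      (∀ x ∈ ball (0 : X) ε, (∀ b ∈ B, b x = 0) → ∃ v ∈ ball (0 : V) r₁, ∀ a ∈ A, a (v, x) = 0) := by
  induction n with
  | zero =>
    intro V _ _ _ hV A r hr hA h0 r₁ hr₁
    have hsub : Subsingleton V := Module.finrank_zero_iff.1 hV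
    refine ⟨Submodule.map (LinearMap.funLeft ℂ ℂ (fun x : X => ((0 : V), x))) A, r, hr, ?_, ?_, ?_⟩
    · rintro _ ⟨a, ha, rfl⟩ x hx
      have h1 : AnalyticAt ℂ a ((0 : V), x) := by
        apply hA a ha
        rw [mem_ball_zero_iff] at hx ⊢
        rw [Prod.norm_def]
        exact max_lt (by simpa using hr) hx
      have h2 : AnalyticAt ℂ (fun x : X => ((0 : V), x)) x := analyticAt_const.prod analyticAt_id
      exact AnalyticAt.fun_comp (f := fun x : X => ((0 : V), x)) h1 h2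
    · refine Eventually.of_forall ?_
      rintro z hz _ ⟨a, ha, rfl⟩
      have : ((0 : V), z.2) = z := Prod.ext (Subsingleton.elim _ _) rfl
      change a ((0 : V), z.2) = 0
      rw [this]; exact hz a ha
    · intro x hx hall
      refine ⟨0, mem_ball_self hr₁, fun a ha => ?_⟩
      exact hall _ ⟨a, ha, rfl⟩
  | succ n ih =>
    intro V _ _ _ hV A r hr hA h0 r₁ hr₁
    -- coordinates
    have hnt : Nontrivial V := Module.nontrivial_of_finrank_pos (R := ℂ) (by omega)
    obtain ⟨v₀, hv₀⟩ := exists_ne (0 : V)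
    obtain ⟨l, hl⟩ := SeparatingDual.exists_eq_one (R := ℂ) hv₀
    let f₂ : ℂ →L[ℂ] V := ContinuousLinearMap.toSpanSingleton ℂ v₀
    have hri : Function.RightInverse f₂ l := by
      intro t
      simp [f₂, hl]
    let L₀ := ContinuousLinearEquiv.equivOfRightInverse l f₂ hri
    let L : V ≃L[ℂ] l.ker × ℂ := L₀.trans (ContinuousLinearEquiv.prodComm ℂ ℂ l.ker)
    have hK : Module.finrank ℂ l.ker = n := by
      have h1 := L.toLinearEquiv.finrank_eq
      rw [hV, Module.finrank_prod, Module.finrank_self] at h1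
      omega
    set K := l.ker with hKdef
    let Φ : (K × X) × ℂ →L[ℂ] V × X :=
      ((L.symm : K × ℂ →L[ℂ] V).comp
        (((ContinuousLinearMap.fst ℂ K X).comp (ContinuousLinearMap.fst ℂ (K × X) ℂ)).prod
          (ContinuousLinearMap.snd ℂ (K × X) ℂ))).prod
      ((ContinuousLinearMap.snd ℂ K X).comp (ContinuousLinearMap.fst ℂ (K × X) ℂ))
    have hΦ : ∀ k x w, Φ ((k, x), w) = (L.symm (k, w), x) := fun k x w => rfl
    -- radii
    obtain ⟨r', hr', hball'⟩ : ∃ r' > 0, ∀ z ∈ ball (0 : (K × X) × ℂ) r', Φ z ∈ ball (0 : V × X) r := by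
      have h1 : Tendsto Φ (𝓝 0) (𝓝 (Φ 0)) := Φ.continuous.tendsto 0
      rw [map_zero] at h1
      obtain ⟨r', hr', h2⟩ := Metric.eventually_nhds_iff_ball.1 (h1.eventually (ball_mem_nhds 0 hr))
      exact ⟨r', hr', h2⟩
    obtain ⟨r₂, hr₂, hball₂⟩ : ∃ r₂ > 0, ∀ p ∈ ball (0 : K × ℂ) r₂,
        (((∀ a ∈ A, a (L.symm p, 0) = 0) → L.symm p = 0) ∧ L.symm p ∈ ball (0 : V) r₁) := by
      have h1 : Tendsto L.symm (𝓝 (0 : K × ℂ)) (𝓝 (L.symm 0)) := L.symm.continuous.tendsto 0
      rw [map_zero] at h1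
      obtain ⟨r₂, hr₂, h2⟩ := Metric.eventually_nhds_iff_ball.1
        (h1.eventually (h0.and (ball_mem_nhds (0 : V) hr₁)))
      exact ⟨r₂, hr₂, h2⟩
    let A₁ : Submodule ℂ ((K × X) × ℂ → ℂ) := Submodule.map (LinearMap.funLeft ℂ ℂ Φ) A
    have hA₁ : ∀ a ∈ A₁, AnalyticOnNhd ℂ a (ball 0 r') := by
      rintro _ ⟨a, ha, rfl⟩ z hz
      exact AnalyticAt.fun_comp (f := Φ) (hA a ha _ (hball' z hz)) (Φ.analyticAt z)
    -- a function not vanishing on the line
    have hex : ∃ a₀ ∈ A₁, analyticOrderAt (fun w : ℂ => a₀ (0, w)) 0 ≠ ⊤ := by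
      by_contra hcon
      push Not at hcon
      have hpt : ∀ r₃ : ℝ, 0 < r₃ → ∃ w : ℂ, w ≠ 0 ∧ ‖w‖ < r₃ := by
        intro r₃ hr₃
        refine ⟨((r₃ / 2 : ℝ) : ℂ), ?_, ?_⟩
        · have : (r₃ / 2 : ℝ) ≠ 0 := by positivity
          exact_mod_cast this
        · rw [Complex.norm_real, Real.norm_of_nonneg (by positivity)]
          linarith
      obtain ⟨w, hw0, hwr⟩ := hpt (min r' r₂) (lt_min hr' hr₂)
      have hwr' : ‖w‖ < r' := hwr.trans_le (min_le_left _ _)
      have hwr₂ : ‖w‖ < r₂ := hwr.trans_le (min_le_right _ _)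
      have hw2 : ((0 : K), w) ∈ ball (0 : K × ℂ) r₂ := by
        rw [mem_ball_zero_iff, Prod.norm_def]
        exact max_lt (by simpa using hr₂) hwr₂
      have hzero : L.symm ((0 : K), w) = 0 := by
        apply (hball₂ _ hw2).1
        intro a ha
        have htop := hcon _ (Submodule.mem_map_of_mem ha : (LinearMap.funLeft ℂ ℂ Φ) a ∈ A₁)
        rw [analyticOrderAt_eq_top] at htop
        have han : AnalyticOnNhd ℂ (fun w : ℂ => (LinearMap.funLeft ℂ ℂ Φ) a ((0 : K × X), w))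
            (ball (0 : ℂ) r') := by
          intro w' hw'
          apply analyticAt_partial
          apply hA₁ _ (Submodule.mem_map_of_mem ha)
          rw [mem_ball_zero_iff] at hw' ⊢
          rw [Prod.norm_def]
          exact max_lt (by simpa using hr') hw'
        have h1 := han.eqOn_zero_of_preconnected_of_eventuallyEq_zero
          (convex_ball (0 : ℂ) r').isPreconnected (mem_ball_self hr') htop
        exact h1 (mem_ball_zero_iff.2 hwr')
      have h2 := L.symm.injective (hzero.trans (map_zero L.symm).symm)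
      exact hw0 (congrArg Prod.snd h2)
    obtain ⟨a₀, ha₀, hord⟩ := hex
    obtain ⟨R, hR0, hRr₂, ε₁, hε₁, hε₁r₂, B₁, hB₁an, hB₁1, hB₁2⟩ :=
      elim_step A₁ hr' hA₁ ha₀ hord hr₂
    -- induction hypothesis
    have hpr₂ : ∀ k ∈ ball (0 : K) ε₁, ∀ w ∈ ball (0 : ℂ) R, (k, w) ∈ ball (0 : K × ℂ) r₂ := by
      intro k hk w hw
      rw [mem_ball_zero_iff] at hk hw ⊢
      rw [Prod.norm_def]
      exact max_lt (hk.trans hε₁r₂) (hw.trans hRr₂)
    obtain ⟨B, ε, hε, hBan, hB1, hB2⟩ := ih hK B₁ hε₁ hB₁an (by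
      filter_upwards [ball_mem_nhds (0 : K) hε₁] with k hk hall
      have hk' : (k, (0 : X)) ∈ ball (0 : K × X) ε₁ := by
        rw [mem_ball_zero_iff] at hk ⊢
        rw [Prod.norm_def]
        exact max_lt hk (by simpa using hε₁)
      obtain ⟨w, hw, hz⟩ := hB₁2 _ hk' hall
      have hv : L.symm (k, w) = 0 := by
        apply (hball₂ _ (hpr₂ k hk w hw)).1
        intro a ha
        exact hz _ (Submodule.mem_map_of_mem ha)
      have h2 := L.symm.injective (hv.trans (map_zero L.symm).symm)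
      exact congrArg Prod.fst h2) hε₁
    refine ⟨B, min ε ε₁, lt_min hε hε₁, ?_, ?_, ?_⟩
    · intro b hb
      exact (hBan b hb).mono (ball_subset_ball (min_le_left _ _))
    · -- forward
      have hc : Tendsto (fun z : V × X => (((L z.1).1, z.2) : K × X)) (𝓝 0) (𝓝 0) := by
        have h1 : Continuous (fun z : V × X => (((L z.1).1, z.2) : K × X)) := by fun_prop
        have h2 := h1.tendsto 0
        have h3 : (((L (0 : V × X).1).1, (0 : V × X).2) : K × X) = 0 := by simp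
        rwa [h3] at h2
      have hc2 : Tendsto (fun z : V × X => (L z.1).2) (𝓝 0) (𝓝 0) := by
        have h1 : Continuous (fun z : V × X => (L z.1).2) := by fun_prop
        have h2 := h1.tendsto 0
        simpa using h2
      filter_upwards [hc.eventually hB1, hc.eventually (ball_mem_nhds (0 : K × X) hε₁),
        hc2.eventually (ball_mem_nhds (0 : ℂ) hR0)] with z h1 h2 h3 hall b hb
      refine h1 (fun b₁ hb₁ => ?_) b hb
      apply hB₁1 _ h2 _ h3 _ b₁ hb₁
      rintro _ ⟨a, ha, rfl⟩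
      change a (Φ (((L z.1).1, z.2), (L z.1).2)) = 0
      rw [hΦ]
      have : ((L z.1).1, (L z.1).2) = L z.1 := rfl
      rw [this, L.symm_apply_apply]
      exact hall a ha
    · intro x hx hall
      obtain ⟨k, hk, hkz⟩ := hB2 x (ball_subset_ball (min_le_left _ _) hx) hall
      have hkx : (k, x) ∈ ball (0 : K × X) ε₁ := by
        have hx' := ball_subset_ball (min_le_right ε ε₁) hx
        rw [mem_ball_zero_iff] at hk hx' ⊢
        rw [Prod.norm_def]
        exact max_lt hk hx'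
      obtain ⟨w, hw, hz⟩ := hB₁2 _ hkx hkz
      refine ⟨L.symm (k, w), (hball₂ _ (hpr₂ k hk w hw)).2, fun a ha => ?_⟩
      exact hz _ (Submodule.mem_map_of_mem ha)

end Vale.Agent.P268
end
end

section

section

open Set Filter Metric Topology

namespace Vale.Agent.P268

/-- On an analytic germ `Z = {g_j = 0}` with `Z ∩ {h = 0} = {0}` every linear function is a root of
a Weierstrass equation over `h`. -/
theorem exists_equation {E : Type*} [NormedAddCommGroup E] [NormedSpace ℂ E]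
    [FiniteDimensional ℂ E] {J : Type*} [Finite J] {g : J → E → ℂ} {h : E → ℂ}
    (hg : ∀ j, AnalyticAt ℂ (g j) 0) (hh : AnalyticAt ℂ h 0) (hh0 : h 0 = 0)
    (hZ : ∀ᶠ z in 𝓝 (0 : E), (∀ j, g j z = 0) → h z = 0 → z = 0) (l : E →L[ℂ] ℂ) :
    ∃ P : ℂ × ℂ → ℂ, AnalyticAt ℂ P 0 ∧ analyticOrderAt (fun w : ℂ => P (0, w)) 0 ≠ ⊤ ∧
      ∀ᶠ z in 𝓝 (0 : E), (∀ j, g j z = 0) → P (h z, l z) = 0 := by
  have hev : ∀ᶠ z in 𝓝 (0 : E), (∀ j, AnalyticAt ℂ (g j) z) ∧ AnalyticAt ℂ h z :=
    (Filter.eventually_all.2 fun j => (hg j).eventually_analyticAt).and hh.eventually_analyticAt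
  obtain ⟨r, hr, hball⟩ := Metric.eventually_nhds_iff_ball.1 hev
  let G : J ⊕ Bool → (E × (ℂ × ℂ) → ℂ) := fun j => match j with
    | Sum.inl j => fun z => g j z.1
    | Sum.inr true => fun z => h z.1 - z.2.1
    | Sum.inr false => fun z => l z.1 - z.2.2
  let A : Submodule ℂ (E × (ℂ × ℂ) → ℂ) := Submodule.span ℂ (Set.range G)
  have hGan : ∀ j, AnalyticOnNhd ℂ (G j) (ball 0 r) := by
    intro j z hz
    have hz1 : z.1 ∈ ball (0 : E) r := by
      rw [mem_ball_zero_iff] at hz ⊢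
      exact (norm_fst_le z).trans_lt hz
    have e1 : AnalyticAt ℂ (fun z : E × (ℂ × ℂ) => z.1) z := analyticAt_fst
    have e2 : AnalyticAt ℂ (fun z : E × (ℂ × ℂ) => z.2) z := analyticAt_snd
    have e3 : AnalyticAt ℂ (fun z : E × (ℂ × ℂ) => z.2.1) z :=
      AnalyticAt.fun_comp (f := fun z : E × (ℂ × ℂ) => z.2) analyticAt_fst e2
    have e4 : AnalyticAt ℂ (fun z : E × (ℂ × ℂ) => z.2.2) z :=
      AnalyticAt.fun_comp (f := fun z : E × (ℂ × ℂ) => z.2) analyticAt_snd e2
    match j with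
    | Sum.inl j => exact AnalyticAt.fun_comp (f := Prod.fst) ((hball z.1 hz1).1 j) e1
    | Sum.inr true => exact (AnalyticAt.fun_comp (f := Prod.fst) ((hball z.1 hz1).2) e1).sub e3
    | Sum.inr false => exact (AnalyticAt.fun_comp (f := Prod.fst) (l.analyticAt _) e1).sub e4
  have hA : ∀ a ∈ A, AnalyticOnNhd ℂ a (ball 0 r) := by
    intro a ha
    induction ha using Submodule.span_induction with
    | mem b hb =>
      obtain ⟨j, rfl⟩ := hb
      exact hGan j
    | zero => exact fun x _ => analyticAt_const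
    | add b b' _ _ hb hb' => exact hb.add hb'
    | smul t b _ hb => exact fun x hx => (hb x hx).const_smul
  have hall : ∀ z, (∀ a ∈ A, a z = 0) ↔ (∀ j, g j z.1 = 0) ∧ h z.1 = z.2.1 ∧ l z.1 = z.2.2 := by
    intro z
    constructor
    · intro hz
      refine ⟨fun j => hz _ (Submodule.subset_span ⟨Sum.inl j, rfl⟩), ?_, ?_⟩
      · have := hz _ (Submodule.subset_span ⟨Sum.inr true, rfl⟩)
        exact sub_eq_zero.1 this
      · have := hz _ (Submodule.subset_span ⟨Sum.inr false, rfl⟩)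
        exact sub_eq_zero.1 this
    · rintro ⟨h1, h2, h3⟩ a ha
      induction ha using Submodule.span_induction with
      | mem b hb =>
        obtain ⟨j, rfl⟩ := hb
        match j with
        | Sum.inl j => exact h1 j
        | Sum.inr true => exact sub_eq_zero.2 h2
        | Sum.inr false => exact sub_eq_zero.2 h3
      | zero => rfl
      | add b b' _ _ hb hb' => rw [Pi.add_apply, hb, hb', add_zero]
      | smul t b _ hb => rw [Pi.smul_apply, hb, smul_zero]
  obtain ⟨r₁, hr₁, hball₁⟩ := Metric.eventually_nhds_iff_ball.1 hZ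
  obtain ⟨B, ε, hε, hBan, hB1, hB2⟩ := elim (Module.finrank ℂ E) rfl A hr hA (by
    filter_upwards [hZ] with v hv hav
    obtain ⟨h1, h2, -⟩ := (hall (v, 0)).1 hav
    exact hv h1 h2) hr₁
  have hex : ∃ b ∈ B, analyticOrderAt (fun w : ℂ => b (0, w)) 0 ≠ ⊤ := by
    by_contra hcon
    push Not at hcon
    have hw0 : ((ε / 2 : ℝ) : ℂ) ≠ 0 := by
      have : (ε / 2 : ℝ) ≠ 0 := by positivity
      exact_mod_cast this
    have hwr : ‖((ε / 2 : ℝ) : ℂ)‖ < ε := by
      rw [Complex.norm_real, Real.norm_of_nonneg (by positivity)]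
      linarith
    set w : ℂ := ((ε / 2 : ℝ) : ℂ)
    have hmem : ∀ w' : ℂ, ‖w'‖ < ε → ((0 : ℂ), w') ∈ ball (0 : ℂ × ℂ) ε := by
      intro w' hw'
      rw [mem_ball_zero_iff, Prod.norm_def]
      exact max_lt (by simpa using hε) hw'
    obtain ⟨v, hv, hav⟩ := hB2 (0, w) (hmem w hwr) (by
      intro b hb
      have htop := hcon b hb
      rw [analyticOrderAt_eq_top] at htop
      have han : AnalyticOnNhd ℂ (fun w : ℂ => b (0, w)) (ball (0 : ℂ) ε) := by
        intro w' hw'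
        exact analyticAt_partial (hBan b hb _ (hmem w' (mem_ball_zero_iff.1 hw')))
      have h1 := han.eqOn_zero_of_preconnected_of_eventuallyEq_zero
        (convex_ball (0 : ℂ) ε).isPreconnected (mem_ball_self hε) htop
      exact h1 (mem_ball_zero_iff.2 hwr))
    obtain ⟨h1, h2, h3⟩ := (hall _).1 hav
    have hv0 : v = 0 := hball₁ v hv h1 h2
    simp only [hv0, map_zero] at h3
    exact hw0 h3.symm
  obtain ⟨P, hPB, hP⟩ := hex
  refine ⟨P, hBan P hPB 0 (mem_ball_self hε), hP, ?_⟩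
  have hc : Tendsto (fun z : E => (z, (h z, l z))) (𝓝 0) (𝓝 (0 : E × (ℂ × ℂ))) := by
    have h1 : ContinuousAt (fun z : E => (z, (h z, l z))) 0 :=
      continuousAt_id.prodMk (hh.continuousAt.prodMk l.continuous.continuousAt)
    have h2 : ((0 : E), (h 0, l 0)) = (0 : E × (ℂ × ℂ)) := by rw [hh0, map_zero]; rfl
    rw [ContinuousAt, h2] at h1
    exact h1
  filter_upwards [hc.eventually hB1] with z hz hgz
  exact hz ((hall _).2 ⟨hgz, rfl, rfl⟩) P hPB

end Vale.Agent.P268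
end
end

section

section

open Set Filter Metric Topology

namespace Vale.Agent.P268

/-- local triviality of a finite multivalued function -/
def LocTriv (s : ℕ) (S : ℂ → Finset ℂ) (L₁ : ℂ) : Prop :=
  ∃ g : Fin s → ℂ → ℂ, (∀ k, AnalyticAt ℂ (g k) L₁) ∧
    ∀ᶠ L in 𝓝 L₁, Function.Injective (fun k => g k L) ∧ S L = Finset.univ.image (fun k => g k L)

theorem isCoveringMapOn_of_locTriv {s : ℕ} {H : Set ℂ} (hH : IsOpen H) {S : ℂ → Finset ℂ}
    (hloc : ∀ L ∈ H, LocTriv s S L) :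
    IsCoveringMapOn (fun p : {p : ℂ × ℂ // p.1 ∈ H ∧ p.2 ∈ S p.1} => p.1.1) H := by
  intro L₁ hL₁
  obtain ⟨g, hg, hev⟩ := hloc L₁ hL₁
  have hev2 : ∀ᶠ L in 𝓝 L₁, (Function.Injective (fun k => g k L) ∧
      S L = Finset.univ.image (fun k => g k L)) ∧ (∀ k, AnalyticAt ℂ (g k) L) ∧ L ∈ H :=
    hev.and ((Filter.eventually_all.2 fun k => (hg k).eventually_analyticAt).and (hH.mem_nhds hL₁))
  obtain ⟨ε, hε, hball⟩ := Metric.eventually_nhds_iff_ball.1 hev2
  set U := ball L₁ ε with hU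
  apply IsEvenlyCovered.to_isEvenlyCovered_preimage (I := Fin s)
  set π : {p : ℂ × ℂ // p.1 ∈ H ∧ p.2 ∈ S p.1} → ℂ := fun p => p.1.1 with hπ
  have hπc : Continuous π := continuous_fst.comp continuous_subtype_val
  refine ⟨inferInstance, U, mem_ball_self hε, isOpen_ball, isOpen_ball.preimage hπc, ?_⟩
  have hgc : ∀ k, Continuous (fun L : U => g k L) := by
    intro k
    rw [continuous_iff_continuousAt]
    intro L
    exact ContinuousAt.comp (g := g k) ((hball L L.2).2.1 k).continuousAt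
      continuous_subtype_val.continuousAt
  have hmem : ∀ (L : U) (k : Fin s), (L : ℂ) ∈ H ∧ g k L ∈ S L := by
    intro L k
    refine ⟨(hball L L.2).2.2, ?_⟩
    rw [(hball L L.2).1.2]
    exact Finset.mem_image_of_mem _ (Finset.mem_univ k)
  let B : U × Fin s → π ⁻¹' U := fun q => ⟨⟨((q.1 : ℂ), g q.2 q.1), hmem q.1 q.2⟩, q.1.2⟩
  have hBbij : Function.Bijective B := by
    constructor
    · rintro ⟨L, k⟩ ⟨L', k'⟩ h
      have h1 : ((L : ℂ), g k L) = ((L' : ℂ), g k' L') := congrArg (fun x => x.1.1) h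
      have h2 : L = L' := Subtype.ext (congrArg Prod.fst h1)
      subst h2
      have h3 : g k L = g k' L := congrArg Prod.snd h1
      exact Prod.ext rfl ((hball L L.2).1.1 h3)
    · rintro ⟨⟨⟨L, w⟩, hL, hw⟩, hLU⟩
      have hLU' : L ∈ U := hLU
      have hw' : w ∈ S L := hw
      rw [(hball L hLU').1.2] at hw'
      obtain ⟨k, _, hk⟩ := Finset.mem_image.1 hw'
      refine ⟨(⟨L, hLU'⟩, k), ?_⟩
      apply Subtype.ext
      apply Subtype.ext
      exact Prod.ext rfl hk
  let e : U × Fin s ≃ π ⁻¹' U := Equiv.ofBijective B hBbij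
  have hfst : ∀ p : π ⁻¹' U, ((e.symm p).1 : ℂ) = p.1.1.1 := by
    intro p
    have : B (e.symm p) = p := e.apply_symm_apply p
    exact congrArg (fun x => x.1.1.1) this
  have hsnd : ∀ p : π ⁻¹' U, g (e.symm p).2 (e.symm p).1 = p.1.1.2 := by
    intro p
    have : B (e.symm p) = p := e.apply_symm_apply p
    exact congrArg (fun x => x.1.1.2) this
  have hcfst : Continuous (fun p : π ⁻¹' U => (e.symm p).1) := by
    rw [Topology.IsInducing.subtypeVal.continuous_iff]
    have : (Subtype.val ∘ fun p : π ⁻¹' U => (e.symm p).1) = fun p => p.1.1.1 := by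
      ext p; exact hfst p
    rw [this]
    exact continuous_fst.comp (continuous_subtype_val.comp continuous_subtype_val)
  have hcsnd : Continuous (fun p : π ⁻¹' U => (e.symm p).2) := by
    rw [continuous_discrete_rng]
    intro k
    have hset : (fun p : π ⁻¹' U => (e.symm p).2) ⁻¹' {k} =
        (⋃ j ∈ ({k}ᶜ : Set (Fin s)), {p : π ⁻¹' U | g j (e.symm p).1 = p.1.1.2})ᶜ := by
      ext p
      simp only [mem_preimage, mem_singleton_iff, mem_compl_iff, mem_iUnion, not_exists]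
      constructor
      · rintro rfl j hj hgj
        have h1 : g j (e.symm p).1 = p.1.1.2 := hgj
        rw [← hsnd p] at h1
        exact hj ((hball _ (e.symm p).1.2).1.1 h1)
      · intro h
        by_contra hne
        exact h (e.symm p).2 hne (hsnd p)
    rw [hset, isOpen_compl_iff]
    apply Set.Finite.isClosed_biUnion (Set.toFinite _)
    intro j _
    apply isClosed_eq
    · exact (hgc j).comp hcfst
    · exact continuous_snd.comp (continuous_subtype_val.comp continuous_subtype_val)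
  have hBc : Continuous B := by
    apply Continuous.subtype_mk
    apply Continuous.subtype_mk
    apply Continuous.prodMk
    · exact continuous_subtype_val.comp continuous_fst
    · rw [continuous_iff_continuousAt]
      rintro ⟨L, k⟩
      have h1 : Continuous (fun q : U × Fin s => g k q.1) := (hgc k).comp continuous_fst
      refine h1.continuousAt.congr ?_
      have h2 : ∀ᶠ q : U × Fin s in 𝓝 (L, k), q.2 = k := by
        have : ContinuousAt (fun q : U × Fin s => q.2) (L, k) := continuousAt_snd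
        exact this.eventually (show ∀ᶠ j in 𝓝 k, j = k from by
          rw [nhds_discrete]; exact eventually_pure.2 rfl)
      filter_upwards [h2] with q hq
      rw [hq]
  let Hm : π ⁻¹' U ≃ₜ U × Fin s :=
    { toEquiv := e.symm
      continuous_toFun := hcfst.prodMk hcsnd
      continuous_invFun := hBc }
  exact ⟨Hm, fun p => hfst p⟩

theorem eventually_eq_of_locTriv {s : ℕ} {S : ℂ → Finset ℂ} {L₁ : ℂ} {g : Fin s → ℂ → ℂ}
    (hg : ∀ k, AnalyticAt ℂ (g k) L₁)
    (hev : ∀ᶠ L in 𝓝 L₁, Function.Injective (fun k => g k L) ∧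
      S L = Finset.univ.image (fun k => g k L)) {a : ℂ → ℂ} (ha : ContinuousAt a L₁)
    (har : ∀ᶠ L in 𝓝 L₁, a L ∈ S L) : ∃ k, ∀ᶠ L in 𝓝 L₁, a L = g k L := by
  have hmem : ∀ᶠ x in 𝓝 L₁, ∃ k, g k x = a x := by
    filter_upwards [hev, har] with x hx1 hx2
    rw [hx1.2] at hx2
    obtain ⟨k, _, hk⟩ := Finset.mem_image.1 hx2
    exact ⟨k, hk⟩
  obtain ⟨k, hk⟩ := hmem.self_of_nhds
  refine ⟨k, ?_⟩
  have hne : ∀ᶠ x in 𝓝 L₁, ∀ j, j ≠ k → g j x ≠ a x := by
    rw [Filter.eventually_all]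
    intro j
    by_cases hjk : j = k
    · exact Eventually.of_forall fun _ h => absurd hjk h
    · have hc : ContinuousAt (fun x => g j x - a x) L₁ := (hg j).continuousAt.sub ha
      have h0 : g j L₁ - a L₁ ≠ 0 := by
        rw [← hk]
        exact sub_ne_zero.2 fun h => hjk (hev.self_of_nhds.1 h)
      filter_upwards [hc.eventually_ne h0] with x hx _
      exact sub_ne_zero.1 hx
  filter_upwards [hmem, hne] with x hx1 hx2
  obtain ⟨j, hj⟩ := hx1
  by_cases hjk : j = k
  · rw [← hj, hjk]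
  · exact absurd hj (hx2 j hjk)

theorem exists_section {s : ℕ} {H : Set ℂ} (hH : IsOpen H) (hHc : Convex ℝ H) {S : ℂ → Finset ℂ}
    (hloc : ∀ L ∈ H, LocTriv s S L) {L₀ : ℂ} (hL₀ : L₀ ∈ H) {w₀ : ℂ} (hw₀ : w₀ ∈ S L₀) :
    ∃ η : ℂ → ℂ, AnalyticOnNhd ℂ η H ∧ (∀ L ∈ H, η L ∈ S L) ∧ η L₀ = w₀ := by
  classical
  have hcov := isCoveringMapOn_of_locTriv hH hloc
  have hsc : SimplyConnectedSpace H := isSimplyConnected_of_convex hHc ⟨L₀, hL₀⟩
  have hlpc : LocallyPathConnectedSpace H := hH.locallyPathConnectedSpace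
  obtain ⟨F, ⟨hF0, hF⟩, -⟩ := hcov.existsUnique_continuousMap_lifts
    (⟨Subtype.val, continuous_subtype_val⟩ : C(H, ℂ)) (a₀ := ⟨L₀, hL₀⟩)
    (e₀ := ⟨(L₀, w₀), hL₀, hw₀⟩) rfl (fun a => a.2)
  have hF1 : ∀ L : H, (F L).1.1 = L := fun L => congrFun hF L
  let η : ℂ → ℂ := fun L => if h : L ∈ H then (F ⟨L, h⟩).1.2 else 0
  have hη : ∀ L : H, η L = (F L).1.2 := by
    intro L
    simp only [η, dif_pos L.2]
  have hηS : ∀ L ∈ H, η L ∈ S L := by
    intro L hL
    have h1 := (F ⟨L, hL⟩).2.2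
    rw [hF1 ⟨L, hL⟩] at h1
    rw [hη ⟨L, hL⟩]
    exact h1
  have hηc : ContinuousOn η H := by
    rw [continuousOn_iff_continuous_domRestrict]
    have : H.domRestrict η = fun L => (F L).1.2 := by
      ext L; exact hη L
    rw [this]
    exact continuous_snd.comp (continuous_subtype_val.comp F.continuous)
  refine ⟨η, ?_, hηS, ?_⟩
  · intro L hL
    obtain ⟨g, hg, hev⟩ := hloc L hL
    obtain ⟨k, hk⟩ := eventually_eq_of_locTriv hg hev (hηc.continuousAt (hH.mem_nhds hL)) (by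
      filter_upwards [hH.mem_nhds hL] with L' hL' using hηS L' hL')
    exact (hg k).congr (hk.mono fun x hx => hx.symm)
  · rw [hη ⟨L₀, hL₀⟩, hF0]

/-- Global root functions over a convex domain. -/
theorem exists_sections {s : ℕ} {H : Set ℂ} (hH : IsOpen H) (hHc : Convex ℝ H)
    {S : ℂ → Finset ℂ} (hloc : ∀ L ∈ H, LocTriv s S L) (hne : H.Nonempty) :
    ∃ η : Fin s → ℂ → ℂ, (∀ k, AnalyticOnNhd ℂ (η k) H) ∧
      ∀ L ∈ H, Function.Injective (fun k => η k L) ∧ S L = Finset.univ.image (fun k => η k L) := by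
  classical
  obtain ⟨L₀, hL₀⟩ := hne
  obtain ⟨g₀, hg₀, hev₀⟩ := hloc L₀ hL₀
  obtain ⟨hinj₀, himg₀⟩ := hev₀.self_of_nhds
  have hsec : ∀ k : Fin s, ∃ η : ℂ → ℂ, AnalyticOnNhd ℂ η H ∧ (∀ L ∈ H, η L ∈ S L) ∧
      η L₀ = g₀ k L₀ := by
    intro k
    apply exists_section hH hHc hloc hL₀
    rw [himg₀]
    exact Finset.mem_image_of_mem _ (Finset.mem_univ k)
  choose η hηan hηS hη0 using hsec
  have hinj : ∀ L ∈ H, Function.Injective (fun k => η k L) := by
    intro L hL i j hij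
    simp only at hij
    obtain ⟨g, hg, hev⟩ := hloc L hL
    have hS : ∀ k, ∀ᶠ L' in 𝓝 L, η k L' ∈ S L' := fun k => by
      filter_upwards [hH.mem_nhds hL] with L' hL' using hηS k L' hL'
    obtain ⟨a, ha⟩ := eventually_eq_of_locTriv hg hev (hηan i L hL).continuousAt (hS i)
    obtain ⟨b, hb⟩ := eventually_eq_of_locTriv hg hev (hηan j L hL).continuousAt (hS j)
    have hab : a = b := by
      apply hev.self_of_nhds.1
      simp only
      rw [← ha.self_of_nhds, ← hb.self_of_nhds, hij]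
    subst hab
    have heq : η i =ᶠ[𝓝 L] η j := by
      filter_upwards [ha, hb] with x h1 h2
      rw [h1, h2]
    have := (hηan i).eqOn_of_preconnected_of_eventuallyEq (hηan j) hHc.isPreconnected hL heq
    have h0 := this hL₀
    rw [hη0, hη0] at h0
    exact hinj₀ h0
  refine ⟨η, hηan, fun L hL => ⟨hinj L hL, ?_⟩⟩
  symm
  apply Finset.eq_of_subset_of_card_le
  · intro w hw
    obtain ⟨k, _, rfl⟩ := Finset.mem_image.1 hw
    exact hηS k L hL
  · obtain ⟨g, hg, hev⟩ := hloc L hL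
    rw [hev.self_of_nhds.2, Finset.card_image_of_injective _ hev.self_of_nhds.1,
      Finset.card_image_of_injective _ (hinj L hL)]

end Vale.Agent.P268
end
end

section

section

open Set Filter Metric Topology

namespace Vale.Agent.P268

theorem roots_small {X : Type*} [NormedAddCommGroup X] [NormedSpace ℂ X] {f : X × ℂ → ℂ}
    {Ω : Set X} {R : ℝ} {ν : ℕ} {ρ : X → Fin ν → ℂ} (h : RootFam f Ω 0 R ν ρ) {x₀ : X}
    (hx₀ : x₀ ∈ Ω) (h0 : ∀ w ∈ closedBall (0 : ℂ) R, f (x₀, w) = 0 → w = 0) {ε : ℝ} (hε : 0 < ε) :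
    ∀ᶠ x in 𝓝 x₀, ∀ i, ‖ρ x i‖ < ε := by
  have hK : IsCompact (closedBall (0 : ℂ) R ∩ {w | ε ≤ ‖w‖}) :=
    (isCompact_closedBall _ _).inter_right (isClosed_le continuous_const continuous_norm)
  have h1 : ∀ᶠ x in 𝓝 x₀, ∀ w ∈ closedBall (0 : ℂ) R ∩ {w | ε ≤ ‖w‖}, f (x, w) ≠ 0 := by
    apply hK.eventually_forall_of_forall_eventually
    rintro w ⟨hw1, hw2⟩
    apply (h.an (x₀, w) ⟨hx₀, hw1⟩).continuousAt.eventually_ne
    intro h2
    have := h0 w hw1 h2
    rw [this] at hw2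
    have h3 : ε ≤ ‖(0 : ℂ)‖ := hw2
    rw [norm_zero] at h3
    linarith
  filter_upwards [h1, h.isOpen.mem_nhds hx₀] with x hx hxΩ i
  by_contra hcon
  push Not at hcon
  have hm : ρ x i ∈ closedBall (0 : ℂ) R := ball_subset_closedBall (h.mem x hxΩ i)
  exact hx (ρ x i) ⟨hm, hcon⟩ ((h.zero_iff hxΩ hm).2 ⟨i, rfl⟩)

/-- Root functions on a half-plane for a Weierstrass equation over a punctured disc. -/
theorem exists_branches {P : ℂ × ℂ → ℂ} (hP : AnalyticAt ℂ P 0)
    (hord : analyticOrderAt (fun w : ℂ => P (0, w)) 0 ≠ ⊤) :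
    ∃ (c : ℝ) (s : ℕ) (η : Fin s → ℂ → ℂ), (∀ k, AnalyticOnNhd ℂ (η k) {L : ℂ | L.re < c}) ∧
      (∀ L : ℂ, L.re < c → Function.Injective (fun k => η k L)) ∧
      (∃ R > 0, ∀ L : ℂ, L.re < c → ∀ w, ‖w‖ < R → P (Complex.exp L, w) = 0 → ∃ k, w = η k L) ∧
      (∀ ε > 0, ∃ c' : ℝ, ∀ L : ℂ, L.re < c → L.re < c' → ∀ k, ‖η k L‖ < ε) := by
  classical
  obtain ⟨R, hR0, ε, hε, ν, ρ, s, δ, hfam, hδ, -, hz, -⟩ := (exists_good hP hord univ_mem).exists
  have h0 : (0 : ℂ) ∈ ball (0 : ℂ) ε := mem_ball_self hε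
  have hiso : ∀ᶠ τ in 𝓝 (0 : ℂ), τ ≠ 0 → δ τ ≠ 0 := by
    rcases (hδ.an 0 h0).eventually_eq_zero_or_eventually_ne_zero with h | h
    · exact absurd h (hδ.ne 0 h0)
    · rwa [eventually_nhdsWithin_iff] at h
  obtain ⟨ε₁, hε₁, hball⟩ := Metric.eventually_nhds_iff_ball.1
    (hiso.and (ball_mem_nhds (0 : ℂ) hε))
  set H : Set ℂ := {L : ℂ | L.re < Real.log ε₁} with hH
  have hHo : IsOpen H := isOpen_lt Complex.continuous_re continuous_const
  have hHc : Convex ℝ H := convex_halfSpace_re_lt _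
  have hHn : H.Nonempty := ⟨((Real.log ε₁ - 1 : ℝ) : ℂ), by
    change (((Real.log ε₁ - 1 : ℝ) : ℂ)).re < Real.log ε₁
    rw [Complex.ofReal_re]; linarith⟩
  have hexp : ∀ L ∈ H, Complex.exp L ∈ ball (0 : ℂ) ε₁ := by
    intro L hL
    rw [mem_ball_zero_iff, Complex.norm_exp]
    calc Real.exp L.re < Real.exp (Real.log ε₁) := Real.exp_lt_exp.2 hL
      _ = ε₁ := Real.exp_log hε₁
  have hexpε : ∀ L ∈ H, Complex.exp L ∈ ball (0 : ℂ) ε := fun L hL => (hball _ (hexp L hL)).2
  let S : ℂ → Finset ℂ := fun L => Finset.univ.image (ρ (Complex.exp L))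
  have hloc : ∀ L ∈ H, LocTriv s S L := by
    intro L hL
    have hne : δ (Complex.exp L) ≠ 0 := (hball _ (hexp L hL)).1 (Complex.exp_ne_zero L)
    obtain ⟨g, m, hm, hg, hev⟩ := hδ.local_roots hfam (hexpε L hL) hne
    have hexpan : AnalyticAt ℂ Complex.exp L := analyticAt_cexp
    refine ⟨fun k L => g k (Complex.exp L), fun k => ?_, ?_⟩
    · exact AnalyticAt.fun_comp (f := Complex.exp) (hg k) hexpan
    · filter_upwards [hexpan.continuousAt.eventually hev] with L' hL'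
      refine ⟨hL'.2.1, ?_⟩
      simp only [S]
      convert hL'.2.2.1
  obtain ⟨η, hη, hηS⟩ := exists_sections hHo hHc hloc hHn
  refine ⟨Real.log ε₁, s, η, hη, fun L hL => (hηS L hL).1, ⟨R, hR0, ?_⟩, ?_⟩
  · intro L hL w hw hPw
    have hwc : w ∈ closedBall (0 : ℂ) R := by
      rw [mem_closedBall_zero_iff]; exact hw.le
    have h1 : w ∈ S L := by
      have := (hfam.mem_image_iff (hexpε L hL)).2 ⟨hwc, hPw⟩
      simp only [S]
      convert this
    rw [(hηS L hL).2] at h1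
    obtain ⟨k, _, hk⟩ := Finset.mem_image.1 h1
    exact ⟨k, hk.symm⟩
  · intro e he
    have h1 := roots_small hfam h0 hz he
    obtain ⟨ε₂, hε₂, hball₂⟩ := Metric.eventually_nhds_iff_ball.1 h1
    refine ⟨Real.log ε₂, fun L hL hL2 k => ?_⟩
    have hexp2 : Complex.exp L ∈ ball (0 : ℂ) ε₂ := by
      rw [mem_ball_zero_iff, Complex.norm_exp]
      calc Real.exp L.re < Real.exp (Real.log ε₂) := Real.exp_lt_exp.2 hL2
        _ = ε₂ := Real.exp_log hε₂
    have h2 : η k L ∈ S L := by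
      rw [(hηS L hL).2]
      exact Finset.mem_image_of_mem _ (Finset.mem_univ k)
    have h3 : η k L ∈ Finset.univ.image (ρ (Complex.exp L)) := h2
    obtain ⟨i, _, hi⟩ := Finset.mem_image.1 h3
    rw [← hi]
    exact hball₂ _ hexp2 i

end Vale.Agent.P268
end
end

section

section

open Set Filter Metric Topology

namespace Vale.Agent.P268

/-- A continuous function on a connected set which is pointwise one of finitely many pairwise
distinct continuous functions is one of them. -/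
theorem const_index {X : Type*} [TopologicalSpace X] {H : Set X} (hH : IsPreconnected H) {s : ℕ}
    {u : X → ℂ} {v : Fin s → X → ℂ} (hne : H.Nonempty) (hu : ContinuousOn u H)
    (hv : ∀ k, ContinuousOn (v k) H) (hinj : ∀ x ∈ H, Function.Injective (fun k => v k x))
    (hex : ∀ x ∈ H, ∃ k, u x = v k x) : ∃ k, ∀ x ∈ H, u x = v k x := by
  classical
  have : PreconnectedSpace H := Subtype.preconnectedSpace hH
  obtain ⟨x₀, hx₀⟩ := hne
  obtain ⟨k, hk⟩ := hex x₀ hx₀
  refine ⟨k, ?_⟩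
  have huc : Continuous (fun x : H => u x) := continuousOn_iff_continuous_domRestrict.1 hu
  have hvc : ∀ k, Continuous (fun x : H => v k x) := fun k =>
    continuousOn_iff_continuous_domRestrict.1 (hv k)
  have hcl : ∀ j, IsClosed {x : H | u x = v j x} := fun j => isClosed_eq huc (hvc j)
  have hop : IsOpen {x : H | u x = v k x} := by
    have hset : {x : H | u x = v k x} = (⋃ j ∈ ({k}ᶜ : Set (Fin s)), {x : H | u x = v j x})ᶜ := by
      ext x
      simp only [mem_compl_iff, mem_iUnion, not_exists]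
      constructor
      · intro h1 j hj h2
        have h3 : v j x = v k x := h2.symm.trans h1
        exact hj (hinj x x.2 h3)
      · intro h
        obtain ⟨j, hj⟩ := hex x x.2
        by_cases hjk : j = k
        · rw [hjk] at hj; exact hj
        · exact absurd hj (h j hjk)
    rw [hset, isOpen_compl_iff]
    exact Set.Finite.isClosed_biUnion (Set.toFinite _) fun j _ => hcl j
  have huniv : {x : H | u x = v k x} = univ :=
    IsClopen.eq_univ ⟨hcl k, hop⟩ ⟨⟨x₀, hx₀⟩, hk⟩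
  intro x hx
  have : (⟨x, hx⟩ : H) ∈ {x : H | u x = v k x} := by rw [huniv]; exact mem_univ _
  exact this

variable {E : Type*} [NormedAddCommGroup E] [NormedSpace ℂ E]

/-- Parametrization by a half-plane. -/
theorem curve_aux [FiniteDimensional ℂ E] {J : Type*} [Finite J]
    {g : J → E → ℂ} {h : E → ℂ} (hg : ∀ j, AnalyticAt ℂ (g j) 0) (hh : AnalyticAt ℂ h 0)
    (hh0 : h 0 = 0) (hZ : ∀ᶠ z in 𝓝 (0 : E), (∀ j, g j z = 0) → h z = 0 → z = 0) {ψ : ℂ → E}
    (hψ0 : ψ 0 = 0) (hψ : ∀ᶠ t in 𝓝 (0 : ℂ), ContinuousAt ψ t)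
    (hψZ : ∀ᶠ t in 𝓝 (0 : ℂ), ∀ j, g j (ψ t) = 0)
    (hψne : ∀ᶠ t in 𝓝 (0 : ℂ), t ≠ 0 → ψ t ≠ 0) {r₀ : ℝ} (hr₀ : 0 < r₀) :
    ∃ (r c : ℝ) (n : ℤ) (w : ℂ → ℂ) (Y : ℂ → E), 0 < r ∧ r < r₀ ∧
      ContinuousOn w {t : ℂ | t ≠ 0 ∧ ‖t‖ < r} ∧
      (∀ t : ℂ, t ≠ 0 → ‖t‖ < r → h (ψ t) = t ^ n * Complex.exp (w t)) ∧
      (∀ s : ℂ, s.re < Real.log r → (n * s + w (Complex.exp s)).re < c) ∧
      AnalyticOnNhd ℂ Y {L : ℂ | L.re < c} ∧ (∀ L : ℂ, L.re < c → ‖Y L‖ < r₀) ∧
      (∀ ε > 0, ∃ c' : ℝ, ∀ L : ℂ, L.re < c → L.re < c' → ‖Y L‖ < ε) ∧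
      (∀ s : ℂ, s.re < Real.log r → ψ (Complex.exp s) = Y (n * s + w (Complex.exp s))) := by
  classical
  -- coordinates
  set N := Module.finrank ℂ E with hN
  let e : E ≃L[ℂ] (Fin N → ℂ) := (Module.finBasis ℂ E).equivFunL
  let l : Fin N → E →L[ℂ] ℂ := fun a => (ContinuousLinearMap.proj a).comp (e : E →L[ℂ] (Fin N → ℂ))
  have hle : ∀ a z, l a z = e z a := fun a z => rfl
  choose P hPan hPord hPZ using fun a => exists_equation hg hh hh0 hZ (l a)
  choose c s η hηan hηinj hηroot hηsmall using fun a => exists_branches (hPan a) (hPord a)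
  choose R hR hηroot using hηroot
  -- smallness of coordinates
  obtain ⟨ε₀, hε₀, hball₀⟩ : ∃ ε₀ > 0, ∀ v : Fin N → ℂ, (∀ a, ‖v a‖ < ε₀) → ‖e.symm v‖ < r₀ := by
    have h1 : Tendsto e.symm (𝓝 (0 : Fin N → ℂ)) (𝓝 (e.symm 0)) := e.symm.continuous.tendsto 0
    rw [map_zero] at h1
    obtain ⟨ε₀, hε₀, h2⟩ := Metric.eventually_nhds_iff_ball.1
      (h1.eventually (ball_mem_nhds (0 : E) hr₀))
    refine ⟨ε₀, hε₀, fun v hv => ?_⟩
    rw [← mem_ball_zero_iff]
    apply h2
    rw [mem_ball_zero_iff, pi_norm_lt_iff hε₀]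
    exact hv
  choose c₀ hc₀ using fun a => hηsmall a ε₀ hε₀
  -- common half-plane
  obtain ⟨cc, hcc⟩ : ∃ cc : ℝ, ∀ a, cc ≤ c a ∧ cc ≤ c₀ a := by
    have h1 : ∀ᶠ x in Filter.atBot, ∀ a, x ≤ c a ∧ x ≤ c₀ a :=
      Filter.eventually_all.2 fun a => (eventually_le_atBot (c a)).and (eventually_le_atBot (c₀ a))
    exact h1.exists
  -- facts near `0` in `E`
  have hEfacts : ∀ᶠ z in 𝓝 (0 : E), (∀ a, (∀ j, g j z = 0) → P a (h z, l a z) = 0) ∧
      (∀ a, ‖l a z‖ < R a) ∧ ContinuousAt h z ∧ ((∀ j, g j z = 0) → h z = 0 → z = 0) ∧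
      ‖h z‖ < Real.exp cc := by
    refine (Filter.eventually_all.2 hPZ).and ((Filter.eventually_all.2 fun a => ?_).and
      ((hh.eventually_analyticAt.mono fun z hz => hz.continuousAt).and (hZ.and ?_)))
    · have : ContinuousAt (fun z => ‖l a z‖) 0 := by fun_prop
      exact this.eventually_lt continuousAt_const (by simpa using hR a)
    · exact hh.continuousAt.norm.eventually_lt continuousAt_const (by
        rw [hh0, norm_zero]; exact Real.exp_pos _)
  have hψt : Tendsto ψ (𝓝 0) (𝓝 0) := by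
    have := hψ.self_of_nhds.tendsto
    rwa [hψ0] at this
  have hTfacts : ∀ᶠ t in 𝓝 (0 : ℂ), ((∀ a, (∀ j, g j (ψ t) = 0) → P a (h (ψ t), l a (ψ t)) = 0) ∧
      (∀ a, ‖l a (ψ t)‖ < R a) ∧ ContinuousAt h (ψ t) ∧
      ((∀ j, g j (ψ t) = 0) → h (ψ t) = 0 → ψ t = 0) ∧ ‖h (ψ t)‖ < Real.exp cc) ∧
      ContinuousAt ψ t ∧ (∀ j, g j (ψ t) = 0) ∧ (t ≠ 0 → ψ t ≠ 0) :=
    (hψt.eventually hEfacts).and (hψ.and (hψZ.and hψne))
  obtain ⟨r', hr', hball⟩ := Metric.eventually_nhds_iff_ball.1 hTfacts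
  set r := min r' (r₀ / 2) with hr_def
  have hr : 0 < r := lt_min hr' (by linarith)
  have hT : ∀ t : ℂ, ‖t‖ < r → ((∀ a, (∀ j, g j (ψ t) = 0) → P a (h (ψ t), l a (ψ t)) = 0) ∧
      (∀ a, ‖l a (ψ t)‖ < R a) ∧ ContinuousAt h (ψ t) ∧
      ((∀ j, g j (ψ t) = 0) → h (ψ t) = 0 → ψ t = 0) ∧ ‖h (ψ t)‖ < Real.exp cc) ∧
      ContinuousAt ψ t ∧ (∀ j, g j (ψ t) = 0) ∧ (t ≠ 0 → ψ t ≠ 0) := fun t ht =>
    hball t (by rw [mem_ball_zero_iff]; exact ht.trans_le (min_le_left _ _))
  -- the logarithm of `h ∘ ψ`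
  obtain ⟨n, ψ', hψ'c, hψ'⟩ := product_log (K := ℝ) hr (B := univ) isOpen_univ convex_univ
    univ_nonempty (u := fun x : ℂ × ℝ => h (ψ x.1)) (by
      rintro ⟨t, x⟩ ⟨⟨ht0, htr⟩, -⟩
      have h1 := hT t htr
      apply ContinuousAt.continuousWithinAt
      exact ContinuousAt.comp (f := fun x : ℂ × ℝ => x.1) (g := fun t => h (ψ t))
        (ContinuousAt.comp h1.1.2.2.1 h1.2.1) continuousAt_fst) (by
      rintro ⟨t, x⟩ ⟨⟨ht0, htr⟩, -⟩ h0
      have h1 := hT t htr
      exact h1.2.2.2 ht0 (h1.1.2.2.2.1 h1.2.2.1 h0))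
  let w : ℂ → ℂ := fun t => ψ' (t, 0)
  have hwc : ContinuousOn w {t : ℂ | t ≠ 0 ∧ ‖t‖ < r} :=
    hψ'c.comp (f := fun t : ℂ => (t, (0 : ℝ))) (by fun_prop) fun t ht => ⟨ht, mem_univ _⟩
  have hw : ∀ t : ℂ, t ≠ 0 → ‖t‖ < r → h (ψ t) = t ^ n * Complex.exp (w t) := fun t ht0 htr =>
    hψ' (t, 0) ⟨⟨ht0, htr⟩, mem_univ _⟩
  set Hs : Set ℂ := {s : ℂ | s.re < Real.log r} with hHs
  have hHsc : Convex ℝ Hs := convex_halfSpace_re_lt _
  have hHsn : Hs.Nonempty := ⟨((Real.log r - 1 : ℝ) : ℂ), by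
    change (((Real.log r - 1 : ℝ) : ℂ)).re < Real.log r
    rw [Complex.ofReal_re]; linarith⟩
  have hexp : ∀ s ∈ Hs, ‖Complex.exp s‖ < r := by
    intro s hs
    rw [Complex.norm_exp]
    calc Real.exp s.re < Real.exp (Real.log r) := Real.exp_lt_exp.2 hs
      _ = r := Real.exp_log hr
  let Ψ : ℂ → ℂ := fun s => n * s + w (Complex.exp s)
  have hΨc : ContinuousOn Ψ Hs := by
    apply ContinuousOn.add (by fun_prop)
    exact hwc.comp Complex.continuous_exp.continuousOn fun s hs =>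
      ⟨Complex.exp_ne_zero s, hexp s hs⟩
  have hΨexp : ∀ s ∈ Hs, Complex.exp (Ψ s) = h (ψ (Complex.exp s)) := by
    intro s hs
    rw [hw _ (Complex.exp_ne_zero s) (hexp s hs), ← Complex.exp_int_mul, ← Complex.exp_add]
  have hΨre : ∀ s ∈ Hs, (Ψ s).re < cc := by
    intro s hs
    have h1 := (hT _ (hexp s hs)).1.2.2.2.2
    rw [← hΨexp s hs, Complex.norm_exp] at h1
    exact Real.exp_lt_exp.1 h1
  -- choice of the branch
  have hk : ∀ a, ∃ k, ∀ s ∈ Hs, l a (ψ (Complex.exp s)) = η a k (Ψ s) := by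
    intro a
    have hmaps : ∀ s ∈ Hs, Ψ s ∈ {L : ℂ | L.re < c a} := fun s hs =>
      (hΨre s hs).trans_le (hcc a).1
    apply const_index (v := fun k s => η a k (Ψ s)) hHsc.isPreconnected hHsn
    · intro s hs
      have h1 := (hT _ (hexp s hs)).2.1
      apply ContinuousAt.continuousWithinAt
      exact (l a).continuous.continuousAt.comp
        (ContinuousAt.comp (g := ψ) h1 Complex.continuous_exp.continuousAt)
    · intro k
      exact (hηan a k).continuousOn.comp hΨc hmaps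
    · intro s hs
      exact hηinj a (Ψ s) (hmaps s hs)
    · intro s hs
      obtain ⟨h1, h2, h3, h4⟩ := hT _ (hexp s hs)
      apply hηroot a (Ψ s) (hmaps s hs) _ (h1.2.1 a)
      rw [hΨexp s hs]
      exact h1.1 a h3
  choose k hk using hk
  let Y : ℂ → E := fun L => e.symm (fun a => η a (k a) L)
  have hYan : AnalyticOnNhd ℂ Y {L : ℂ | L.re < cc} := by
    intro L hL
    have h1 : AnalyticAt ℂ (fun L : ℂ => (fun a => η a (k a) L : Fin N → ℂ)) L := by
      rw [analyticAt_pi_iff]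
      intro a
      exact hηan a (k a) L (lt_of_lt_of_le hL (hcc a).1)
    exact AnalyticAt.fun_comp (f := fun L : ℂ => (fun a => η a (k a) L : Fin N → ℂ))
      ((e.symm : (Fin N → ℂ) →L[ℂ] E).analyticAt _) h1
  refine ⟨r, cc, n, w, Y, hr, (min_le_right _ _).trans_lt (by linarith), hwc, hw, hΨre, hYan,
    ?_, ?_, ?_⟩
  · intro L hL
    apply hball₀
    intro a
    exact hc₀ a L (hL.trans_le (hcc a).1) (hL.trans_le (hcc a).2) (k a)
  · intro ε hε
    obtain ⟨ε₁, hε₁, hball₁⟩ : ∃ ε₁ > 0, ∀ v : Fin N → ℂ, (∀ a, ‖v a‖ < ε₁) → ‖e.symm v‖ < ε := by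
      have h1 : Tendsto e.symm (𝓝 (0 : Fin N → ℂ)) (𝓝 (e.symm 0)) := e.symm.continuous.tendsto 0
      rw [map_zero] at h1
      obtain ⟨ε₀, hε₀, h2⟩ := Metric.eventually_nhds_iff_ball.1
        (h1.eventually (ball_mem_nhds (0 : E) hε))
      refine ⟨ε₀, hε₀, fun v hv => ?_⟩
      rw [← mem_ball_zero_iff]
      apply h2
      rw [mem_ball_zero_iff, pi_norm_lt_iff hε₀]
      exact hv
    choose c₁ hc₁ using fun a => hηsmall a ε₁ hε₁
    obtain ⟨c', hc'⟩ : ∃ c' : ℝ, ∀ a, c' ≤ c₁ a :=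
      (Filter.eventually_all.2 fun a => eventually_le_atBot (c₁ a)).exists
    refine ⟨c', fun L hL hL' => hball₁ _ fun a => ?_⟩
    exact hc₁ a L (hL.trans_le (hcc a).1) (hL'.trans_le (hc' a)) (k a)
  · intro s hs
    have : e (ψ (Complex.exp s)) = fun a => η a (k a) (Ψ s) := by
      ext a
      exact hk a s hs
    change ψ (Complex.exp s) = e.symm (fun a => η a (k a) (Ψ s))
    rw [← this, e.symm_apply_apply]

end Vale.Agent.P268
end
end

section

section

/-!
On a one-dimensional analytic germ the function which cuts out the origin is locally injective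
outside the origin.
-/

open Set Filter Metric Topology

namespace Vale.Agent.P268

variable {E : Type*} [NormedAddCommGroup E] [NormedSpace ℂ E]

theorem curve_loc_inj [FiniteDimensional ℂ E] {J : Type*} [Finite J]
    {g : J → E → ℂ} {h : E → ℂ} (hg : ∀ j, AnalyticAt ℂ (g j) 0) (hh : AnalyticAt ℂ h 0)
    (hh0 : h 0 = 0) (hZ : ∀ᶠ z in 𝓝 (0 : E), (∀ j, g j z = 0) → h z = 0 → z = 0) :
    ∀ᶠ z in 𝓝 (0 : E), (∀ j, g j z = 0) → z ≠ 0 → ∃ W ∈ 𝓝 z, ∀ z₁ ∈ W, ∀ z₂ ∈ W,
      (∀ j, g j z₁ = 0) → (∀ j, g j z₂ = 0) → h z₁ = h z₂ → z₁ = z₂ := by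
  classical
  set N := Module.finrank ℂ E with hN
  let e : E ≃L[ℂ] (Fin N → ℂ) := (Module.finBasis ℂ E).equivFunL
  let l : Fin N → E →L[ℂ] ℂ := fun a => (ContinuousLinearMap.proj a).comp (e : E →L[ℂ] (Fin N → ℂ))
  choose P hPan hPord hPZ using fun a => exists_equation hg hh hh0 hZ (l a)
  choose c s η hηan hηinj hηroot hηsmall using fun a => exists_branches (hPan a) (hPord a)
  choose R hR hηroot using hηroot
  obtain ⟨cc, hcc⟩ : ∃ cc : ℝ, ∀ a, cc ≤ c a := by
    have h1 : ∀ᶠ x in Filter.atBot, ∀ a, x ≤ c a :=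
      Filter.eventually_all.2 fun a => eventually_le_atBot (c a)
    exact h1.exists
  have hEfacts : ∀ᶠ z in 𝓝 (0 : E), (∀ a, (∀ j, g j z = 0) → P a (h z, l a z) = 0) ∧
      (∀ a, ‖l a z‖ < R a) ∧ ContinuousAt h z ∧ ((∀ j, g j z = 0) → h z = 0 → z = 0) ∧
      ‖h z‖ < Real.exp cc := by
    refine (Filter.eventually_all.2 hPZ).and ((Filter.eventually_all.2 fun a => ?_).and
      ((hh.eventually_analyticAt.mono fun z hz => hz.continuousAt).and (hZ.and ?_)))
    · have : ContinuousAt (fun z => ‖l a z‖) 0 := by fun_prop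
      exact this.eventually_lt continuousAt_const (by simpa using hR a)
    · exact hh.continuousAt.norm.eventually_lt continuousAt_const (by
        rw [hh0, norm_zero]; exact Real.exp_pos _)
  filter_upwards [eventually_eventually_nhds.2 hEfacts] with z₀ hz₀ hgz₀ hne
  obtain ⟨a1, a2, a3, a4, a5⟩ := hz₀.self_of_nhds
  have hh₀ : h z₀ ≠ 0 := fun h0 => hne (a4 hgz₀ h0)
  -- local logarithm of `h`
  set L₀ : ℂ := Complex.log (h z₀) with hL₀
  let L : E → ℂ := fun z => L₀ + Complex.log (h z / h z₀)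
  have hLz₀ : L z₀ = L₀ := by simp [L, div_self hh₀]
  have hLc : ContinuousAt L z₀ := by
    apply continuousAt_const.add
    apply ContinuousAt.clog
    · exact a3.div_const _
    · rw [div_self hh₀]; exact Complex.one_mem_slitPlane
  have hLexp : ∀ᶠ z in 𝓝 z₀, Complex.exp (L z) = h z := by
    filter_upwards [a3.eventually_ne hh₀] with z hz
    simp only [L, Complex.exp_add, hL₀]
    rw [Complex.exp_log hh₀, Complex.exp_log (div_ne_zero hz hh₀), mul_div_cancel₀ _ hh₀]
  have hLre : ∀ z, Complex.exp (L z) = h z → ‖h z‖ < Real.exp cc → (L z).re < cc := by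
    intro z h1 h2
    rw [← h1, Complex.norm_exp] at h2
    exact Real.exp_lt_exp.1 h2
  have hre₀ : (L z₀).re < cc := hLre z₀ hLexp.self_of_nhds a5
  -- the root near `z₀` for every coordinate
  have hkey : ∀ a, ∃ k, ∀ᶠ z in 𝓝 z₀, (∀ j, g j z = 0) → l a z = η a k (L z) := by
    intro a
    have hroot : ∀ᶠ z in 𝓝 z₀, (∀ j, g j z = 0) → ∃ k, l a z = η a k (L z) := by
      filter_upwards [hz₀, hLexp] with z hz1 hz2 hz3
      obtain ⟨b1, b2, b3, b4, b5⟩ := hz1
      apply hηroot a (L z) ((hLre z hz2 b5).trans_le (hcc a)) _ (b2 a)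
      rw [hz2]; exact b1 a hz3
    obtain ⟨k, hk⟩ := hroot.self_of_nhds hgz₀
    refine ⟨k, ?_⟩
    have hother : ∀ k', k' ≠ k → ∀ᶠ z in 𝓝 z₀, l a z ≠ η a k' (L z) := by
      intro k' hk'
      have h1 : ContinuousAt (fun z => l a z - η a k' (L z)) z₀ := by
        apply (l a).continuous.continuousAt.sub
        have h2 : ContinuousAt (η a k') (L z₀) :=
          (hηan a k' (L z₀) (hre₀.trans_le (hcc a))).continuousAt
        exact ContinuousAt.comp (g := η a k') h2 hLc
      have h3 : l a z₀ - η a k' (L z₀) ≠ 0 := by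
        rw [hk, sub_ne_zero]
        intro h4
        exact hk' (hηinj a (L z₀) (hre₀.trans_le (hcc a)) h4).symm
      filter_upwards [h1.eventually_ne h3] with z hz h5
      exact hz (sub_eq_zero.2 h5)
    have hall : ∀ᶠ z in 𝓝 z₀, ∀ k', k' ≠ k → l a z ≠ η a k' (L z) := by
      rw [Filter.eventually_all]
      intro k'
      by_cases h : k' = k
      · exact Eventually.of_forall fun z h' => absurd h h'
      · filter_upwards [hother k' h] with z hz _ using hz
    filter_upwards [hroot, hall] with z h1 h2 h3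
    obtain ⟨k', hk'⟩ := h1 h3
    by_cases h : k' = k
    · rw [← h]; exact hk'
    · exact absurd hk' (h2 k' h)
  choose k hk using hkey
  refine ⟨{z | ∀ a, (∀ j, g j z = 0) → l a z = η a (k a) (L z)}, Filter.eventually_all.2 hk, ?_⟩
  intro z₁ hz₁ z₂ hz₂ hg₁ hg₂ h12
  have hL12 : L z₁ = L z₂ := by simp only [L, h12]
  apply e.injective
  ext a
  have e1 : l a z₁ = e z₁ a := rfl
  have e2 : l a z₂ = e z₂ a := rfl
  rw [← e1, ← e2, hz₁ a hg₁, hz₂ a hg₂, hL12]

/-- A smooth curve inside a one-dimensional germ is relatively open outside the origin. -/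
theorem curve_open [FiniteDimensional ℂ E] {J : Type*} [Finite J]
    {g : J → E → ℂ} {h : E → ℂ} (hg : ∀ j, AnalyticAt ℂ (g j) 0) (hh : AnalyticAt ℂ h 0)
    (hh0 : h 0 = 0) (hZ : ∀ᶠ z in 𝓝 (0 : E), (∀ j, g j z = 0) → h z = 0 → z = 0)
    {γ : ℂ → E} (hγ : AnalyticAt ℂ γ 0) (hγ0 : γ 0 = 0)
    (hγne : ∀ᶠ t in 𝓝 (0 : ℂ), t ≠ 0 → γ t ≠ 0)
    (hγZ : ∀ᶠ t in 𝓝 (0 : ℂ), ∀ j, g j (γ t) = 0) {r : ℝ} (hr : 0 < r) :
    ∀ᶠ t in 𝓝 (0 : ℂ), t ≠ 0 → ∀ᶠ z in 𝓝 (γ t), (∀ j, g j z = 0) → z ∈ γ '' ball (0 : ℂ) r := by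
  have hγt : Tendsto γ (𝓝 0) (𝓝 0) := by
    have := hγ.continuousAt.tendsto
    rwa [hγ0] at this
  have hhγ : AnalyticAt ℂ (fun t => h (γ t)) 0 :=
    AnalyticAt.fun_comp (g := h) (f := γ) (by rw [hγ0]; exact hh) hγ
  have hne : ∀ᶠ t in 𝓝 (0 : ℂ), t ≠ 0 → h (γ t) ≠ 0 := by
    filter_upwards [hγne, hγZ, hγt.eventually hZ] with t h1 h2 h3 h4 h5
    exact h1 h4 (h3 h2 h5)
  obtain ⟨ρ, hρ, hball⟩ := Metric.eventually_nhds_iff_ball.1
    (hne.and (hhγ.eventually_analyticAt.and (hγ.eventually_analyticAt.and (hγZ.and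
      ((hγt.eventually (curve_loc_inj hg hh hh0 hZ)).and
      ((hγt.eventually hh.eventually_analyticAt).and (hγne.and (ball_mem_nhds (0:ℂ) hr))))))))
  filter_upwards [ball_mem_nhds (0 : ℂ) hρ] with t ht ht0
  obtain ⟨a1, a2, a3, a4, a5, a6, a7, a8⟩ := hball t ht
  obtain ⟨W, hW, hinj⟩ := a5 a4 (a7 ht0)
  -- `h ∘ γ` is not locally constant at `t`
  have hnc : ¬ ∀ᶠ z in 𝓝 t, h (γ z) = h (γ t) := by
    intro hcon
    have hb : AnalyticOnNhd ℂ (fun t => h (γ t)) (ball (0 : ℂ) ρ) := fun z hz => (hball z hz).2.1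
    have h1 := hb.eqOn_of_preconnected_of_eventuallyEq (g := fun _ => h (γ t))
      (fun _ _ => analyticAt_const) (convex_ball (0 : ℂ) ρ).isPreconnected ht hcon
    have h2 := h1 (mem_ball_self hρ)
    simp only [hγ0, hh0] at h2
    exact a1 ht0 h2.symm
  have hopen := (a2.eventually_constant_or_nhds_le_map_nhds).resolve_left hnc
  have hset : {t' : ℂ | γ t' ∈ W ∧ t' ∈ ball (0 : ℂ) ρ ∧ t' ∈ ball (0 : ℂ) r} ∈ 𝓝 t := by
    have h1 : ∀ᶠ t' in 𝓝 t, γ t' ∈ W := a3.continuousAt.eventually hW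
    have h2 : ∀ᶠ t' in 𝓝 t, t' ∈ ball (0 : ℂ) ρ := isOpen_ball.mem_nhds ht
    have h3 : ∀ᶠ t' in 𝓝 t, t' ∈ ball (0 : ℂ) r := isOpen_ball.mem_nhds a8
    exact h1.and (h2.and h3)
  have himg : (fun t => h (γ t)) '' {t' : ℂ | γ t' ∈ W ∧ t' ∈ ball (0 : ℂ) ρ ∧ t' ∈ ball (0 : ℂ) r} ∈
      𝓝 (h (γ t)) := hopen (image_mem_map hset)
  filter_upwards [a6.continuousAt.eventually himg, hW] with z hz1 hzW hz2
  obtain ⟨t', ⟨b1, b2, b3⟩, b4⟩ := hz1
  have h5 : γ t' = z := hinj (γ t') b1 z hzW (hball t' b2).2.2.2.1 hz2 b4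
  exact ⟨t', b3, h5⟩

end Vale.Agent.P268
end
end

section

section

open Set Filter Metric Topology

namespace Vale.Agent.P268

/-- Identity principle for analytic functions on a half-plane along a nonconstant map. -/
theorem ident_of_map {F : Type*} [NormedAddCommGroup F] [NormedSpace ℂ F]
    {c : ℝ} {A : ℂ → F} (hA : AnalyticOnNhd ℂ A {L : ℂ | L.re < c}) {Ψ : ℂ → ℂ} {s₀ : ℂ}
    (hΨ : ContinuousAt Ψ s₀) (hc : (Ψ s₀).re < c) (hne : ∀ᶠ s in 𝓝[≠] s₀, Ψ s ≠ Ψ s₀)
    (h0 : ∀ᶠ s in 𝓝 s₀, A (Ψ s) = 0) : ∀ L : ℂ, L.re < c → A L = 0 := by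
  have hHc : Convex ℝ {L : ℂ | L.re < c} := convex_halfSpace_re_lt _
  have ht : Tendsto Ψ (𝓝[≠] s₀) (𝓝[≠] (Ψ s₀)) := by
    apply tendsto_nhdsWithin_of_tendsto_nhds_of_eventually_within
    · exact hΨ.tendsto.mono_left nhdsWithin_le_nhds
    · exact hne
  have hfreq : ∃ᶠ L in 𝓝[≠] (Ψ s₀), A L = 0 := by
    apply ht.frequently
    exact (h0.filter_mono nhdsWithin_le_nhds).frequently
  intro L hL
  exact hA.eqOn_zero_of_preconnected_of_frequently_eq_zero hHc.isPreconnected hc hfreq hL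

theorem eventually_exp_ne (s₀ : ℂ) : ∀ᶠ s in 𝓝[≠] s₀, Complex.exp s ≠ Complex.exp s₀ :=
  (Complex.hasDerivAt_exp s₀).eventually_ne (Complex.exp_ne_zero s₀)

variable {E : Type*} [NormedAddCommGroup E] [NormedSpace ℂ E]

/-- Puiseux parametrization of a branch of an analytic curve germ which is the homeomorphic image
of a disc. -/
theorem curve_param [FiniteDimensional ℂ E] {J : Type*} [Finite J]
    {g : J → E → ℂ} {h : E → ℂ} (hg : ∀ j, AnalyticAt ℂ (g j) 0) (hh : AnalyticAt ℂ h 0)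
    (hh0 : h 0 = 0) (hZ : ∀ᶠ z in 𝓝 (0 : E), (∀ j, g j z = 0) → h z = 0 → z = 0)
    {C : Set E} {ψ : ℂ → E} {θ : E → ℂ}
    (hψ0 : ψ 0 = 0) (hψ : ∀ᶠ t in 𝓝 (0 : ℂ), ContinuousAt ψ t)
    (hθ : ∀ᶠ z in 𝓝 (0 : E), ContinuousAt θ z)
    (hθψ : ∀ᶠ t in 𝓝 (0 : ℂ), θ (ψ t) = t)
    (hψC : ∀ᶠ t in 𝓝 (0 : ℂ), ψ t ∈ C)
    (hCψ : ∀ᶠ z in 𝓝 (0 : E), z ∈ C → ψ (θ z) = z)
    (hCZ : ∀ᶠ z in 𝓝 (0 : E), z ∈ C → ∀ j, g j z = 0)
    (hCo : ∀ᶠ z in 𝓝 (0 : E), z ∈ C → z ≠ 0 → ∀ᶠ z' in 𝓝 z, (∀ j, g j z' = 0) → z' ∈ C) :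
    ∃ (k : ℕ) (σ : ℤ) (y : ℂ → E) (κ : ℂ → ℂ), 1 ≤ k ∧ (σ = 1 ∨ σ = -1) ∧
      AnalyticAt ℂ y 0 ∧ y 0 = 0 ∧ (∀ᶠ s in 𝓝 (0 : ℂ), h (y s) = s ^ k) ∧
      (∀ᶠ s in 𝓝 (0 : ℂ), ∀ j, g j (y s) = 0) ∧ (∀ᶠ t in 𝓝 (0 : ℂ), ContinuousAt κ t) ∧
      κ 0 = 0 ∧ HasIdx (fun t : ℂ => t) κ 0 σ ∧ ∀ᶠ t in 𝓝 (0 : ℂ), ψ t = y (κ t) := by
  classical
  have : CompleteSpace E := FiniteDimensional.complete ℂ E
  have hψt : Tendsto ψ (𝓝 0) (𝓝 0) := by
    have := hψ.self_of_nhds.tendsto
    rwa [hψ0] at this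
  have hθ0 : θ 0 = 0 := by
    have := hθψ.self_of_nhds
    rwa [hψ0] at this
  have hθt : Tendsto θ (𝓝 0) (𝓝 0) := by
    have := hθ.self_of_nhds.tendsto
    rwa [hθ0] at this
  have hψne : ∀ᶠ t in 𝓝 (0 : ℂ), t ≠ 0 → ψ t ≠ 0 := by
    filter_upwards [hθψ] with t ht ht0 h0
    rw [h0, hθ0] at ht
    exact ht0 ht.symm
  have hψZ : ∀ᶠ t in 𝓝 (0 : ℂ), ∀ j, g j (ψ t) = 0 := by
    filter_upwards [hψt.eventually hCZ, hψC] with t h1 h2 using h1 h2
  -- good radius
  have hEfacts : ∀ᶠ z in 𝓝 (0 : E), ((∀ j, AnalyticAt ℂ (g j) z) ∧ AnalyticAt ℂ h z ∧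
      ContinuousAt θ z ∧ (z ∈ C → ψ (θ z) = z) ∧
      (z ∈ C → z ≠ 0 → ∀ᶠ z' in 𝓝 z, (∀ j, g j z' = 0) → z' ∈ C)) ∧
      (ContinuousAt ψ (θ z) ∧ ψ (θ z) ∈ C) :=
    ((Filter.eventually_all.2 fun j => (hg j).eventually_analyticAt).and
      (hh.eventually_analyticAt.and (hθ.and (hCψ.and hCo)))).and
      ((hθt.eventually hψ).and (hθt.eventually hψC))
  have hTfacts : ∀ᶠ t in 𝓝 (0 : ℂ), θ (ψ t) = t ∧ (∀ j, g j (ψ t) = 0) ∧ ContinuousAt ψ t ∧
      ψ t ∈ C := hθψ.and (hψZ.and (hψ.and hψC))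
  obtain ⟨rE, hrE, hballE⟩ := Metric.eventually_nhds_iff_ball.1 hEfacts
  obtain ⟨rT, hrT, hballT⟩ := Metric.eventually_nhds_iff_ball.1 hTfacts
  obtain ⟨r, c, n, w, Y, hr, hrr₀, hwc, hw, hΨre, hYan, hYr, hYsmall, hψY⟩ :=
    curve_aux hg hh hh0 hZ hψ0 hψ hψZ hψne (r₀ := min rE rT) (lt_min hrE hrT)
  have hrT' : r < rT := hrr₀.trans_le (min_le_right _ _)
  have hYE : ∀ L : ℂ, L.re < c → Y L ∈ ball (0 : E) rE := fun L hL => by
    rw [mem_ball_zero_iff]; exact (hYr L hL).trans_le (min_le_left _ _)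
  have hTr : ∀ t : ℂ, ‖t‖ < r → t ∈ ball (0 : ℂ) rT := fun t ht => by
    rw [mem_ball_zero_iff]; exact ht.trans hrT'
  set Hs : Set ℂ := {s : ℂ | s.re < Real.log r} with hHs
  have hHso : IsOpen Hs := isOpen_lt Complex.continuous_re continuous_const
  set Hc : Set ℂ := {L : ℂ | L.re < c} with hHc_def
  have hHco : IsOpen Hc := isOpen_lt Complex.continuous_re continuous_const
  have hHcc : Convex ℝ Hc := convex_halfSpace_re_lt _
  have hexp : ∀ s ∈ Hs, ‖Complex.exp s‖ < r := by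
    intro s hs
    rw [Complex.norm_exp]
    calc Real.exp s.re < Real.exp (Real.log r) := Real.exp_lt_exp.2 hs
      _ = r := Real.exp_log hr
  have hDo : IsOpen {t : ℂ | t ≠ 0 ∧ ‖t‖ < r} :=
    isOpen_ne.inter (isOpen_lt continuous_norm continuous_const)
  let Ψ : ℂ → ℂ := fun s => n * s + w (Complex.exp s)
  have hΨc : ContinuousOn Ψ Hs := by
    apply ContinuousOn.add (by fun_prop)
    exact hwc.comp Complex.continuous_exp.continuousOn fun s hs =>
      ⟨Complex.exp_ne_zero s, hexp s hs⟩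
  have hΨexp : ∀ s ∈ Hs, Complex.exp (Ψ s) = h (ψ (Complex.exp s)) := by
    intro s hs
    rw [hw _ (Complex.exp_ne_zero s) (hexp s hs), ← Complex.exp_int_mul, ← Complex.exp_add]
  have hψY' : ∀ s ∈ Hs, ψ (Complex.exp s) = Y (Ψ s) := hψY
  -- base point
  have hs₀ : ((Real.log r - 1 : ℝ) : ℂ) ∈ Hs := by
    change (((Real.log r - 1 : ℝ) : ℂ)).re < Real.log r
    rw [Complex.ofReal_re]; linarith
  set s₀ : ℂ := ((Real.log r - 1 : ℝ) : ℂ) with hs₀_def
  have hΨs₀ : ContinuousAt Ψ s₀ := hΨc.continuousAt (hHso.mem_nhds hs₀)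
  have hΨne : ∀ᶠ s in 𝓝[≠] s₀, Ψ s ≠ Ψ s₀ := by
    have h1' : ∀ᶠ s in 𝓝 s₀, s ∈ Hs := hHso.mem_nhds hs₀
    have h1 : ∀ᶠ s in 𝓝[≠] s₀, s ∈ Hs := h1'.filter_mono nhdsWithin_le_nhds
    filter_upwards [eventually_exp_ne s₀, h1] with s hs1 hs2 h3
    apply hs1
    have h4 : ψ (Complex.exp s) = ψ (Complex.exp s₀) := by
      rw [hψY' s hs2, hψY' s₀ hs₀, h3]
    have h5 := congrArg θ h4
    rwa [(hballT _ (hTr _ (hexp s hs2))).1, (hballT _ (hTr _ (hexp s₀ hs₀))).1] at h5
  -- identities on the half-plane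
  have hhY : ∀ L : ℂ, L.re < c → h (Y L) = Complex.exp L := by
    intro L hL
    have := ident_of_map (A := fun L => h (Y L) - Complex.exp L) (c := c) (Ψ := Ψ) (s₀ := s₀) (by
      intro L hL
      apply AnalyticAt.sub _ analyticAt_cexp
      exact AnalyticAt.fun_comp (f := Y) (hballE _ (hYE L hL)).1.2.1 (hYan L hL))
      hΨs₀ (hΨre s₀ hs₀) hΨne (by
        filter_upwards [hHso.mem_nhds hs₀] with s hs
        rw [← hψY' s hs, hΨexp s hs, sub_self]) L hL
    exact sub_eq_zero.1 this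
  have hgY : ∀ j, ∀ L : ℂ, L.re < c → g j (Y L) = 0 := by
    intro j L hL
    exact ident_of_map (A := fun L => g j (Y L)) (c := c) (Ψ := Ψ) (s₀ := s₀) (by
      intro L hL
      exact AnalyticAt.fun_comp (f := Y) ((hballE _ (hYE L hL)).1.1 j) (hYan L hL))
      hΨs₀ (hΨre s₀ hs₀) hΨne (by
        filter_upwards [hHso.mem_nhds hs₀] with s hs
        rw [← hψY' s hs]
        exact (hballT _ (hTr _ (hexp s hs))).2.1 j) L hL
  have hYne : ∀ L : ℂ, L.re < c → Y L ≠ 0 := by
    intro L hL h0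
    have := hhY L hL
    rw [h0, hh0] at this
    exact Complex.exp_ne_zero L this.symm
  have hre2 : ∀ (L : ℂ) (a : ℤ), (L + a * (2 * Real.pi * Complex.I)).re = L.re := by
    intro L a
    simp
  have hYper : ∀ L : ℂ, L.re < c → Y (L + n * (2 * Real.pi * Complex.I)) = Y L := by
    intro L hL
    have := ident_of_map (A := fun L => Y (L + n * (2 * Real.pi * Complex.I)) - Y L)
      (c := c) (Ψ := Ψ) (s₀ := s₀) (by
      intro L hL
      apply AnalyticAt.sub _ (hYan L hL)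
      have h1 : L + n * (2 * Real.pi * Complex.I) ∈ Hc := by
        change (L + n * (2 * Real.pi * Complex.I)).re < c
        rw [hre2]; exact hL
      exact AnalyticAt.fun_comp (f := fun L : ℂ => L + n * (2 * Real.pi * Complex.I)) (hYan _ h1)
        (by fun_prop))
      hΨs₀ (hΨre s₀ hs₀) hΨne (by
        filter_upwards [hHso.mem_nhds hs₀] with s hs
        have h1 : s + 2 * Real.pi * Complex.I ∈ Hs := by
          change (s + 2 * Real.pi * Complex.I).re < Real.log r
          have : (s + 2 * Real.pi * Complex.I).re = s.re := by simp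
          rw [this]; exact hs
        have h2 : Ψ (s + 2 * Real.pi * Complex.I) = Ψ s + n * (2 * Real.pi * Complex.I) := by
          simp only [Ψ, Complex.exp_add, Complex.exp_two_pi_mul_I, mul_one]
          ring
        rw [← h2, ← hψY' _ h1, ← hψY' s hs, Complex.exp_add, Complex.exp_two_pi_mul_I, mul_one,
          sub_self]) L hL
    exact sub_eq_zero.1 this
  -- the winding number is nonzero
  have hn : n ≠ 0 := by
    intro hn0
    -- `Y` stays in `C`
    have hpre : PreconnectedSpace Hc := Subtype.preconnectedSpace hHcc.isPreconnected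
    have hCiff : ∀ L ∈ Hc, (Y L ∈ C ↔ ψ (θ (Y L)) = Y L) := by
      intro L hL
      have h1 := hballE _ (hYE L hL)
      constructor
      · exact h1.1.2.2.2.1
      · intro h2
        rw [← h2]; exact h1.2.2
    have hclosed : IsClosed {L : Hc | Y L ∈ C} := by
      have hset : {L : Hc | Y L ∈ C} = {L : Hc | ψ (θ (Y L)) = Y L} := by
        ext L; exact hCiff L L.2
      rw [hset]
      have hYc : Continuous (fun L : Hc => Y L) :=
        continuousOn_iff_continuous_domRestrict.1 hYan.continuousOn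
      refine isClosed_eq ?_ hYc
      rw [continuous_iff_continuousAt]
      intro L
      have h1 := hballE _ (hYE L L.2)
      exact ContinuousAt.comp (g := ψ) h1.2.1
        (ContinuousAt.comp (g := θ) h1.1.2.2.1 hYc.continuousAt)
    have hopen : IsOpen {L : Hc | Y L ∈ C} := by
      rw [isOpen_iff_mem_nhds]
      intro L hL
      have h1 := hballE _ (hYE L L.2)
      have h2 := h1.1.2.2.2.2 hL (hYne L L.2)
      have hYc : Continuous (fun L : Hc => Y L) :=
        continuousOn_iff_continuous_domRestrict.1 hYan.continuousOn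
      filter_upwards [hYc.continuousAt.eventually h2] with L' hL'
      exact hL' fun j => hgY j L' L'.2
    have huniv : {L : Hc | Y L ∈ C} = univ := by
      apply IsClopen.eq_univ ⟨hclosed, hopen⟩
      refine ⟨⟨Ψ s₀, hΨre s₀ hs₀⟩, ?_⟩
      change Y (Ψ s₀) ∈ C
      rw [← hψY' s₀ hs₀]
      exact (hballT _ (hTr _ (hexp s₀ hs₀))).2.2.2
    have hYC : ∀ L ∈ Hc, Y L ∈ C := by
      intro L hL
      have : (⟨L, hL⟩ : Hc) ∈ {L : Hc | Y L ∈ C} := by rw [huniv]; exact mem_univ _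
      exact this
    -- the logarithm of `θ ∘ Y`
    have hθY0 : ∀ L ∈ Hc, θ (Y L) ≠ 0 := by
      intro L hL h0
      have h1 := (hCiff L hL).1 (hYC L hL)
      rw [h0, hψ0] at h1
      exact hYne L hL h1.symm
    obtain ⟨v, hvc, hv⟩ := Complex.exists_continuousOn_eqOn_exp_comp
      (isSimplyConnected_of_convex hHcc ⟨Ψ s₀, hΨre s₀ hs₀⟩) hHco (g := fun L => θ (Y L))
      (by
        intro L hL
        apply ContinuousAt.continuousWithinAt
        exact ContinuousAt.comp (g := θ) (hballE _ (hYE L hL)).1.2.2.1 (hYan L hL).continuousAt)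
      (by rintro ⟨L, hL, h0⟩; exact hθY0 L hL h0)
    have hlog : HasIdx (fun t : ℂ => t) (fun t : ℂ => t) 0 0 := by
      refine ⟨fun t => v (w t), ?_⟩
      filter_upwards [ball_mem_nhds (0 : ℂ) hr] with t ht ht0
      rw [mem_ball_zero_iff] at ht
      have hlt : Complex.log t ∈ Hs := by
        change (Complex.log t).re < Real.log r
        rw [Complex.log_re]
        exact Real.log_lt_log (norm_pos_iff.2 ht0) ht
      have hΨt : Ψ (Complex.log t) = w t := by
        simp only [Ψ, hn0, Complex.exp_log ht0]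
        push_cast
        ring
      have hwt : w t ∈ Hc := by
        rw [← hΨt]; exact hΨre _ hlt
      refine ⟨?_, ?_⟩
      · have h1 : ContinuousAt w t := hwc.continuousAt (hDo.mem_nhds ⟨ht0, ht⟩)
        exact ContinuousAt.comp (g := v) (hvc.continuousAt (hHco.mem_nhds hwt)) h1
      · have h1 : Complex.exp (v (w t)) = θ (Y (w t)) := hv hwt
        rw [h1, ← hΨt, ← hψY' _ hlt, Complex.exp_log ht0, (hballT _ (hTr t ht)).1]
        simp
    have h1 := (hasIdx_self (fun t : ℂ => t) 0).unique (f := fun t : ℂ => t) (u := fun t : ℂ => t)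
      analyticAt_id rfl (by
        intro hcon
        obtain ⟨ε, hε, hb⟩ := Metric.eventually_nhds_iff_ball.1 hcon
        have h2 : ((ε / 2 : ℝ) : ℂ) ∈ ball (0 : ℂ) ε := by
          rw [mem_ball_zero_iff, Complex.norm_real, Real.norm_of_nonneg (by positivity)]
          linarith
        have h3 := hb _ h2
        have h4 : (ε / 2 : ℝ) ≠ 0 := by positivity
        exact h4 (by exact_mod_cast h3)) hlog
    exact absurd h1 (by norm_num)
  -- the parametrization
  set k : ℕ := n.natAbs with hk_def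
  have hk : 1 ≤ k := Int.natAbs_pos.2 hn
  have hk0 : (k : ℂ) ≠ 0 := by
    have : k ≠ 0 := by omega
    exact_mod_cast this
  have hkR : (0 : ℝ) < k := by exact_mod_cast hk
  set σ : ℤ := n.sign with hσ_def
  have hσk : (σ : ℤ) * k = n := by rw [hσ_def, hk_def]; exact Int.sign_mul_natAbs n
  have hσ : σ = 1 ∨ σ = -1 := by
    rcases lt_or_gt_of_ne hn with h1 | h1
    · right; exact Int.sign_eq_neg_one_of_neg h1
    · left; exact Int.sign_eq_one_of_pos h1
  have hper : ∀ (a : ℤ) (L : ℂ), L.re < c → Y (L + a * (n * (2 * Real.pi * Complex.I))) = Y L := by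
    intro a
    induction a using Int.induction_on with
    | zero => intro L _; simp
    | succ a ih =>
      intro L hL
      have h1 : (L + (a : ℤ) * (n * (2 * Real.pi * Complex.I))).re < c := by
        have := hre2 L (a * n)
        push_cast at this
        rw [show (L + (a : ℤ) * (n * (2 * Real.pi * Complex.I))) =
          L + (a * n) * (2 * Real.pi * Complex.I) by push_cast; ring, this]
        exact hL
      have h2 := hYper _ h1
      rw [ih L hL] at h2
      rw [← h2]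
      congr 1
      push_cast
      ring
    | pred a ih =>
      intro L hL
      have h1 : (L + (-(a : ℤ) - 1 : ℤ) * (n * (2 * Real.pi * Complex.I))).re < c := by
        have := hre2 L ((-a - 1) * n)
        rw [show (L + (-(a : ℤ) - 1 : ℤ) * (n * (2 * Real.pi * Complex.I))) =
          L + (((-a - 1) * n : ℤ) : ℂ) * (2 * Real.pi * Complex.I) by push_cast; ring, this]
        exact hL
      have h2 := hYper _ h1
      rw [← h2, ← ih L hL]
      congr 1
      push_cast
      ring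
  have hperk : ∀ (m : ℤ) (L : ℂ), L.re < c → Y (L + k * (m * (2 * Real.pi * Complex.I))) = Y L := by
    intro m L hL
    rcases hσ with h1 | h1
    · have : (k : ℂ) = n := by
        have := hσk; rw [h1, one_mul] at this; exact_mod_cast this
      rw [this, ← hper m L hL]
      congr 1; ring
    · have : (k : ℂ) = -n := by
        have := hσk; rw [h1] at this
        have h2 : (k : ℤ) = -n := by linarith
        exact_mod_cast h2
      rw [this, ← hper (-m) L hL]
      congr 1; push_cast; ring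
  let y : ℂ → E := fun s => if s = 0 then 0 else Y (k * Complex.log s)
  have hyexp : ∀ ℓ : ℂ, (k * ℓ).re < c → y (Complex.exp ℓ) = Y (k * ℓ) := by
    intro ℓ hℓ
    obtain ⟨m, hm⟩ := (Complex.exp_eq_exp_iff_exists_int).1
      (Complex.exp_log (Complex.exp_ne_zero ℓ))
    simp only [y, if_neg (Complex.exp_ne_zero ℓ)]
    rw [hm, mul_add]
    exact hperk m (k * ℓ) hℓ
  set r₁ : ℝ := Real.exp (c / k) with hr₁_def
  have hr₁ : 0 < r₁ := Real.exp_pos _
  have hlogs : ∀ s : ℂ, s ≠ 0 → ‖s‖ < r₁ → ∀ ℓ : ℂ, Complex.exp ℓ = s → (k * ℓ).re < c := by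
    intro s hs0 hs ℓ hℓ
    have h1 : Real.exp ℓ.re < Real.exp (c / k) := by
      rw [← Complex.norm_exp, hℓ]; exact hs
    have h2 := Real.exp_lt_exp.1 h1
    rw [lt_div_iff₀ hkR] at h2
    have h3 : ((k : ℂ) * ℓ).re = ℓ.re * k := by
      rw [← Complex.ofReal_natCast, Complex.re_ofReal_mul]; ring
    rw [h3]; exact h2
  have hyY : ∀ s : ℂ, s ≠ 0 → ‖s‖ < r₁ → y s = Y (k * Complex.log s) := by
    intro s hs0 _
    simp only [y, if_neg hs0]
  have hydiff : ∀ s : ℂ, s ≠ 0 → ‖s‖ < r₁ → AnalyticAt ℂ y s := by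
    intro s hs0 hs
    let ℓ : ℂ → ℂ := fun z => Complex.log (z / s) + Complex.log s
    have hℓan : AnalyticAt ℂ ℓ s := by
      apply AnalyticAt.add _ analyticAt_const
      apply AnalyticAt.clog
      · exact analyticAt_id.div analyticAt_const hs0
      · rw [div_self hs0]; exact Complex.one_mem_slitPlane
    have hℓexp : ∀ z : ℂ, z ≠ 0 → Complex.exp (ℓ z) = z := by
      intro z hz
      simp only [ℓ]
      rw [Complex.exp_add, Complex.exp_log (div_ne_zero hz hs0), Complex.exp_log hs0,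
        div_mul_cancel₀ _ hs0]
    have hev : ∀ᶠ z in 𝓝 s, Y (k * ℓ z) = y z := by
      have h1 : ∀ᶠ z in 𝓝 s, z ≠ 0 := isOpen_ne.mem_nhds hs0
      have h2 : ∀ᶠ z in 𝓝 s, ‖z‖ < r₁ := continuous_norm.continuousAt.eventually_lt
        continuousAt_const hs
      filter_upwards [h1, h2] with z hz1 hz2
      rw [← hyexp (ℓ z) (hlogs z hz1 hz2 _ (hℓexp z hz1)), hℓexp z hz1]
    refine AnalyticAt.congr ?_ hev
    have h3 : AnalyticAt ℂ Y (k * ℓ s) := hYan _ (hlogs s hs0 hs _ (hℓexp s hs0))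
    exact AnalyticAt.fun_comp (f := fun z => k * ℓ z) h3 (analyticAt_const.mul hℓan)
  have hy0 : y 0 = 0 := by simp only [y, if_pos]
  have hycont : ContinuousAt y 0 := by
    rw [Metric.continuousAt_iff]
    intro ε hε
    obtain ⟨c', hc'⟩ := hYsmall ε hε
    refine ⟨min r₁ (Real.exp (c' / k)), lt_min hr₁ (Real.exp_pos _), fun s hs => ?_⟩
    rw [dist_zero_right] at hs
    rw [hy0, dist_zero_right]
    by_cases hs0 : s = 0
    · rw [hs0, hy0, norm_zero]; exact hε
    · have hs1 : ‖s‖ < r₁ := hs.trans_le (min_le_left _ _)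
      have hs2 : ‖s‖ < Real.exp (c' / k) := hs.trans_le (min_le_right _ _)
      rw [hyY s hs0 hs1]
      apply hc' _ (hlogs s hs0 hs1 _ (Complex.exp_log hs0))
      have h1 : Real.exp (Complex.log s).re < Real.exp (c' / k) := by
        rw [← Complex.norm_exp, Complex.exp_log hs0]; exact hs2
      have h2 := Real.exp_lt_exp.1 h1
      rw [lt_div_iff₀ hkR] at h2
      have h3 : ((k : ℂ) * Complex.log s).re = (Complex.log s).re * k := by
        rw [← Complex.ofReal_natCast, Complex.re_ofReal_mul]; ring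
      rw [h3]; exact h2
  have hyan : AnalyticAt ℂ y 0 := by
    apply Complex.analyticAt_of_differentiable_on_punctured_nhds_of_continuousAt _ hycont
    rw [eventually_nhdsWithin_iff]
    filter_upwards [ball_mem_nhds (0 : ℂ) hr₁] with s hs hs0
    rw [mem_ball_zero_iff] at hs
    exact (hydiff s hs0 hs).differentiableAt
  let κ : ℂ → ℂ := fun t => if t = 0 then 0 else t ^ σ * Complex.exp (w t / k)
  have hκ0 : κ 0 = 0 := by simp only [κ, if_pos]
  have hκk : ∀ t : ℂ, t ≠ 0 → ‖t‖ < r → κ t ^ k = h (ψ t) := by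
    intro t ht0 ht
    simp only [κ, if_neg ht0]
    rw [mul_pow, ← Complex.exp_nat_mul, mul_div_cancel₀ _ hk0, hw t ht0 ht]
    congr 1
    rw [← zpow_natCast, ← zpow_mul, hσk]
  have hκne : ∀ t : ℂ, t ≠ 0 → κ t ≠ 0 := by
    intro t ht0
    simp only [κ, if_neg ht0]
    exact mul_ne_zero (zpow_ne_zero _ ht0) (Complex.exp_ne_zero _)
  have hκc0 : ContinuousAt κ 0 := by
    rw [Metric.continuousAt_iff]
    intro ε hε
    have h1 : Tendsto (fun t => h (ψ t)) (𝓝 0) (𝓝 0) := by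
      have h2 : Tendsto h (𝓝 0) (𝓝 0) := by
        have := hh.continuousAt.tendsto
        rwa [hh0] at this
      exact h2.comp hψt
    have h2 : ∀ᶠ t in 𝓝 (0 : ℂ), ‖h (ψ t)‖ < ε ^ k := by
      have := h1.norm
      rw [norm_zero] at this
      exact this.eventually (gt_mem_nhds (by positivity))
    obtain ⟨δ, hδ, hb⟩ := Metric.eventually_nhds_iff_ball.1 (h2.and (ball_mem_nhds (0 : ℂ) hr))
    refine ⟨δ, hδ, fun t ht => ?_⟩
    rw [hκ0, dist_zero_right]
    by_cases ht0 : t = 0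
    · rw [ht0, hκ0, norm_zero]; exact hε
    · have h3 := hb t (mem_ball.2 ht)
      have h4 := h3.1
      rw [← hκk t ht0 (mem_ball_zero_iff.1 h3.2), norm_pow] at h4
      exact lt_of_pow_lt_pow_left₀ k hε.le h4
  refine ⟨k, σ, y, κ, hk, hσ, hyan, hy0, ?_, ?_, ?_, hκ0, ?_, ?_⟩
  · filter_upwards [ball_mem_nhds (0 : ℂ) hr₁] with s hs
    rw [mem_ball_zero_iff] at hs
    by_cases hs0 : s = 0
    · rw [hs0, hy0, hh0, zero_pow (by omega)]
    · rw [hyY s hs0 hs, hhY _ (hlogs s hs0 hs _ (Complex.exp_log hs0)), Complex.exp_nat_mul,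
        Complex.exp_log hs0]
  · have hg0 : ∀ j, g j 0 = 0 := by
      intro j
      have := hψZ.self_of_nhds j
      rwa [hψ0] at this
    filter_upwards [ball_mem_nhds (0 : ℂ) hr₁] with s hs j
    rw [mem_ball_zero_iff] at hs
    by_cases hs0 : s = 0
    · rw [hs0, hy0, hg0]
    · rw [hyY s hs0 hs, hgY j _ (hlogs s hs0 hs _ (Complex.exp_log hs0))]
  · filter_upwards [ball_mem_nhds (0 : ℂ) hr] with t ht
    rw [mem_ball_zero_iff] at ht
    by_cases ht0 : t = 0
    · rw [ht0]; exact hκc0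
    · have hwt : ContinuousAt w t := hwc.continuousAt (hDo.mem_nhds ⟨ht0, ht⟩)
      have h1 : ContinuousAt (fun t => t ^ σ * Complex.exp (w t / k)) t := by
        apply ContinuousAt.mul
        · exact continuousAt_id.zpow₀ _ (Or.inl ht0)
        · exact (hwt.div_const _).cexp
      refine h1.congr ?_
      have h2 : ∀ᶠ z in 𝓝 t, z ≠ 0 := isOpen_ne.mem_nhds ht0
      filter_upwards [h2] with z hz
      simp only [κ, if_neg hz]
  · refine ⟨fun t => w t / k, ?_⟩
    filter_upwards [ball_mem_nhds (0 : ℂ) hr] with t ht ht0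
    rw [mem_ball_zero_iff] at ht
    refine ⟨(hwc.continuousAt (hDo.mem_nhds ⟨ht0, ht⟩)).div_const _, ?_⟩
    simp only [κ, if_neg ht0]
  · filter_upwards [ball_mem_nhds (0 : ℂ) hr] with t ht
    rw [mem_ball_zero_iff] at ht
    by_cases ht0 : t = 0
    · rw [ht0, hκ0, hψ0, hy0]
    · have hlt : Complex.log t ∈ Hs := by
        change (Complex.log t).re < Real.log r
        rw [Complex.log_re]
        exact Real.log_lt_log (norm_pos_iff.2 ht0) ht
      have h1 : κ t = Complex.exp (σ * Complex.log t + w t / k) := by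
        simp only [κ, if_neg ht0]
        rw [Complex.exp_add, Complex.exp_int_mul, Complex.exp_log ht0]
      have h2 : (k : ℂ) * (σ * Complex.log t + w t / k) = Ψ (Complex.log t) := by
        simp only [Ψ, Complex.exp_log ht0]
        have : (n : ℂ) = σ * k := by rw [← hσk]; push_cast; ring
        rw [this]
        field_simp
      rw [h1, hyexp _ (by rw [h2]; exact hΨre _ hlt), h2, ← hψY' _ hlt, Complex.exp_log ht0]

end Vale.Agent.P268
end
end

section

section

/-!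
The order (multiplicity) of an analytic function at the origin.
-/

namespace Vale.Agent.P268

open Set Filter Metric Topology Asymptotics

variable {E : Type*} [NormedAddCommGroup E] [NormedSpace ℂ E]

/-- `f` has order `k` at the origin. -/
def IsOrd (f : E → ℂ) (k : ℕ) : Prop :=
  (∀ j < k, iteratedFDeriv ℂ j f 0 = 0) ∧ iteratedFDeriv ℂ k f 0 ≠ 0

theorem IsOrd.congr {f g : E → ℂ} {k : ℕ} (h : IsOrd f k) (hfg : f =ᶠ[𝓝 0] g) : IsOrd g k := by
  have h1 : ∀ j, iteratedFDeriv ℂ j f 0 = iteratedFDeriv ℂ j g 0 :=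
    fun j => (hfg.iteratedFDeriv ℂ j).self_of_nhds
  exact ⟨fun j hj => by rw [← h1]; exact h.1 j hj, by rw [← h1]; exact h.2⟩

theorem IsOrd.unique {f : E → ℂ} {k l : ℕ} (h : IsOrd f k) (h' : IsOrd f l) : k = l := by
  rcases lt_trichotomy k l with hlt | heq | hlt
  · exact absurd (h'.1 k hlt) h.2
  · exact heq
  · exact absurd (h.1 l hlt) h'.2

theorem IsOrd.sInf_eq {f : E → ℂ} {k : ℕ} (h : IsOrd f k) :
    sInf {k | iteratedFDeriv ℂ k f 0 ≠ 0} = k := by
  apply le_antisymm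
  · exact Nat.sInf_le h.2
  · by_contra hlt
    push Not at hlt
    have : sInf {k | iteratedFDeriv ℂ k f 0 ≠ 0} ∈ {k | iteratedFDeriv ℂ k f 0 ≠ 0} :=
      Nat.sInf_mem ⟨k, h.2⟩
    exact this (h.1 _ hlt)

theorem iter_eq_zero_of_diag {f : E → ℂ} (hf : AnalyticAt ℂ f 0) {k : ℕ}
    (h : ∀ v : E, iteratedFDeriv ℂ k f 0 (fun _ => v) = 0) : iteratedFDeriv ℂ k f 0 = 0 := by
  ext v
  have h1 := ContinuousMultilinearMap.iteratedFDeriv_comp_diagonal (iteratedFDeriv ℂ k f 0) 0 v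
  have h2 : (fun x : E => iteratedFDeriv ℂ k f 0 (fun _ => x)) = fun _ => 0 := by
    ext x; exact h x
  have hcd : ContDiffAt ℂ ⊤ f 0 := hf.contDiffAt
  have h3 : ∀ σ : Equiv.Perm (Fin k), iteratedFDeriv ℂ k f 0 (fun i => v (σ i)) =
      iteratedFDeriv ℂ k f 0 v := by
    intro σ
    exact hcd.iteratedFDeriv_comp_perm v σ
  rw [h2] at h1
  simp only [h3, Finset.sum_const, Finset.card_univ, Fintype.card_perm, Fintype.card_fin,
    nsmul_eq_mul] at h1
  have h4 : iteratedFDeriv ℂ k (fun _ : E => (0:ℂ)) 0 = 0 := by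
    exact congrFun (iteratedFDeriv_fun_zero (𝕜 := ℂ) (E := E) (F := ℂ) (n := k)) 0
  rw [h4] at h1
  simp only [_root_.zero_apply, zero_eq_mul, Nat.cast_eq_zero,
    Nat.factorial_ne_zero, false_or] at h1
  simpa using h1

theorem exists_open_of_analyticAt {f : E → ℂ} (hf : AnalyticAt ℂ f 0) :
    ∃ U : Set E, IsOpen U ∧ (0 : E) ∈ U ∧ AnalyticOnNhd ℂ f U :=
  ⟨{z | AnalyticAt ℂ f z}, isOpen_analyticAt ℂ f, hf, fun _ hz => hz⟩

theorem iteratedDeriv_smul_line {f : E → ℂ} (hf : AnalyticAt ℂ f 0) (v : E) (j : ℕ) :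
    iteratedDeriv j (fun t : ℂ => f (t • v)) 0 = iteratedFDeriv ℂ j f 0 (fun _ => v) := by
  obtain ⟨U, hU, h0, hfU⟩ := exists_open_of_analyticAt hf
  have hcd : ContDiffOn ℂ j f U := hfU.contDiffOn hU.uniqueDiffOn
  have := iteratedDeriv_line hU hcd (x := 0) (y := v) (t := 0) (by simpa using h0)
  simpa using this

theorem analyticAt_line {f : E → ℂ} (hf : AnalyticAt ℂ f 0) (v : E) :
    AnalyticAt ℂ (fun t : ℂ => f (t • v)) 0 := by
  have h1 : AnalyticAt ℂ (fun t : ℂ => t • v) 0 := analyticAt_id.smul analyticAt_const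
  exact AnalyticAt.fun_comp (g := f) (f := fun t : ℂ => t • v) (by simpa using hf) h1

theorem le_order_line_iff {f : E → ℂ} (hf : AnalyticAt ℂ f 0) (v : E) (k : ℕ) :
    (k : ℕ∞) ≤ analyticOrderAt (fun t : ℂ => f (t • v)) 0 ↔
      ∀ j < k, iteratedFDeriv ℂ j f 0 (fun _ => v) = 0 := by
  rw [natCast_le_analyticOrderAt_iff_iteratedDeriv_eq_zero (analyticAt_line hf v)]
  simp only [iteratedDeriv_smul_line hf]

theorem order_line_eq_iff {f : E → ℂ} (hf : AnalyticAt ℂ f 0) (v : E) (k : ℕ) :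
    analyticOrderAt (fun t : ℂ => f (t • v)) 0 = k ↔
      (∀ j < k, iteratedFDeriv ℂ j f 0 (fun _ => v) = 0) ∧
        iteratedFDeriv ℂ k f 0 (fun _ => v) ≠ 0 := by
  rw [analyticOrderAt_eq_nat_iff_iteratedDeriv_eq_zero (analyticAt_line hf v)]
  simp only [iteratedDeriv_smul_line hf]

theorem IsOrd.exists_dir {f : E → ℂ} (hf : AnalyticAt ℂ f 0) {k : ℕ} (h : IsOrd f k) :
    ∃ v : E, iteratedFDeriv ℂ k f 0 (fun _ => v) ≠ 0 := by
  by_contra hcon
  push Not at hcon
  exact h.2 (iter_eq_zero_of_diag hf hcon)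

theorem IsOrd.order_line {f : E → ℂ} (hf : AnalyticAt ℂ f 0) {k : ℕ} (h : IsOrd f k) {v : E}
    (hv : iteratedFDeriv ℂ k f 0 (fun _ => v) ≠ 0) :
    analyticOrderAt (fun t : ℂ => f (t • v)) 0 = k :=
  (order_line_eq_iff hf v k).2 ⟨fun j hj => by rw [h.1 j hj]; rfl, hv⟩

theorem isOrd_iff_line {f : E → ℂ} (hf : AnalyticAt ℂ f 0) {k : ℕ} :
    IsOrd f k ↔ (∀ v : E, (k : ℕ∞) ≤ analyticOrderAt (fun t : ℂ => f (t • v)) 0) ∧
      ∃ v : E, analyticOrderAt (fun t : ℂ => f (t • v)) 0 = k := by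
  constructor
  · intro h
    refine ⟨fun v => ?_, ?_⟩
    · rw [le_order_line_iff hf]
      intro j hj
      rw [h.1 j hj]; rfl
    · obtain ⟨v, hv⟩ := h.exists_dir hf
      exact ⟨v, h.order_line hf hv⟩
  · rintro ⟨h1, v, hv⟩
    refine ⟨fun j hj => iter_eq_zero_of_diag hf fun v => ?_, ?_⟩
    · exact (le_order_line_iff hf v k).1 (h1 v) j hj
    · intro h0
      have := ((order_line_eq_iff hf v k).1 hv).2
      rw [h0] at this
      exact this rfl

/-- A nonzero germ has an order. -/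
theorem exists_isOrd {f : E → ℂ} (hf : AnalyticAt ℂ f 0) (hne : ¬ ∀ᶠ z in 𝓝 0, f z = 0) :
    ∃ k, IsOrd f k := by
  classical
  have hex : ∃ k, iteratedFDeriv ℂ k f 0 ≠ 0 := by
    by_contra hcon
    push Not at hcon
    apply hne
    obtain ⟨p, r, hp⟩ := hf
    have hball : eball (0 : E) r ∈ 𝓝 (0 : E) := Metric.eball_mem_nhds _ hp.r_pos
    filter_upwards [hball] with z hz
    have h1 := hp.hasSum_iteratedFDeriv hz
    simp only [hcon, _root_.zero_apply, smul_zero, zero_add] at h1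
    exact h1.unique hasSum_zero
  refine ⟨Nat.find hex, fun j hj => ?_, Nat.find_spec hex⟩
  by_contra h
  exact Nat.find_min hex hj h

theorem isOrd_zero {f : E → ℂ} (h : f 0 ≠ 0) : IsOrd f 0 := by
  refine ⟨fun j hj => absurd hj (Nat.not_lt_zero _), ?_⟩
  intro h0
  apply h
  have := congrArg (fun m => m 0) h0
  simpa using this

theorem isOrd_one {f : E → ℂ} (h0 : f 0 = 0) (hd : fderiv ℂ f 0 ≠ 0) : IsOrd f 1 := by
  refine ⟨?_, ?_⟩
  · intro j hj
    have : j = 0 := by omega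
    subst this
    ext v
    simpa using h0
  · intro h
    apply hd
    ext v
    have := congrArg (fun m => m (fun _ => v)) h
    simpa [iteratedFDeriv_one_apply] using this

/-- Common direction. -/
theorem exists_common_dir {f g : E → ℂ} (hf : AnalyticAt ℂ f 0) (hg : AnalyticAt ℂ g 0)
    {k l : ℕ} (h : IsOrd f k) (h' : IsOrd g l) : ∃ v : E,
      iteratedFDeriv ℂ k f 0 (fun _ => v) ≠ 0 ∧ iteratedFDeriv ℂ l g 0 (fun _ => v) ≠ 0 := by
  obtain ⟨v, hv⟩ := h.exists_dir hf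
  obtain ⟨w, hw⟩ := h'.exists_dir hg
  have key : ∀ (j : ℕ) (D : ContinuousMultilinearMap ℂ (fun _ : Fin j => E) ℂ),
      AnalyticOnNhd ℂ (fun s : ℂ => D (fun _ => v + s • (w - v))) univ := by
    intro j D s _
    have h1 : Differentiable ℂ (fun s : ℂ => D (fun _ => v + s • (w - v))) := by
      have h2 : Differentiable ℂ (fun x : E => D (fun _ => x)) := by
        have h3 : ContDiff ℂ 1 (fun x : E => D (fun _ => x)) :=
          D.contDiff.comp (contDiff_pi.2 fun i => contDiff_id)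
        exact h3.differentiable (by simp)
      exact h2.comp (by fun_prop)
    exact h1.analyticAt s
  by_contra hcon
  push Not at hcon
  have h0 : ∀ s ∈ (univ : Set ℂ), (fun s : ℂ => iteratedFDeriv ℂ k f 0 (fun _ => v + s • (w - v))) s *
      (fun s : ℂ => iteratedFDeriv ℂ l g 0 (fun _ => v + s • (w - v))) s = 0 := by
    intro s _
    by_cases hs : iteratedFDeriv ℂ k f 0 (fun _ => v + s • (w - v)) = 0
    · simp only [hs, zero_mul]
    · simp only [hcon _ hs, mul_zero]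
  rcases (key k (iteratedFDeriv ℂ k f 0)).eq_zero_or_eq_zero_of_mul_eq_zero
    (key l (iteratedFDeriv ℂ l g 0)) h0 isPreconnected_univ with h1 | h1
  · apply hv
    have := h1 0 (mem_univ _)
    simpa using this
  · apply hw
    have := h1 1 (mem_univ _)
    simpa using this

theorem IsOrd.mul {f g : E → ℂ} (hf : AnalyticAt ℂ f 0) (hg : AnalyticAt ℂ g 0)
    {k l : ℕ} (h : IsOrd f k) (h' : IsOrd g l) : IsOrd (fun z => f z * g z) (k + l) := by
  rw [isOrd_iff_line (show AnalyticAt ℂ (fun z => f z * g z) 0 from hf.mul hg)]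
  have hmul : ∀ v : E, analyticOrderAt (fun t : ℂ => f (t • v) * g (t • v)) 0 =
      analyticOrderAt (fun t : ℂ => f (t • v)) 0 + analyticOrderAt (fun t : ℂ => g (t • v)) 0 :=
    fun v => analyticOrderAt_mul (analyticAt_line hf v) (analyticAt_line hg v)
  refine ⟨fun v => ?_, ?_⟩
  · rw [hmul]
    push_cast
    exact add_le_add (((isOrd_iff_line hf).1 h).1 v) (((isOrd_iff_line hg).1 h').1 v)
  · obtain ⟨v, h1, h2⟩ := exists_common_dir hf hg h h'
    refine ⟨v, ?_⟩
    rw [hmul, h.order_line hf h1, h'.order_line hg h2]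
    push_cast; rfl

theorem analyticAt_finset_prod {ι : Type*} (s : Finset ι) {f : ι → E → ℂ} {x : E}
    (hf : ∀ i ∈ s, AnalyticAt ℂ (f i) x) : AnalyticAt ℂ (fun z => ∏ i ∈ s, f i z) x := by
  exact Finset.analyticAt_fun_prod s hf

theorem IsOrd.prod {ι : Type*} (s : Finset ι) {f : ι → E → ℂ} {k : ι → ℕ}
    (hf : ∀ i ∈ s, AnalyticAt ℂ (f i) 0) (h : ∀ i ∈ s, IsOrd (f i) (k i)) :
    IsOrd (fun z => ∏ i ∈ s, f i z) (∑ i ∈ s, k i) := by
  classical
  induction s using Finset.induction_on with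
  | empty => simpa using isOrd_zero (f := fun _ : E => (1:ℂ)) one_ne_zero
  | insert a s ha ih =>
    simp only [Finset.prod_insert ha, Finset.sum_insert ha]
    apply IsOrd.mul (hf a (Finset.mem_insert_self _ _))
      (analyticAt_finset_prod s fun i hi => hf i (Finset.mem_insert_of_mem hi))
      (h a (Finset.mem_insert_self _ _))
    exact ih (fun i hi => hf i (Finset.mem_insert_of_mem hi))
      (fun i hi => h i (Finset.mem_insert_of_mem hi))

/-- one-variable: growth implies order -/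
theorem le_order_of_isBigO {h : ℂ → ℂ} (hh : AnalyticAt ℂ h 0) {k : ℕ}
    (hO : h =O[𝓝 0] fun t : ℂ => ‖t‖ ^ k) : (k : ℕ∞) ≤ analyticOrderAt h 0 := by
  by_contra hlt
  push Not at hlt
  obtain ⟨j, hj⟩ : ∃ j : ℕ, analyticOrderAt h 0 = j := by
    have : analyticOrderAt h 0 ≠ ⊤ := ne_top_of_lt hlt
    exact (ENat.ne_top_iff_exists.1 this).imp fun _ h => h.symm
  rw [hj] at hlt
  have hjk : j < k := by exact_mod_cast hlt
  obtain ⟨g, hg, hg0, hgh⟩ := (hh.analyticOrderAt_eq_natCast).1 hj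
  obtain ⟨C, hC⟩ := hO.bound
  have h1 : ∀ᶠ t in 𝓝[≠] (0:ℂ), ‖g t‖ ≤ C * ‖t‖ ^ (k - j) := by
    rw [eventually_nhdsWithin_iff]
    filter_upwards [hC, hgh] with t h2 h3 ht
    have ht' : t ≠ 0 := ht
    have htp : 0 < ‖t‖ := norm_pos_iff.2 ht'
    rw [h3, sub_zero, norm_smul, norm_pow, norm_pow, norm_norm] at h2
    have h4 : ‖t‖ ^ k = ‖t‖ ^ j * ‖t‖ ^ (k - j) := by
      rw [← pow_add]; congr 1; omega
    rw [h4] at h2
    have h5 : ‖t‖ ^ j * ‖g t‖ ≤ ‖t‖ ^ j * (C * ‖t‖ ^ (k - j)) := by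
      calc _ ≤ C * (‖t‖ ^ j * ‖t‖ ^ (k - j)) := h2
        _ = _ := by ring
    exact le_of_mul_le_mul_left h5 (pow_pos htp j)
  have h2 : Tendsto (fun t : ℂ => C * ‖t‖ ^ (k - j)) (𝓝[≠] 0) (𝓝 0) := by
    have h3 : ContinuousAt (fun t : ℂ => C * ‖t‖ ^ (k - j)) 0 := by fun_prop
    have h4 : C * ‖(0:ℂ)‖ ^ (k - j) = 0 := by
      simp [Nat.sub_ne_zero_of_lt hjk]
    have h5 := h3.tendsto
    rw [h4] at h5
    exact h5.mono_left nhdsWithin_le_nhds
  have h3 : Tendsto (fun t : ℂ => ‖g t‖) (𝓝[≠] 0) (𝓝 ‖g 0‖) :=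
    (hg.continuousAt.norm).tendsto.mono_left nhdsWithin_le_nhds
  have h4 := le_of_tendsto_of_tendsto h3 h2 h1
  exact hg0 (norm_le_zero_iff.1 h4)

theorem IsOrd.isBigO {f : E → ℂ} (hf : AnalyticAt ℂ f 0) {k : ℕ}
    (h : ∀ j < k, iteratedFDeriv ℂ j f 0 = 0) : f =O[𝓝 0] fun z : E => ‖z‖ ^ k := by
  obtain ⟨p, r, hp⟩ := hf
  have h1 := (hp.hasFPowerSeriesAt).isBigO_sub_partialSum_pow k
  have h2 : ∀ y : E, p.partialSum k y = 0 := by
    intro y
    rw [FormalMultilinearSeries.partialSum]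
    apply Finset.sum_eq_zero
    intro j hj
    have h3 := hp.factorial_smul y j
    rw [h j (Finset.mem_range.1 hj)] at h3
    simp only [_root_.zero_apply, smul_eq_zero, Nat.factorial_ne_zero,
      false_or] at h3
    exact h3
  simpa only [zero_add, h2, sub_zero] using h1

theorem curve_isBigO {γ : ℂ → E} (hγ : AnalyticAt ℂ γ 0) (hγ0 : γ 0 = 0) :
    γ =O[𝓝 0] fun t : ℂ => ‖t‖ := by
  have h1 := hγ.differentiableAt.isBigO_sub
  simp only [hγ0, sub_zero] at h1
  exact h1.norm_right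

theorem analyticAt_comp_curve {f : E → ℂ} (hf : AnalyticAt ℂ f 0) {γ : ℂ → E}
    (hγ : AnalyticAt ℂ γ 0) (hγ0 : γ 0 = 0) : AnalyticAt ℂ (fun t => f (γ t)) 0 :=
  AnalyticAt.fun_comp (g := f) (f := γ) (by rw [hγ0]; exact hf) hγ

/-- The order along an analytic curve is at least the multiplicity. -/
theorem le_order_curve {f : E → ℂ} (hf : AnalyticAt ℂ f 0) {γ : ℂ → E}
    (hγ : AnalyticAt ℂ γ 0) (hγ0 : γ 0 = 0) {k : ℕ}
    (h : ∀ j < k, iteratedFDeriv ℂ j f 0 = 0) :
    (k : ℕ∞) ≤ analyticOrderAt (fun t => f (γ t)) 0 := by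
  apply le_order_of_isBigO (analyticAt_comp_curve hf hγ hγ0)
  have h1 := IsOrd.isBigO hf h
  have hc : Tendsto γ (𝓝 0) (𝓝 0) := by
    have := hγ.continuousAt.tendsto
    rwa [hγ0] at this
  have h2 : (fun t => f (γ t)) =O[𝓝 0] fun t : ℂ => ‖γ t‖ ^ k := h1.comp_tendsto hc
  exact h2.trans ((curve_isBigO hγ hγ0).norm_left.pow k)

/-- If the order along an analytic curve exceeds the multiplicity, the tangent vector of the curve
is in the tangent cone. -/
theorem leading_eq_zero_of_lt {f : E → ℂ} (hf : AnalyticAt ℂ f 0) {γ : ℂ → E}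
    (hγ : AnalyticAt ℂ γ 0) (hγ0 : γ 0 = 0) {k : ℕ}
    (h : ∀ j < k, iteratedFDeriv ℂ j f 0 = 0)
    (hlt : ((k + 1 : ℕ) : ℕ∞) ≤ analyticOrderAt (fun t => f (γ t)) 0) :
    iteratedFDeriv ℂ k f 0 (fun _ => deriv γ 0) = 0 := by
  obtain ⟨p, r, hp⟩ := hf
  have hf : AnalyticAt ℂ f 0 := ⟨p, r, hp⟩
  have hO := (hp.hasFPowerSeriesAt).isBigO_sub_partialSum_pow (k + 1)
  have hps : ∀ y : E, p.partialSum (k + 1) y = p k (fun _ => y) := by
    intro y
    rw [FormalMultilinearSeries.partialSum, Finset.sum_range_succ]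
    rw [Finset.sum_eq_zero, zero_add]
    intro j hj
    have h3 := hp.factorial_smul y j
    rw [h j (Finset.mem_range.1 hj)] at h3
    simp only [_root_.zero_apply, smul_eq_zero, Nat.factorial_ne_zero, false_or] at h3
    exact h3
  simp only [zero_add, hps] at hO
  have hc : Tendsto γ (𝓝 0) (𝓝 0) := by
    have := hγ.continuousAt.tendsto
    rwa [hγ0] at this
  have hO2 : (fun t => f (γ t) - p k (fun _ => γ t)) =O[𝓝 0] fun t : ℂ => ‖t‖ ^ (k + 1) :=
    (hO.comp_tendsto hc).trans ((curve_isBigO hγ hγ0).norm_left.pow (k + 1))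
  obtain ⟨C, hC⟩ := hO2.bound
  obtain ⟨g, hg, hgh⟩ := (natCast_le_analyticOrderAt (analyticAt_comp_curve hf hγ hγ0)).1 hlt
  -- the limit of the leading term
  have hslope : Tendsto (fun t : ℂ => t⁻¹ • γ t) (𝓝[≠] 0) (𝓝 (deriv γ 0)) := by
    have := hasDerivAt_iff_tendsto_slope_zero.1 hγ.differentiableAt.hasDerivAt
    simpa [hγ0] using this
  have hlim : Tendsto (fun t : ℂ => p k (fun _ => t⁻¹ • γ t)) (𝓝[≠] 0)
      (𝓝 (p k (fun _ => deriv γ 0))) := by
    have h1 : Continuous (fun x : E => p k (fun _ => x)) :=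
      (p k).cont.comp (continuous_pi fun _ => continuous_id)
    exact (h1.tendsto _).comp hslope
  have hzero : Tendsto (fun t : ℂ => p k (fun _ => t⁻¹ • γ t)) (𝓝[≠] 0) (𝓝 0) := by
    have hb : ∀ᶠ t in 𝓝[≠] (0:ℂ), ‖p k (fun _ => t⁻¹ • γ t)‖ ≤ (C + ‖g t‖) * ‖t‖ := by
      rw [eventually_nhdsWithin_iff]
      filter_upwards [hC, hgh] with t h1 h2 ht
      have ht' : t ≠ 0 := ht
      have htp : 0 < ‖t‖ := norm_pos_iff.2 ht'
      have h3 : p k (fun _ => γ t) = t ^ k * p k (fun _ => t⁻¹ • γ t) := by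
        have h4 : (fun _ : Fin k => γ t) = fun i => (fun _ => t) i • (fun _ => t⁻¹ • γ t) i := by
          ext i
          simp only [smul_smul, mul_inv_cancel₀ ht', one_smul]
        rw [h4, ContinuousMultilinearMap.map_smul_univ]
        simp
      rw [h2, h3, sub_zero, smul_eq_mul] at h1
      have h5 : t ^ k * p k (fun _ => t⁻¹ • γ t) =
          t ^ (k + 1) * g t - (t ^ (k + 1) * g t - t ^ k * p k (fun _ => t⁻¹ • γ t)) := by ring
      have h6 : ‖t‖ ^ k * ‖p k (fun _ => t⁻¹ • γ t)‖ ≤ ‖t‖ ^ k * ((C + ‖g t‖) * ‖t‖) := by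
        calc ‖t‖ ^ k * ‖p k (fun _ => t⁻¹ • γ t)‖ = ‖t ^ k * p k (fun _ => t⁻¹ • γ t)‖ := by
              rw [norm_mul, norm_pow]
          _ ≤ ‖t ^ (k + 1) * g t‖ + ‖t ^ (k + 1) * g t - t ^ k * p k (fun _ => t⁻¹ • γ t)‖ := by
              nth_rewrite 1 [h5]
              exact norm_sub_le _ _
          _ ≤ ‖t‖ ^ (k + 1) * ‖g t‖ + C * ‖t‖ ^ (k + 1) := by
              gcongr
              · rw [norm_mul, norm_pow]
              · simpa using h1
          _ = _ := by ring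
      exact le_of_mul_le_mul_left h6 (pow_pos htp k)
    have hb2 : Tendsto (fun t : ℂ => (C + ‖g t‖) * ‖t‖) (𝓝[≠] 0) (𝓝 0) := by
      have h1 : ContinuousAt (fun t : ℂ => (C + ‖g t‖) * ‖t‖) 0 :=
        (continuousAt_const.add hg.continuousAt.norm).mul continuous_norm.continuousAt
      have h2 := h1.tendsto
      simp only [norm_zero, mul_zero] at h2
      exact h2.mono_left nhdsWithin_le_nhds
    exact squeeze_zero_norm' hb hb2
  have heq : p k (fun _ => deriv γ 0) = 0 := tendsto_nhds_unique hlim hzero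
  rw [← hp.factorial_smul (deriv γ 0) k, heq, smul_zero]

theorem order_curve_eq {f : E → ℂ} (hf : AnalyticAt ℂ f 0) {γ : ℂ → E}
    (hγ : AnalyticAt ℂ γ 0) (hγ0 : γ 0 = 0) {k : ℕ} (h : ∀ j < k, iteratedFDeriv ℂ j f 0 = 0)
    (hd : iteratedFDeriv ℂ k f 0 (fun _ => deriv γ 0) ≠ 0) :
    analyticOrderAt (fun t => f (γ t)) 0 = k := by
  apply le_antisymm _ (le_order_curve hf hγ hγ0 h)
  by_contra hlt
  push Not at hlt
  exact hd (leading_eq_zero_of_lt hf hγ hγ0 h (by
    push_cast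
    exact Order.add_one_le_of_lt hlt))

end Vale.Agent.P268
end
end

section

section

/-!
Smooth curves cut out by smooth hypersurfaces in general position.
-/

namespace Vale.Agent.P268

open Set Filter Metric Topology Module

variable {E : Type*} [NormedAddCommGroup E] [NormedSpace ℂ E] [FiniteDimensional ℂ E]

theorem eq_zero_of_indep {ι : Type*} {a : ι → Dual ℂ E} {s : Finset ι}
    (hs : LinearIndepOn ℂ a (s : Set ι)) (hcard : s.card = finrank ℂ E) {w : E}
    (hw : ∀ j ∈ s, a j w = 0) : w = 0 := by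
  classical
  have h1 : LinearIndependent ℂ (fun j : s => a j) := hs
  have h2 : Submodule.span ℂ (Set.range (fun j : s => a j)) = ⊤ := by
    apply h1.span_eq_top_of_card_eq_finrank'
    rw [Subspace.dual_finrank_eq, ← hcard]
    simp
  rw [← Module.forall_dual_apply_eq_zero_iff ℂ w]
  intro f
  have hf : f ∈ Submodule.span ℂ (Set.range (fun j : s => a j)) := by rw [h2]; trivial
  induction hf using Submodule.span_induction with
  | mem x hx =>
    obtain ⟨j, rfl⟩ := hx
    exact hw j j.2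
  | zero => rfl
  | add x y _ _ hx hy => rw [LinearMap.add_apply, hx, hy, add_zero]
  | smul c x _ hx => rw [LinearMap.smul_apply, hx, smul_zero]

theorem exists_curve {ι : Type*} [DecidableEq ι] {l : ι → E → ℂ} {J : Finset ι} {i : ι}
    (hi : i ∉ J) (hla : ∀ j ∈ insert i J, AnalyticAt ℂ (l j) 0) (hl0 : ∀ j ∈ insert i J, l j 0 = 0)
    (hind : LinearIndepOn ℂ (fun j => ((fderiv ℂ (l j) 0 : E →L[ℂ] ℂ) : Dual ℂ E))
      ((insert i J : Finset ι) : Set ι))
    (hcard : (insert i J).card = finrank ℂ E) :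
    ∃ γ : ℂ → E, AnalyticAt ℂ γ 0 ∧ γ 0 = 0 ∧ (∀ᶠ t in 𝓝 (0 : ℂ), ∀ j ∈ J, l j (γ t) = 0) ∧
      (∀ᶠ t in 𝓝 (0 : ℂ), l i (γ t) = t) ∧
      (∀ᶠ z in 𝓝 (0 : E), (∀ j ∈ J, l j z = 0) → γ (l i z) = z) := by
  have : CompleteSpace E := FiniteDimensional.complete ℂ E
  let s := insert i J
  let Φ : E → (s → ℂ) := fun z j => l j z
  let A : E →L[ℂ] (s → ℂ) := ContinuousLinearMap.pi fun j : s => fderiv ℂ (l j) 0
  have hΦan : AnalyticAt ℂ Φ 0 := analyticAt_pi_iff.2 fun j => hla j j.2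
  have hΦ0 : Φ 0 = 0 := by ext j; exact hl0 j j.2
  have hΦd : HasStrictFDerivAt Φ A 0 :=
    hasStrictFDerivAt_pi.2 fun j => (hla j j.2).hasStrictFDerivAt
  have hAinj : Function.Injective (A : E →ₗ[ℂ] (s → ℂ)) := by
    rw [← LinearMap.ker_eq_bot, LinearMap.ker_eq_bot']
    intro w hw
    apply eq_zero_of_indep hind hcard
    intro j hj
    exact congrFun hw ⟨j, hj⟩
  have hAbij : Function.Bijective (A : E →ₗ[ℂ] (s → ℂ)) := by
    refine ⟨hAinj, (LinearMap.injective_iff_surjective_of_finrank_eq_finrank ?_).1 hAinj⟩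
    rw [← hcard, Module.finrank_fintype_fun_eq_card]
    simp [s]
  let A' : E ≃L[ℂ] (s → ℂ) := (LinearEquiv.ofBijective (A : E →ₗ[ℂ] (s → ℂ)) hAbij).toContinuousLinearEquiv
  have hA' : (A' : E →L[ℂ] (s → ℂ)) = A := by ext v; rfl
  have hΦd' : HasStrictFDerivAt Φ (A' : E →L[ℂ] (s → ℂ)) 0 := by rw [hA']; exact hΦd
  let Ψ := hΦd'.toOpenPartialHomeomorph Φ
  have hΨs : (0 : E) ∈ Ψ.source := hΦd'.mem_toOpenPartialHomeomorph_source
  have hΨΦ : (Ψ : E → (s → ℂ)) = Φ := hΦd'.toOpenPartialHomeomorph_coe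
  have hΨ0 : Ψ 0 = 0 := by rw [hΨΦ]; exact hΦ0
  have hΨt : (0 : s → ℂ) ∈ Ψ.target := by rw [← hΨ0]; exact Ψ.map_source hΨs
  have hsymm0 : Ψ.symm 0 = 0 := by
    have := Ψ.left_inv hΨs
    rwa [hΨ0] at this
  have hsan : AnalyticAt ℂ Ψ.symm 0 := by
    have := Ψ.analyticAt_symm' (i := A') hΨs (by rw [hΨΦ]; exact hΦan)
      (by rw [hΨΦ]; exact hΦd'.hasFDerivAt.fderiv)
    rwa [hΨ0] at this
  let e : s := ⟨i, Finset.mem_insert_self i J⟩
  let σ : ℂ →L[ℂ] (s → ℂ) := ContinuousLinearMap.single ℂ (fun _ => ℂ) e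
  have hσ0 : σ 0 = 0 := map_zero σ
  have hσ : ∀ t, σ t = Pi.single e t := fun t => rfl
  have hσt : Tendsto σ (𝓝 0) (𝓝 0) := by
    have := σ.continuous.tendsto 0
    rwa [hσ0] at this
  refine ⟨fun t => Ψ.symm (σ t), ?_, ?_, ?_, ?_, ?_⟩
  · exact AnalyticAt.fun_comp (g := Ψ.symm) (f := σ) (by rw [hσ0]; exact hsan) (σ.analyticAt 0)
  · simp only [hσ0]; exact hsymm0
  · filter_upwards [hσt.eventually (Ψ.open_target.mem_nhds hΨt)] with t ht j hj
    have h1 : Φ (Ψ.symm (σ t)) = σ t := by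
      rw [← hΨΦ]; exact Ψ.right_inv ht
    have h2 := congrFun h1 ⟨j, Finset.mem_insert_of_mem hj⟩
    rw [hσ] at h2
    have hne : (⟨j, Finset.mem_insert_of_mem hj⟩ : s) ≠ e := by
      intro h
      have : j = i := congrArg Subtype.val h
      exact hi (this ▸ hj)
    rw [Pi.single_eq_of_ne hne] at h2
    exact h2
  · filter_upwards [hσt.eventually (Ψ.open_target.mem_nhds hΨt)] with t ht
    have h1 : Φ (Ψ.symm (σ t)) = σ t := by
      rw [← hΨΦ]; exact Ψ.right_inv ht
    have h2 := congrFun h1 e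
    rw [hσ, Pi.single_eq_same] at h2
    exact h2
  · filter_upwards [Ψ.open_source.mem_nhds hΨs] with z hz hzJ
    have h1 : σ (l i z) = Ψ z := by
      rw [hσ, hΨΦ]
      ext j
      by_cases hj : j = e
      · rw [hj, Pi.single_eq_same]
      · rw [Pi.single_eq_of_ne hj]
        have hjJ : (j : ι) ∈ J := by
          rcases Finset.mem_insert.1 j.2 with h | h
          · exact absurd (Subtype.ext h) hj
          · exact h
        exact (hzJ j hjJ).symm
    rw [h1, Ψ.left_inv hz]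


end Vale.Agent.P268
end
end

section

section

/-!
Twin curves: a smooth curve in a one-dimensional intersection of components is mapped to an
analytic branch, and the orders of all components along the two curves agree.
-/

namespace Vale.Agent.P268

open Set Filter Metric Topology Module

/-- A continuous map of the plane of nonzero index is locally surjective. -/
theorem surj_of_idx {κ : ℂ → ℂ} (hκ : ∀ᶠ t in 𝓝 (0 : ℂ), ContinuousAt κ t) {σ : ℤ}
    (hidx : HasIdx (fun t : ℂ => t) κ 0 σ) (hσ : σ ≠ 0) {ε : ℝ} (hε : 0 < ε) :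
    ∀ᶠ s in 𝓝 (0 : ℂ), ∃ t ∈ ball (0 : ℂ) ε, κ t = s := by
  obtain ⟨w, hw⟩ := hidx
  obtain ⟨R, hR, hball⟩ := Metric.eventually_nhds_iff_ball.1 (hw.and hκ)
  set δ := min R ε / 2 with hδdef
  have hδ : 0 < δ := by positivity
  have hδR : δ < R := by
    have := min_le_left R ε
    have h2 : 0 < min R ε := lt_min hR hε
    linarith
  have hδε : δ < ε := by
    have := min_le_right R ε
    have h2 : 0 < min R ε := lt_min hR hε
    linarith
  have hsub : closedBall (0 : ℂ) δ ⊆ ball 0 R := closedBall_subset_ball hδR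
  have hmem : ∀ θ, circleMap 0 δ θ ∈ closedBall (0 : ℂ) δ := fun θ =>
    circleMap_mem_closedBall 0 hδ.le θ
  have hne : ∀ θ, circleMap 0 δ θ ≠ 0 := fun θ => circleMap_ne_center hδ.ne'
  have hκc : ContinuousOn κ (closedBall (0 : ℂ) δ) := fun z hz =>
    (hball z (hsub hz)).2.continuousWithinAt
  have hwc : Continuous fun θ => w (circleMap 0 δ θ) := by
    rw [continuous_iff_continuousAt]
    intro θ
    exact ContinuousAt.comp (g := w) ((hball _ (hsub (hmem θ))).1 (hne θ)).1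
      (continuous_circleMap 0 δ).continuousAt
  have hwind : HasWind (fun θ => κ (circleMap 0 δ θ)) σ := by
    have h1 := ((hasWind_circleMap hδ.ne').zpow σ).mul (hasWind_exp hwc fun θ => by
      simp only [periodic_circleMap 0 δ θ])
    rw [mul_one, add_zero] at h1
    exact h1.congr fun θ => ((hball _ (hsub (hmem θ))).1 (hne θ)).2.symm
  obtain ⟨m, hm, hmin⟩ : ∃ m > 0, ∀ z ∈ sphere (0 : ℂ) δ, m ≤ ‖κ z‖ := by
    have hcomp : IsCompact (sphere (0 : ℂ) δ) := isCompact_sphere _ _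
    obtain ⟨z₀, hz₀, hz₀'⟩ := hcomp.exists_isMinOn (NormedSpace.sphere_nonempty.2 hδ.le)
      (f := fun z => ‖κ z‖) (hκc.mono sphere_subset_closedBall).norm
    refine ⟨‖κ z₀‖, norm_pos_iff.2 ?_, fun z hz => hz₀' hz⟩
    have hz₀ne : z₀ ≠ 0 := by
      rintro rfl
      rw [mem_sphere, dist_self] at hz₀
      exact hδ.ne hz₀
    rw [((hball z₀ (hsub (sphere_subset_closedBall hz₀))).1 hz₀ne).2]
    exact mul_ne_zero (zpow_ne_zero _ hz₀ne) (Complex.exp_ne_zero _)
  filter_upwards [ball_mem_nhds (0 : ℂ) hm] with s hs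
  by_contra hcon
  push Not at hcon
  have hs' : ‖s‖ < m := by simpa using hs
  have h1 : HasWind (fun θ => κ (circleMap 0 δ θ) - s) σ := by
    apply hwind.of_close
    · exact hwind.continuous.sub continuous_const
    · intro θ
      rw [periodic_circleMap 0 δ θ]
    · intro θ
      have h2 : κ (circleMap 0 δ θ) - s - κ (circleMap 0 δ θ) = -s := by ring
      rw [h2, norm_neg]
      exact hs'.trans_le (hmin _ (circleMap_mem_sphere 0 hδ.le θ))
  have h3 : HasWind (fun θ => κ (circleMap 0 δ θ) - s) 0 :=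
    hasWind_disc (u := fun z => κ z - s) hδ.le (hκc.sub continuousOn_const) fun z hz h0 =>
      hcon z (closedBall_subset_ball hδε hz) (sub_eq_zero.1 h0)
  exact hσ (h1.unique h3)

section

variable {E : Type*} [NormedAddCommGroup E] [NormedSpace ℂ E]

/-- A continuous left inverse of a smooth curve. -/
theorem exists_left_inv {γ : ℂ → E} (hγ : AnalyticAt ℂ γ 0) (hγ0 : γ 0 = 0)
    (hd : deriv γ 0 ≠ 0) : ∃ Λ : E → ℂ, (∀ᶠ z in 𝓝 (0 : E), ContinuousAt Λ z) ∧
      ∀ᶠ t in 𝓝 (0 : ℂ), Λ (γ t) = t := by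
  obtain ⟨b, hb⟩ := SeparatingDual.exists_ne_zero (R := ℂ) hd
  have h1 : HasStrictDerivAt (fun t => b (γ t)) (b (deriv γ 0)) 0 := by
    have h2 : HasStrictDerivAt γ (deriv γ 0) 0 := hγ.hasStrictDerivAt
    exact b.hasStrictFDerivAt.comp_hasStrictDerivAt 0 h2
  let Ψ := (h1.hasStrictFDerivAt_equiv hb).toOpenPartialHomeomorph (fun t => b (γ t))
  have hΨs : (0 : ℂ) ∈ Ψ.source :=
    (h1.hasStrictFDerivAt_equiv hb).mem_toOpenPartialHomeomorph_source
  have hΨ : ∀ t, Ψ t = b (γ t) := fun t => rfl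
  have hΨt : (0 : ℂ) ∈ Ψ.target := by
    have := Ψ.map_source hΨs
    rwa [hΨ, hγ0, map_zero] at this
  refine ⟨fun z => Ψ.symm (b z), ?_, ?_⟩
  · have h3 : Tendsto b (𝓝 (0 : E)) (𝓝 0) := by
      have := b.continuous.tendsto 0
      rwa [map_zero] at this
    filter_upwards [h3.eventually (Ψ.open_target.mem_nhds hΨt)] with z hz
    exact ContinuousAt.comp (g := Ψ.symm) (Ψ.continuousAt_symm hz) b.continuous.continuousAt
  · filter_upwards [Ψ.open_source.mem_nhds hΨs] with t ht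
    rw [← hΨ, Ψ.left_inv ht]

theorem ReducedAt.of_mul {f g h : E → ℂ} {p : E} (hf : ReducedAt f p) (hh : AnalyticAt ℂ h p)
    (heq : f =ᶠ[𝓝 p] fun z => g z * h z) : ReducedAt g p := by
  intro a b ha hb ha0 hab
  refine hf a (fun z => b z * h z) ha (hb.mul hh) ha0 ?_
  filter_upwards [heq, hab] with z h1 h2
  rw [h1, h2]; ring

theorem ReducedAt.factor {ι : Type*} [Fintype ι] [DecidableEq ι] {F : ι → E → ℂ} {u f : E → ℂ}
    {p : E} (hf : ReducedAt f p) (hFa : ∀ i, AnalyticAt ℂ (F i) p) (hu : AnalyticAt ℂ u p)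
    (heq : ∀ᶠ z in 𝓝 p, f z = (∏ i, F i z) * u z) (i : ι) : ReducedAt (F i) p := by
  refine hf.of_mul (h := fun z => (∏ j ∈ Finset.univ.erase i, F j z) * u z)
    ((Finset.analyticAt_fun_prod _ fun j _ => hFa j).mul hu) ?_
  filter_upwards [heq] with z hz
  rw [hz, ← Finset.mul_prod_erase Finset.univ (fun j => F j z) (Finset.mem_univ i), mul_assoc]

/-- The data obtained from a transported product decomposition. -/
structure Setup {ι : Type*} [Fintype ι] (F P : ι → E → ℂ) (u : E → ℂ)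
    (φ : OpenPartialHomeomorph E E) : Prop where
  hFa : ∀ i, AnalyticAt ℂ (F i) 0
  hF0 : ∀ i, F i 0 = 0
  hFr : ∀ i, ReducedAt (F i) 0
  hPa : ∀ i, AnalyticAt ℂ (P i) 0
  hPr : ∀ i, ReducedAt (P i) 0
  h0 : (0 : E) ∈ φ.source
  hφ0 : φ 0 = 0
  hua : AnalyticAt ℂ u 0
  hu0 : u 0 ≠ 0
  hFP : ∀ i, ∀ᶠ z in 𝓝 (0 : E), (F i z = 0 ↔ P i (φ z) = 0)

namespace Setup

variable {ι : Type*} [Fintype ι] {F P : ι → E → ℂ} {u : E → ℂ} {φ : OpenPartialHomeomorph E E}

theorem hP0 (S : Setup F P u φ) (i : ι) : P i 0 = 0 := by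
  have := (S.hFP i).self_of_nhds.1 (S.hF0 i)
  rwa [S.hφ0] at this

theorem tend (S : Setup F P u φ) : Tendsto φ (𝓝 0) (𝓝 0) := by
  have := (φ.continuousAt S.h0).tendsto
  rwa [S.hφ0] at this

theorem h0t (S : Setup F P u φ) : (0 : E) ∈ φ.target := by
  have := φ.map_source S.h0
  rwa [S.hφ0] at this

theorem hs0 (S : Setup F P u φ) : φ.symm 0 = 0 := by
  have := φ.left_inv S.h0
  rwa [S.hφ0] at this

theorem tend_symm (S : Setup F P u φ) : Tendsto φ.symm (𝓝 0) (𝓝 0) := by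
  have := (φ.continuousAt_symm S.h0t).tendsto
  rwa [S.hs0] at this

theorem hPF (S : Setup F P u φ) (i : ι) : ∀ᶠ z in 𝓝 (0 : E), (P i z = 0 ↔ F i (φ.symm z) = 0) := by
  filter_upwards [S.tend_symm.eventually (S.hFP i), φ.open_target.mem_nhds S.h0t] with z h1 h2
  rw [φ.right_inv h2] at h1
  exact h1.symm

/-- The image of a smooth distinguished curve is an analytic branch, and the orders of all the
components along the two curves agree. -/
theorem twin [FiniteDimensional ℂ E] (S : Setup F P u φ) {J : Finset ι} {i : ι} {γ : ℂ → E}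
    (hγ : AnalyticAt ℂ γ 0) (hγ0 : γ 0 = 0) (hγd : deriv γ 0 ≠ 0)
    (hJ : ∀ᶠ t in 𝓝 (0 : ℂ), ∀ j ∈ J, F j (γ t) = 0)
    (hZ : ∀ᶠ z in 𝓝 (0 : E), (∀ j ∈ J, F j z = 0) → F i z = 0 → z = 0) :
    ∃ (k : ℕ) (y : ℂ → E), 1 ≤ k ∧ AnalyticAt ℂ y 0 ∧ y 0 = 0 ∧
      (∀ᶠ s in 𝓝 (0 : ℂ), P i (y s) = s ^ k) ∧ (∀ᶠ s in 𝓝 (0 : ℂ), ∀ j ∈ J, P j (y s) = 0) ∧
      ∀ q, analyticOrderAt (fun t => F q (γ t)) 0 = analyticOrderAt (fun s => P q (y s)) 0 := by
  classical
  obtain ⟨Λ, hΛc, hΛ⟩ := exists_left_inv hγ hγ0 hγd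
  have hγt : Tendsto γ (𝓝 0) (𝓝 0) := by
    have := hγ.continuousAt.tendsto
    rwa [hγ0] at this
  have hΛ0 : Λ 0 = 0 := by
    have := hΛ.self_of_nhds
    rwa [hγ0] at this
  have hΛt : Tendsto Λ (𝓝 0) (𝓝 0) := by
    have := hΛc.self_of_nhds.tendsto
    rwa [hΛ0] at this
  have hγne : ∀ᶠ t in 𝓝 (0 : ℂ), t ≠ 0 → γ t ≠ 0 := by
    filter_upwards [hΛ] with t h1 h2 h3
    rw [h3, hΛ0] at h1
    exact h2 h1.symm
  have hφt : Tendsto φ (𝓝 0) (𝓝 0) := S.tend
  have hφst : Tendsto φ.symm (𝓝 0) (𝓝 0) := S.tend_symm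
  have hFPJ : ∀ᶠ z in 𝓝 (0 : E), ∀ j ∈ J, (F j z = 0 ↔ P j (φ z) = 0) :=
    (Finset.eventually_all J).2 fun j _ => S.hFP j
  have hPFJ : ∀ᶠ z in 𝓝 (0 : E), ∀ j ∈ J, (P j z = 0 ↔ F j (φ.symm z) = 0) :=
    (Finset.eventually_all J).2 fun j _ => S.hPF j
  have hφs : ∀ᶠ z in 𝓝 (0 : E), z ∈ φ.source := φ.open_source.mem_nhds S.h0
  have hφtg : ∀ᶠ z in 𝓝 (0 : E), z ∈ φ.target := φ.open_target.mem_nhds S.h0t
  -- a good radius on the source curve
  obtain ⟨r, hr, hball⟩ := Metric.eventually_nhds_iff_ball.1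
    ((hγt.eventually (hφs.and hFPJ)).and (hΛ.and hJ))
  have hZ' : ∀ᶠ z in 𝓝 (0 : E), (∀ j : {j // j ∈ J}, F j z = 0) → F i z = 0 → z = 0 := by
    filter_upwards [hZ] with z hz h1 h2 using hz (fun j hj => h1 ⟨j, hj⟩) h2
  have hopen := curve_open (J := {j // j ∈ J}) (g := fun j => F j) (fun j => S.hFa j) (S.hFa i)
    (S.hF0 i) hZ' hγ hγ0 hγne (hJ.mono fun t ht j => ht j j.2) hr
  obtain ⟨k, σ, y, κ, hk, hσ, hy, hy0, hPy, hJy, hκc, hκ0, hκi, hrel⟩ :=
    curve_param (J := {j // j ∈ J}) (g := fun j => P j) (h := P i) (fun j => S.hPa j) (S.hPa i)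
      (S.hP0 i)
      (by
        filter_upwards [hφst.eventually hZ, hPFJ, S.hPF i, hφtg] with z h1 h2 h3 h4 h5 h6
        have h7 : φ.symm z = 0 := h1 (fun j hj => (h2 j hj).1 (h5 ⟨j, hj⟩)) (h3.1 h6)
        rw [← φ.right_inv h4, h7, S.hφ0])
      (C := φ '' (γ '' ball 0 r)) (ψ := fun t => φ (γ t)) (θ := fun z => Λ (φ.symm z))
      (by simp only [hγ0, S.hφ0])
      (by
        filter_upwards [hγ.eventually_analyticAt, hγt.eventually hφs] with t a1 a2
        exact ContinuousAt.comp (g := φ) (φ.continuousAt a2) a1.continuousAt)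
      (by
        filter_upwards [hφst.eventually hΛc, hφtg] with z a1 a2
        exact ContinuousAt.comp (g := Λ) a1 (φ.continuousAt_symm a2))
      (by
        filter_upwards [hγt.eventually hφs, hΛ] with t a1 a2
        rw [φ.left_inv a1, a2])
      (by
        filter_upwards [ball_mem_nhds (0 : ℂ) hr] with t ht
        exact ⟨γ t, ⟨t, ht, rfl⟩, rfl⟩)
      (by
        filter_upwards with z hz
        obtain ⟨w, ⟨t, ht, rfl⟩, rfl⟩ := hz
        obtain ⟨⟨a1, -⟩, a2, -⟩ := hball t ht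
        simp only [φ.left_inv a1, a2])
      (by
        filter_upwards with z hz j
        obtain ⟨w, ⟨t, ht, rfl⟩, rfl⟩ := hz
        obtain ⟨⟨-, a1⟩, -, a2⟩ := hball t ht
        exact (a1 j j.2).1 (a2 j j.2))
      (by
        have h1 : ∀ᶠ z in 𝓝 (0 : E), Λ (φ.symm z) ≠ 0 → ∀ᶠ w in 𝓝 (γ (Λ (φ.symm z))),
            (∀ j : {j // j ∈ J}, F j w = 0) → w ∈ γ '' ball (0 : ℂ) r :=
          (hΛt.comp hφst).eventually hopen
        filter_upwards [h1, eventually_eventually_nhds.2 hPFJ, hφtg] with z h1 h2 h3 hz hz0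
        obtain ⟨w, ⟨t, ht, rfl⟩, rfl⟩ := hz
        obtain ⟨⟨a1, -⟩, a2, -⟩ := hball t ht
        rw [φ.left_inv a1, a2] at h1
        have ht0 : t ≠ 0 := by
          rintro rfl
          rw [hγ0, S.hφ0] at hz0
          exact hz0 rfl
        have h4 : Tendsto φ.symm (𝓝 (φ (γ t))) (𝓝 (γ t)) := by
          have := (φ.continuousAt_symm h3).tendsto
          rwa [φ.left_inv a1] at this
        filter_upwards [h4.eventually (h1 ht0), h2, φ.open_target.mem_nhds h3] with z' b1 b2 b3 b4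
        obtain h5 := b1 fun j => (b2 j j.2).1 (b4 j)
        exact ⟨φ.symm z', h5, φ.right_inv b3⟩)
  have hσ0 : σ ≠ 0 := by rcases hσ with h | h <;> simp [h]
  have hyt : Tendsto y (𝓝 0) (𝓝 0) := by
    have := hy.continuousAt.tendsto
    rwa [hy0] at this
  have hκt : Tendsto κ (𝓝 0) (𝓝 0) := by
    have := hκc.self_of_nhds.tendsto
    rwa [hκ0] at this
  -- the inverse of `κ`
  let τ : ℂ → ℂ := fun s => Λ (φ.symm (y s))
  have hτ0 : τ 0 = 0 := by simp only [τ, hy0, S.hs0, hΛ0]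
  have hτc : ∀ᶠ s in 𝓝 (0 : ℂ), ContinuousAt τ s := by
    filter_upwards [hy.eventually_analyticAt, hyt.eventually hφtg,
      hyt.eventually (hφst.eventually hΛc)] with s a1 a2 a3
    exact ContinuousAt.comp (g := Λ) a3
      (ContinuousAt.comp (g := φ.symm) (φ.continuousAt_symm a2) a1.continuousAt)
  have hτκ : ∀ᶠ t in 𝓝 (0 : ℂ), τ (κ t) = t := by
    filter_upwards [hrel, hγt.eventually hφs, hΛ] with t a1 a2 a3
    simp only [τ, ← a1, φ.left_inv a2, a3]
  obtain ⟨ε, hε, hball2⟩ := Metric.eventually_nhds_iff_ball.1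
    (hrel.and (hτκ.and ((hγt.eventually hφs).and hΛ)))
  have hsurj := surj_of_idx hκc hκi hσ0 hε
  have hκτ : ∀ᶠ s in 𝓝 (0 : ℂ), κ (τ s) = s := by
    filter_upwards [hsurj] with s hs
    obtain ⟨t, ht, rfl⟩ := hs
    rw [(hball2 t ht).2.1]
  have hrel2 : ∀ᶠ s in 𝓝 (0 : ℂ), φ.symm (y s) = γ (τ s) := by
    filter_upwards [hsurj] with s hs
    obtain ⟨t, ht, rfl⟩ := hs
    obtain ⟨a1, a2, a3, a4⟩ := hball2 t ht
    rw [a2, ← a1, φ.left_inv a3]
  have hτt : Tendsto τ (𝓝 0) (𝓝 0) := by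
    have := hτc.self_of_nhds.tendsto
    rwa [hτ0] at this
  obtain ⟨κ₁, κ₂, hκ₁, hκ₂, hκκ⟩ := exists_idx_plane hκc hτc hκ0 hτ0 hκτ hτκ
  have hκ₁1 : κ₁ = 1 ∨ κ₁ = -1 := Int.eq_one_or_neg_one_of_mul_eq_one hκκ
  have hκ₂1 : κ₂ = 1 ∨ κ₂ = -1 := by
    rw [mul_comm] at hκκ
    exact Int.eq_one_or_neg_one_of_mul_eq_one hκκ
  refine ⟨k, y, hk, hy, hy0, hPy, hJy.mono fun s hs j hj => hs ⟨j, hj⟩, ?_⟩
  intro q
  have htop : analyticOrderAt (fun t => F q (γ t)) 0 = ⊤ ↔
      analyticOrderAt (fun s => P q (y s)) 0 = ⊤ := by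
    rw [analyticOrderAt_eq_top, analyticOrderAt_eq_top]
    constructor
    · intro h
      filter_upwards [hτt.eventually h, hrel2, hyt.eventually (S.hPF q)] with s a1 a2 a3
      apply a3.2
      rw [a2]; exact a1
    · intro h
      filter_upwards [hκt.eventually h, hrel, hγt.eventually (S.hFP q)] with t a1 a2 a3
      apply a3.2
      rw [a2]; exact a1
  by_cases hF : analyticOrderAt (fun t => F q (γ t)) 0 = ⊤
  · rw [hF, htop.1 hF]
  · have hP : analyticOrderAt (fun s => P q (y s)) 0 ≠ ⊤ := fun h => hF (htop.2 h)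
    obtain ⟨ν, hν⟩ := ENat.ne_top_iff_exists.1 hF
    obtain ⟨μ, hμ⟩ := ENat.ne_top_iff_exists.1 hP
    rw [← hν, ← hμ]
    have h3 : μ ≤ ν := gp_half (S.hFa q) (S.hPa q) (S.hFr q) (S.hPr q) φ S.h0 S.hφ0 (S.hFP q)
      hγ hγ0 hy hy0 hκc hκ0 hrel hκ₁ hκ₁1 hν.symm hμ.symm
    have h4 : ν ≤ μ := gp_half (S.hPa q) (S.hFa q) (S.hPr q) (S.hFr q) φ.symm S.h0t S.hs0
      (S.hPF q) hy hy0 hγ hγ0 hτc hτ0 hrel2 hκ₂ hκ₂1 hμ.symm hν.symm
    have : ν = μ := le_antisymm h4 h3
    rw [this]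

end Setup

end

end Vale.Agent.P268
end
end

section

section

open Set Filter Metric Topology

namespace Vale.Agent.P268

variable {E : Type*} [NormedAddCommGroup E] [NormedSpace ℂ E]

/-- index zero only depends on the zero set -/
theorem HasIdx.zero_congr {F : Type*} [TopologicalSpace F] {f f' u : F → ℂ} {p : F}
    (h : HasIdx f u p 0) (hz : ∀ᶠ z in 𝓝 p, f z = 0 → f' z = 0) : HasIdx f' u p 0 := by
  obtain ⟨w, hw⟩ := h
  refine ⟨w, ?_⟩
  filter_upwards [hw, hz] with z h1 h2 h3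
  have := h1 fun h => h3 (h2 h)
  simpa using this

open Classical in
/-- Facts on the factors of a product at a simple point. -/
theorem prod_facts {ι : Type*} [Fintype ι] {f : ι → E → ℂ} {q : E}
    (hf : ∀ i, AnalyticAt ℂ (f i) q) {i : ι} (hi : f i q = 0)
    (hd : fderiv ℂ (fun z => ∏ j, f j z) q ≠ 0) :
    (∏ j ∈ Finset.univ.erase i, f j q) ≠ 0 ∧
      HasIdx (fun z => ∏ j, f j z) (f i) q 1 := by
  have hprod : ∀ z, ∏ j, f j z = f i z * ∏ j ∈ Finset.univ.erase i, f j z := fun z =>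
    (Finset.mul_prod_erase _ _ (Finset.mem_univ i)).symm
  have hran : AnalyticAt ℂ (fun z => ∏ j ∈ Finset.univ.erase i, f j z) q :=
    Finset.analyticAt_fun_prod _ fun j _ => hf j
  have hne : (∏ j ∈ Finset.univ.erase i, f j q) ≠ 0 := by
    intro h0
    apply hd
    have h1 : HasFDerivAt (fun z => f i z * ∏ j ∈ Finset.univ.erase i, f j z)
        (f i q • fderiv ℂ (fun z => ∏ j ∈ Finset.univ.erase i, f j z) q +
          (∏ j ∈ Finset.univ.erase i, f j q) • fderiv ℂ (f i) q) q :=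
      (hf i).differentiableAt.hasFDerivAt.mul hran.differentiableAt.hasFDerivAt
    have h4 : (fun z => ∏ j, f j z) = fun z => f i z * ∏ j ∈ Finset.univ.erase i, f j z :=
      funext hprod
    rw [h4, h1.fderiv, hi, h0]
    ext v
    simp
  refine ⟨hne, ?_⟩
  have h2 : HasIdx (fun z => ∏ j, f j z) (fun z => (∏ j ∈ Finset.univ.erase i, f j z)⁻¹) q 0 := by
    apply hasIdx_zero_of_ne
    · filter_upwards [hran.eventually_analyticAt, hran.continuousAt.eventually_ne hne] with z h3 h4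
      exact h3.continuousAt.inv₀ h4
    · exact inv_ne_zero hne
  have h3 := (hasIdx_self (fun z => ∏ j, f j z) q).mul h2
  rw [add_zero] at h3
  refine h3.congr (EventuallyEq.refl _ _) ?_
  filter_upwards [hran.continuousAt.eventually_ne hne] with z hz
  rw [hprod z, mul_assoc, mul_inv_cancel₀ hz, mul_one]

/-- An ambient homeomorphism between reduced germs respects factorizations. -/
theorem exists_transfer [FiniteDimensional ℂ E] {ι : Type*} [Fintype ι] {f : ι → E → ℂ}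
    {G : E → ℂ} (hf : ∀ i, AnalyticAt ℂ (f i) 0) (hred : ReducedAt (fun z => ∏ i, f i z) 0)
    (hG : AnalyticAt ℂ G 0) (hG0 : G 0 = 0) (hGred : ReducedAt G 0)
    (φ : OpenPartialHomeomorph E E) (h0 : (0 : E) ∈ φ.source) (hφ0 : φ 0 = 0)
    (hz : ∀ᶠ z in 𝓝 (0 : E), (∏ i, f i z = 0 ↔ G (φ z) = 0)) :
    ∃ g : ι → E → ℂ, (∀ i, AnalyticAt ℂ (g i) 0) ∧
      (∀ i, ∀ᶠ z in 𝓝 (0 : E), f i z = 0 ↔ g i (φ z) = 0) ∧
      ∃ u : E → ℂ, AnalyticAt ℂ u 0 ∧ u 0 ≠ 0 ∧ ∀ᶠ p in 𝓝 (0 : E), G p = (∏ i, g i p) * u p := by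
  classical
  have : CompleteSpace E := FiniteDimensional.complete ℂ E
  set F : E → ℂ := fun z => ∏ i, f i z with hF
  have hFan : AnalyticAt ℂ F 0 := Finset.analyticAt_fun_prod _ fun j _ => hf j
  have hφc : ContinuousAt φ 0 := φ.continuousAt h0
  have h0t : (0 : E) ∈ φ.target := by rw [← hφ0]; exact φ.map_source h0
  have hφs0 : φ.symm 0 = 0 := by rw [← hφ0]; rw [φ.left_inv h0]; exact hφ0.symm ▸ rfl
  have hφt : Tendsto φ (𝓝 0) (𝓝 0) := by
    have := hφc.tendsto; rwa [hφ0] at this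
  have hφst : Tendsto φ.symm (𝓝 0) (𝓝 0) := by
    have := (φ.continuousAt_symm h0t).tendsto; rwa [hφs0] at this
  -- source facts
  have hS : ∀ᶠ q in 𝓝 (0 : E), q ∈ φ.source ∧ (∀ i, AnalyticAt ℂ (f i) q) ∧
      (∀ᶠ z in 𝓝 q, (F z = 0 ↔ G (φ z) = 0)) ∧
      (∀ i, f i q = 0 → ∃ᶠ q' in 𝓝 q, f i q' = 0 ∧ fderiv ℂ F q' ≠ 0) ∧
      AnalyticAt ℂ G (φ q) := by
    have hsrc : ∀ᶠ q in 𝓝 (0 : E), q ∈ φ.source := φ.open_source.mem_nhds h0
    refine hsrc.and
      ((Filter.eventually_all.2 fun i => (hf i).eventually_analyticAt).and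
      ((eventually_eventually_nhds.2 hz).and
      ((Filter.eventually_all.2 fun i => ?_).and (hφt.eventually hG.eventually_analyticAt))))
    apply frequently_simple hFan (hf i) hred
    refine Eventually.of_forall fun z hzz => ?_
    exact Finset.prod_eq_zero (Finset.mem_univ i) hzz
  have hS2 : ∀ᶠ q in 𝓝 (0 : E), ∀ᶠ q' in 𝓝 q, q' ∈ φ.source ∧ (∀ i, AnalyticAt ℂ (f i) q') ∧
      (∀ᶠ z in 𝓝 q', (F z = 0 ↔ G (φ z) = 0)) ∧
      (∀ i, f i q' = 0 → ∃ᶠ q'' in 𝓝 q', f i q'' = 0 ∧ fderiv ℂ F q'' ≠ 0) ∧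
      AnalyticAt ℂ G (φ q') := eventually_eventually_nhds.2 hS
  -- target facts
  have hT : ∀ᶠ p in 𝓝 (0 : E), p ∈ φ.target ∧ ∀ᶠ q' in 𝓝 (φ.symm p), q' ∈ φ.source ∧
      (∀ i, AnalyticAt ℂ (f i) q') ∧
      (∀ᶠ z in 𝓝 q', (F z = 0 ↔ G (φ z) = 0)) ∧
      (∀ i, f i q' = 0 → ∃ᶠ q'' in 𝓝 q', f i q'' = 0 ∧ fderiv ℂ F q'' ≠ 0) ∧
      AnalyticAt ℂ G (φ q') := by
    have htgt : ∀ᶠ p in 𝓝 (0 : E), p ∈ φ.target := φ.open_target.mem_nhds h0t
    exact htgt.and (hφst.eventually hS2)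
  -- zero sets
  have hzero : ∀ p, p ∈ φ.target → (∀ᶠ z in 𝓝 (φ.symm p), (F z = 0 ↔ G (φ z) = 0)) →
      ∀ᶠ r in 𝓝 p, (F (φ.symm r) = 0 ↔ G r = 0) := by
    intro p hp h
    filter_upwards [(φ.continuousAt_symm hp).eventually h, φ.open_target.mem_nhds hp] with r h1 h2
    rwa [φ.right_inv h2] at h1
  have hFi : ∀ i z, f i z = 0 → F z = 0 := fun i z h => Finset.prod_eq_zero (Finset.mem_univ i) h
  -- index facts
  have hidx : ∀ p, p ∈ φ.target → (∀ i, AnalyticAt ℂ (f i) (φ.symm p)) →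
      (∀ᶠ z in 𝓝 (φ.symm p), (F z = 0 ↔ G (φ z) = 0)) →
      (∀ i, f i (φ.symm p) = 0 → ∃ᶠ q' in 𝓝 (φ.symm p), f i q' = 0 ∧ fderiv ℂ F q' ≠ 0) →
      AnalyticAt ℂ G p → G p = 0 → fderiv ℂ G p ≠ 0 → ∀ i,
      ∃ k : ℤ, HasIdx G (f i ∘ φ.symm) p k ∧ (f i (φ.symm p) = 0 → k ≠ 0) := by
    intro p hp hfi hzz hfreq hGp hGp0 hdG i
    have hcs : ∀ᶠ r in 𝓝 p, ContinuousAt φ.symm r := by
      filter_upwards [φ.open_target.mem_nhds hp] with r hr using φ.continuousAt_symm hr
    have hcfi : ∀ᶠ r in 𝓝 p, ContinuousAt (f i ∘ φ.symm) r := by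
      filter_upwards [hcs, (φ.continuousAt_symm hp).eventually (hfi i).eventually_analyticAt]
        with r h1 h2
      exact ContinuousAt.comp h2.continuousAt h1
    obtain ⟨k, hk⟩ := exists_idx (u := f i ∘ φ.symm) hGp hGp0 hdG (hcfi.mono fun r hr _ => hr) (by
      filter_upwards [hzero p hp hzz] with r hr hGr h1
      exact hGr (hr.1 (hFi i _ h1)))
    refine ⟨k, hk, ?_⟩
    rintro hi0 rfl
    set q := φ.symm p with hq
    have hqs : q ∈ φ.source := φ.map_target hp
    have hφq : φ q = p := φ.right_inv hp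
    have hcφ : ∀ᶠ z in 𝓝 q, ContinuousAt φ z := by
      filter_upwards [φ.open_source.mem_nhds hqs] with z hz using φ.continuousAt hz
    rw [← hφq] at hk
    have h1 := hk.comp hcφ
    have h2 : HasIdx F (f i) q 0 := by
      refine (h1.zero_congr (f' := F) ?_).congr (EventuallyEq.refl _ _) ?_
      · filter_upwards [hzz] with z hz1 hz2 using hz1.2 hz2
      · filter_upwards [φ.open_source.mem_nhds hqs] with z hz3
        simp [φ.left_inv hz3]
    have h3 : ∀ᶠ q' in 𝓝 q, HasIdx F (f i) q' 0 ∧ ∀ j, AnalyticAt ℂ (f j) q' :=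
      h2.eventually.and (Filter.eventually_all.2 fun j => (hfi j).eventually_analyticAt)
    obtain ⟨q', ⟨hq1, hq2⟩, hq3, hq4⟩ := ((hfreq i hi0).and_eventually h3).exists
    have h4 := (prod_facts hq4 hq1 hq2).2
    have hFq' : AnalyticAt ℂ F q' := Finset.analyticAt_fun_prod _ fun j _ => hq4 j
    have := hq3.unique hFq' (hFi i q' hq1) (not_eventually_zero hq2) h4
    exact absurd this (by norm_num)
  have key := comp_factor hG hG0 hGred (B := fun i => {p | p ∈ φ.target ∧ f i (φ.symm p) = 0})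
    ?_ ?_ ?_ ?_ ?_
  · obtain ⟨g, hgan, hgiff, u, hu, hu0, hfac⟩ := key
    refine ⟨g, hgan, fun i => ?_, u, hu, hu0, hfac⟩
    filter_upwards [hφt.eventually (hgiff i), φ.open_source.mem_nhds h0] with z h1 h2
    rw [h1]
    simp only [φ.left_inv h2, and_iff_right (φ.map_source h2)]
  · -- H1
    filter_upwards [hT] with p hp
    obtain ⟨hp1, hp2⟩ := hp
    have h1 := (hzero p hp1 hp2.self_of_nhds.2.2.1).self_of_nhds
    rw [← h1]
    simp only [hp1, true_and, hF, Finset.prod_eq_zero_iff, Finset.mem_univ]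
  · -- H2
    intro i
    filter_upwards [hT] with p hp hfreq
    obtain ⟨hp1, hp2⟩ := hp
    refine ⟨hp1, ?_⟩
    by_contra hne
    have hc : ContinuousAt (f i ∘ φ.symm) p :=
      ContinuousAt.comp (hp2.self_of_nhds.2.1 i).continuousAt (φ.continuousAt_symm hp1)
    exact hfreq ((hc.eventually_ne hne).mono fun q hq h => hq h.2)
  · -- H3
    intro i
    filter_upwards [hT] with p hp hdG hpB
    obtain ⟨hp1, hp2⟩ := hp
    obtain ⟨a1, a2, a3, a4, a5⟩ := hp2.self_of_nhds
    rw [φ.right_inv hp1] at a5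
    have hGp : G p = 0 := (hzero p hp1 a3).self_of_nhds.1 (hFi i _ hpB.2)
    obtain ⟨k, hk, hk0⟩ := hidx p hp1 a2 a3 a4 a5 hGp hdG i
    have hk0' := hk0 hpB.2
    have hd' : ∀ᶠ r in 𝓝 p, fderiv ℂ G r ≠ 0 := a5.fderiv.continuousAt.eventually_ne hdG
    have hcont : ∀ᶠ r in 𝓝 p, ContinuousAt (f i ∘ φ.symm) r := by
      filter_upwards [φ.open_target.mem_nhds hp1,
        (φ.continuousAt_symm hp1).eventually (a2 i).eventually_analyticAt] with r h1 h2
      exact ContinuousAt.comp h2.continuousAt (φ.continuousAt_symm h1)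
    filter_upwards [hk.eventually, hd', a5.eventually_analyticAt, eventually_eventually_nhds.2 hcont,
      φ.open_target.mem_nhds hp1] with r b1 b2 b3 b4 b5 hGr
    refine ⟨b5, ?_⟩
    by_contra hne
    have h2 : HasIdx G (f i ∘ φ.symm) r 0 := hasIdx_zero_of_ne b4 hne
    exact hk0' (b1.unique b3 hGr (not_eventually_zero b2) h2)
  · -- H4
    intro i j
    filter_upwards [hT] with p hp hdG hpi hpj
    obtain ⟨hp1, hp2⟩ := hp
    obtain ⟨a1, a2, a3, a4, a5⟩ := hp2.self_of_nhds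
    rw [φ.right_inv hp1] at a5
    by_contra hij
    have hGp : G p = 0 := (hzero p hp1 a3).self_of_nhds.1 (hFi i _ hpi.2)
    obtain ⟨k, hk, hk0⟩ := hidx p hp1 a2 a3 a4 a5 hGp hdG j
    have hk0' := hk0 hpj.2
    have hd' : ∀ᶠ r in 𝓝 p, fderiv ℂ G r ≠ 0 := a5.fderiv.continuousAt.eventually_ne hdG
    have hcont : ∀ᶠ r in 𝓝 p, ContinuousAt (f j ∘ φ.symm) r := by
      filter_upwards [φ.open_target.mem_nhds hp1,
        (φ.continuousAt_symm hp1).eventually (a2 j).eventually_analyticAt] with r h1 h2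
      exact ContinuousAt.comp h2.continuousAt (φ.continuousAt_symm h1)
    have hjv : ∀ᶠ r in 𝓝 p, G r = 0 → f j (φ.symm r) = 0 := by
      filter_upwards [hk.eventually, hd', a5.eventually_analyticAt,
        eventually_eventually_nhds.2 hcont] with r b1 b2 b3 b4 hGr
      by_contra hne
      have h2 : HasIdx G (f j ∘ φ.symm) r 0 := hasIdx_zero_of_ne b4 hne
      exact hk0' (b1.unique b3 hGr (not_eventually_zero b2) h2)
    have hcφ : ContinuousAt φ (φ.symm p) := φ.continuousAt a1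
    rw [ContinuousAt, φ.right_inv hp1] at hcφ
    obtain ⟨q', ⟨c1, c2⟩, c3, c4, c5, c6⟩ := ((a4 i hpi.2).and_eventually
      ((hcφ.eventually hjv).and (a3.and ((Filter.eventually_all.2 fun l =>
        (a2 l).eventually_analyticAt).and (φ.open_source.mem_nhds a1))))).exists
    rw [φ.left_inv c6] at c3
    have h5 := c3 (c4.1 (hFi i _ c1))
    exact (prod_facts c5 c1 c2).1 (Finset.prod_eq_zero
      (Finset.mem_erase.2 ⟨Ne.symm hij, Finset.mem_univ j⟩) h5)
  · -- H5
    intro i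
    filter_upwards [hT] with p hp hpi
    obtain ⟨hp1, hp2⟩ := hp
    obtain ⟨a1, a2, a3, a4, a5⟩ := hp2.self_of_nhds
    have hcφ : ContinuousAt φ (φ.symm p) := φ.continuousAt a1
    rw [ContinuousAt, φ.right_inv hp1] at hcφ
    refine hcφ.frequently ?_
    refine ((a4 i hpi.2).and_eventually ((eventually_eventually_nhds.2 a3).and
      ((Filter.eventually_all.2 fun l => (a2 l).eventually_analyticAt).and
        (φ.open_source.mem_nhds a1)))).mono ?_
    rintro q' ⟨⟨c1, c2⟩, c4, c5, c6⟩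
    have hne := (prod_facts c5 c1 c2).1
    have hran : AnalyticAt ℂ (fun z => ∏ j ∈ Finset.univ.erase i, f j z) q' :=
      Finset.analyticAt_fun_prod _ fun j _ => c5 j
    refine ⟨⟨φ.map_source c6, by rw [φ.left_inv c6]; exact c1⟩, ?_⟩
    have hcs : ContinuousAt φ.symm (φ q') := φ.continuousAt_symm (φ.map_source c6)
    rw [ContinuousAt, φ.left_inv c6] at hcs
    filter_upwards [hcs.eventually c4, hcs.eventually (hran.continuousAt.eventually_ne hne),
      φ.open_target.mem_nhds (φ.map_source c6)] with r d1 d2 d3 hGr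
    refine ⟨d3, ?_⟩
    rw [φ.right_inv d3] at d1
    have hF0 : F (φ.symm r) = 0 := d1.2 hGr
    rw [hF] at hF0
    simp only at hF0
    rw [← Finset.mul_prod_erase _ _ (Finset.mem_univ i)] at hF0
    exact (mul_eq_zero.1 hF0).resolve_right d2

end Vale.Agent.P268
end
end

section

section

/-!
Star configurations: a form of low degree which vanishes on all the lines cut out by an
arrangement of hyperplanes in general position is zero.
-/

namespace Vale.Agent.P268

open Module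

variable {E : Type*} [AddCommGroup E] [Module ℂ E]

theorem exists_mem_ker_ne {ι : Type*} (a : ι → Dual ℂ E) (J : Finset ι)
    {c : Dual ℂ E} (hc : c ∉ Submodule.span ℂ (a '' (J : Set ι))) :
    ∃ x, x ∈ (⨅ j : J, LinearMap.ker (a j)) ∧ c x ≠ 0 := by
  classical
  by_contra hcon
  push Not at hcon
  apply hc
  have h1 : ⨅ j : J, LinearMap.ker (a j) ≤ LinearMap.ker c := fun x hx => hcon x hx
  have h2 := mem_span_of_iInf_ker_le_ker h1
  have h3 : Set.range (fun j : J => a j) = a '' (J : Set ι) := by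
    ext y; simp
  rwa [h3] at h2

theorem star_aux {M d N : ℕ} (a : Fin M → Dual ℂ E)
    (hgen : ∀ s : Finset (Fin M), s.card ≤ N → LinearIndepOn ℂ a (s : Set (Fin M)))
    (hM : d + N ≤ M + 1)
    (D : E → ℂ) (hD : ∀ w u : E, ∃ P : Polynomial ℂ, P.natDegree ≤ d ∧
      ∀ s : ℂ, D (w + s • u) = P.eval s)
    (h : ∀ J : Finset (Fin M), J.card = N - 1 → ∀ v, (∀ j ∈ J, a j v = 0) → D v = 0) (q : ℕ) :
    ∀ J : Finset (Fin M), J.card + q = N - 1 → ∀ v, (∀ j ∈ J, a j v = 0) → D v = 0 := by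
  classical
  induction q with
  | zero => intro J hJ; exact h J (by simpa using hJ)
  | succ q ih =>
    intro J hJ w hw
    by_cases hex : ∃ i, i ∉ J ∧ a i w = 0
    · obtain ⟨i, hi, hiw⟩ := hex
      refine ih (insert i J) ?_ w ?_
      · rw [Finset.card_insert_of_notMem hi]; omega
      · intro j hj
        rcases Finset.mem_insert.1 hj with rfl | hj
        · exact hiw
        · exact hw j hj
    push Not at hex
    -- choose a generic direction
    let T : Finset (Fin M) := Finset.univ \ J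
    have hT : ∀ i, i ∈ T ↔ i ∉ J := by intro i; simp [T]
    have hspan1 : ∀ i ∈ T, a i ∉ Submodule.span ℂ (a '' (J : Set (Fin M))) := by
      intro i hi
      have h1 := hgen (insert i J) (by
        rw [Finset.card_insert_of_notMem ((hT i).1 hi)]; omega)
      rw [Finset.coe_insert, linearIndepOn_insert (by simpa using (hT i).1 hi)] at h1
      exact h1.2
    have hspan2 : ∀ i ∈ T, ∀ j ∈ T, i ≠ j → (a i w) • a j - (a j w) • a i ∉
        Submodule.span ℂ (a '' (J : Set (Fin M))) := by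
      intro i hi j hj hij hmem
      have hij' : i ∉ insert j J := by
        rw [Finset.mem_insert, not_or]
        exact ⟨hij, (hT i).1 hi⟩
      have h1 := hgen (insert i (insert j J)) (by
        rw [Finset.card_insert_of_notMem hij', Finset.card_insert_of_notMem ((hT j).1 hj)]; omega)
      rw [Finset.coe_insert, linearIndepOn_insert (by simpa using hij')] at h1
      apply h1.2
      have hjw : a j w ≠ 0 := hex j ((hT j).1 hj)
      have e1 : a i = (a j w)⁻¹ • ((a i w) • a j) -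
          (a j w)⁻¹ • ((a i w) • a j - (a j w) • a i) := by
        rw [smul_sub, smul_smul (a j w)⁻¹ (a j w), inv_mul_cancel₀ hjw, one_smul]
        abel
      rw [e1]
      apply Submodule.sub_mem
      · apply Submodule.smul_mem
        apply Submodule.smul_mem
        apply Submodule.subset_span
        exact ⟨j, by simp, rfl⟩
      · apply Submodule.smul_mem
        refine Submodule.span_mono ?_ hmem
        apply Set.image_mono
        intro x hx
        simp only [Finset.coe_insert, Set.mem_insert_iff]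
        exact Or.inr hx
    -- the family of functionals
    let I1 := {i : Fin M // i ∈ T}
    let I2 := {p : Fin M × Fin M // p.1 ∈ T ∧ p.2 ∈ T ∧ p.1 ≠ p.2}
    let F : I1 ⊕ I2 → Dual ℂ E := Sum.elim (fun i => a i.1)
      (fun p => (a p.1.1 w) • a p.1.2 - (a p.1.2 w) • a p.1.1)
    obtain ⟨u, hu, hFu⟩ := Module.Dual.exists_forall_mem_ne_zero_of_forall_exists
      (⨅ j : J, LinearMap.ker (a j)) F (by
        rintro (i | p)
        · exact exists_mem_ker_ne a J (hspan1 i.1 i.2)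
        · exact exists_mem_ker_ne a J (hspan2 p.1.1 p.2.1 p.1.2 p.2.2.1 p.2.2.2))
    have hu' : ∀ j ∈ J, a j u = 0 := by
      intro j hj
      have := (Submodule.mem_iInf _).1 hu ⟨j, hj⟩
      simpa using this
    have hau : ∀ i ∈ T, a i u ≠ 0 := fun i hi => hFu (Sum.inl ⟨i, hi⟩)
    have hpair : ∀ i ∈ T, ∀ j ∈ T, i ≠ j → a i w * a j u - a j w * a i u ≠ 0 := by
      intro i hi j hj hij
      have := hFu (Sum.inr ⟨(i, j), hi, hj, hij⟩)
      simpa [F] using this
    obtain ⟨P, hPd, hP⟩ := hD w u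
    -- the roots
    let ρ : Fin M → ℂ := fun i => - (a i w) / a i u
    have hroot : ∀ i ∈ T, P.eval (ρ i) = 0 := by
      intro i hi
      rw [← hP]
      refine ih (insert i J) ?_ _ ?_
      · rw [Finset.card_insert_of_notMem ((hT i).1 hi)]; omega
      · intro j hj
        rcases Finset.mem_insert.1 hj with rfl | hj
        · simp only [map_add, map_smul, smul_eq_mul, ρ]
          field_simp [hau j hi]
          ring
        · simp [hw j hj, hu' j hj]
    have hinj : Set.InjOn ρ (T : Set (Fin M)) := by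
      intro i hi j hj hij
      by_contra hne
      apply hpair i hi j hj hne
      have h1 := hau i hi
      have h2 := hau j hj
      simp only [ρ] at hij
      rw [div_eq_div_iff h1 h2] at hij
      linear_combination -hij
    have hcard : d < T.card := by
      have h1 : T.card = M - J.card := by
        simp only [T]
        rw [Finset.card_sdiff_of_subset (Finset.subset_univ J), Finset.card_univ, Fintype.card_fin]
      rw [h1]; omega
    have hP0 : P = 0 := by
      by_contra hne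
      have h1 : (T.image ρ).val ⊆ P.roots := by
        intro x hx
        have hx' : x ∈ T.image ρ := hx
        rw [Finset.mem_image] at hx'
        obtain ⟨i, hi, rfl⟩ := hx'
        rw [Polynomial.mem_roots hne]
        exact hroot i hi
      have h2 : (T.image ρ).card = T.card := Finset.card_image_of_injOn hinj
      have h3 : (T.image ρ).card ≤ P.natDegree := by
        have h4 : (T.image ρ) ⊆ P.roots.toFinset := by
          intro x hx
          rw [Multiset.mem_toFinset]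
          exact h1 hx
        calc (T.image ρ).card ≤ P.roots.toFinset.card := Finset.card_le_card h4
          _ ≤ Multiset.card P.roots := Multiset.toFinset_card_le _
          _ ≤ P.natDegree := Polynomial.card_roots' P
      omega
    have := hP 0
    rw [hP0] at this
    simpa using this

/-- The star lemma. -/
theorem star {M d N : ℕ} (a : Fin M → Dual ℂ E)
    (hgen : ∀ s : Finset (Fin M), s.card ≤ N → LinearIndepOn ℂ a (s : Set (Fin M)))
    (hM : d + N ≤ M + 1)
    (D : E → ℂ) (hD : ∀ w u : E, ∃ P : Polynomial ℂ, P.natDegree ≤ d ∧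
      ∀ s : ℂ, D (w + s • u) = P.eval s)
    (h : ∀ J : Finset (Fin M), J.card = N - 1 → ∀ v, (∀ j ∈ J, a j v = 0) → D v = 0) (v : E) :
    D v = 0 :=
  star_aux a hgen hM D hD h (N - 1) ∅ (by simp) v (by simp)

/-- The restriction of a form of degree `d` to a line is a polynomial of degree at most `d`. -/
theorem multilinear_line {d : ℕ} (D : MultilinearMap ℂ (fun _ : Fin d => E) ℂ) (w u : E) :
    ∃ P : Polynomial ℂ, P.natDegree ≤ d ∧ ∀ s : ℂ, D (fun _ => w + s • u) = P.eval s := by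
  classical
  refine ⟨∑ A : Finset (Fin d), Polynomial.C (D (A.piecewise (fun _ => u) (fun _ => w))) *
    Polynomial.X ^ A.card, ?_, ?_⟩
  · apply Polynomial.natDegree_sum_le_of_forall_le
    intro A _
    refine (Polynomial.natDegree_C_mul_X_pow_le _ _).trans ?_
    have := Finset.card_le_univ A
    simpa using this
  · intro s
    have h1 : (fun _ : Fin d => w + s • u) = (fun _ => s • u) + (fun _ => w) := by
      ext i; simp [add_comm]
    rw [h1, MultilinearMap.map_add_univ, Polynomial.eval_finsetSum]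
    apply Finset.sum_congr rfl
    intro A _
    have h2 : A.piecewise (fun _ : Fin d => s • u) (fun _ => w) =
        A.piecewise (fun i => (fun _ : Fin d => s) i • (A.piecewise (fun _ => u) (fun _ => w)) i)
          (A.piecewise (fun _ => u) (fun _ => w)) := by
      ext i
      by_cases hi : i ∈ A
      · simp [hi]
      · simp [hi]
    rw [h2, MultilinearMap.map_piecewise_smul, Finset.prod_const, Polynomial.eval_mul,
      Polynomial.eval_C, Polynomial.eval_pow, Polynomial.eval_X, smul_eq_mul, mul_comm]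

end Vale.Agent.P268
end
end

section

section

/-!
Theorem T.
-/

namespace Vale.Agent.P268

open Set Filter Metric Topology Module

variable {E : Type*} [NormedAddCommGroup E] [NormedSpace ℂ E] [FiniteDimensional ℂ E]

theorem Red.reducedAt {f : E → ℂ} (h : Red f) : ReducedAt f 0 :=
  fun a b ha hb ha0 hab => h.2.2 a b ha hb ha0 hab

theorem IsOrd.mult_eq {f : E → ℂ} {k : ℕ} (h : IsOrd f k) : mult f = k :=
  h.sInf_eq

theorem isOrd_mult {f : E → ℂ} (hf : AnalyticAt ℂ f 0) (h : ReducedAt f 0) :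
    IsOrd f (mult f) := by
  obtain ⟨k, hk⟩ := Vale.Agent.P268.exists_isOrd hf h.not_eventually_zero
  rwa [hk.mult_eq]

theorem AmbHomeo.exists_homeo {f g : E → ℂ} (h : AmbHomeo f g) :
    ∃ φ : OpenPartialHomeomorph E E, 0 ∈ φ.source ∧ φ 0 = 0 ∧
      ∀ᶠ z in 𝓝 0, (f z = 0 ↔ g (φ z) = 0) := by
  obtain ⟨φ, h0, hφ0, himg⟩ := h
  refine ⟨φ, h0, hφ0, ?_⟩
  filter_upwards [φ.open_source.mem_nhds h0] with z hz
  constructor
  · intro hf
    have : φ z ∈ φ '' ({z | f z = 0} ∩ φ.source) := ⟨z, ⟨hf, hz⟩, rfl⟩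
    rw [himg] at this
    exact this.1
  · intro hg
    have : φ z ∈ {z | g z = 0} ∩ φ.target := ⟨hg, φ.map_source hz⟩
    rw [← himg] at this
    obtain ⟨w, ⟨hw1, hw2⟩, hw3⟩ := this
    rw [← φ.injOn hw2 hz hw3]
    exact hw1

theorem AmbHomeo.symm {f g : E → ℂ} (h : AmbHomeo f g) : AmbHomeo g f := by
  obtain ⟨φ, h0, hφ0, himg⟩ := h
  have h0t : (0 : E) ∈ φ.target := by
    have := φ.map_source h0
    rwa [hφ0] at this
  refine ⟨φ.symm, h0t, ?_, ?_⟩
  · have := φ.left_inv h0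
    rwa [hφ0] at this
  · rw [φ.symm_source, φ.symm_target, ← himg]
    ext z
    constructor
    · rintro ⟨w, ⟨x, ⟨hx1, hx2⟩, rfl⟩, rfl⟩
      rw [φ.left_inv hx2]
      exact ⟨hx1, hx2⟩
    · rintro ⟨hz1, hz2⟩
      exact ⟨φ z, ⟨z, ⟨hz1, hz2⟩, rfl⟩, φ.left_inv hz2⟩

/-- The setup for a product decomposition and an ambient homeomorphism. -/
theorem exists_setup {ι : Type*} [Fintype ι] {F : ι → E → ℂ}
    {f g : E → ℂ} (hf : Red f) (hg : Red g) (hfg : AmbHomeo f g)
    (hFa : ∀ i, AnalyticAt ℂ (F i) 0) (hF0 : ∀ i, F i 0 = 0)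
    (hfF : ∀ᶠ z in 𝓝 0, f z = ∏ i, F i z) :
    ∃ (P : ι → E → ℂ) (u : E → ℂ)
      (φ : OpenPartialHomeomorph E E), Setup F P u φ ∧
      (∀ᶠ z in 𝓝 0, g z = (∏ i, P i z) * u z) := by
  classical
  obtain ⟨φ, h0, hφ0, hz⟩ := hfg.exists_homeo
  have hFr : ReducedAt (fun z => ∏ i, F i z) 0 := by
    refine hf.reducedAt.of_mul (h := fun _ => 1) analyticAt_const ?_
    filter_upwards [hfF] with z hz
    rw [hz, mul_one]
  obtain ⟨P, hPa, hFP, u, hua, hu0, hgP⟩ := exists_transfer hFa hFr hg.1 hg.2.1 hg.reducedAt φ h0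
    hφ0 (by filter_upwards [hz, hfF] with z h1 h2; rw [← h2]; exact h1)
  refine ⟨P, u, φ, ⟨hFa, hF0, ?_, hPa, ?_, h0, hφ0, hua, hu0, hFP⟩, hgP⟩
  · intro i
    exact hf.reducedAt.factor (u := fun _ => 1) hFa analyticAt_const
      (by filter_upwards [hfF] with z hz; rw [hz, mul_one]) i
  · intro i
    exact hg.reducedAt.factor hPa hua hgP i

/-- Theorem T. -/
theorem theoremT {f g : E → ℂ} (hf : Red f) (hg : Red g)
    (hfg : AmbHomeo f g) (hT : ClassT f) : mult g ≤ mult f := by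
  classical
  obtain ⟨r, F, hF, hfF, hcurve⟩ := hT
  obtain ⟨P, u, φ, S, hgP⟩ := exists_setup hf hg hfg (fun i => (hF i).1) (fun i => (hF i).2) hfF
  have hPo : ∀ i, IsOrd (P i) (mult (P i)) := fun i => isOrd_mult (S.hPa i) (S.hPr i)
  have hFo : ∀ i, IsOrd (F i) (mult (F i)) := fun i => isOrd_mult (S.hFa i) (S.hFr i)
  have hle : ∀ i, mult (P i) ≤ mult (F i) := by
    intro q
    obtain ⟨J, i, γ, hγ, hγ0, hγd, h1, h2, hν⟩ := hcurve q
    obtain ⟨k, y, -, hy, hy0, -, -, hord⟩ := S.twin hγ hγ0 hγd h1 h2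
    have h3 := le_order_curve (S.hPa q) hy hy0 (hPo q).1
    rw [← hord q, hν] at h3
    exact_mod_cast h3
  have h1 : mult f = ∑ i, mult (F i) := by
    apply IsOrd.mult_eq
    refine (IsOrd.prod Finset.univ (fun i _ => S.hFa i) (fun i _ => hFo i)).congr ?_
    filter_upwards [hfF] with z hz using hz.symm
  have h2 : mult g = ∑ i, mult (P i) := by
    apply IsOrd.mult_eq
    have h3 := (IsOrd.prod Finset.univ (fun i _ => S.hPa i) (fun i _ => hPo i)).mul
      (Finset.analyticAt_fun_prod _ fun j _ => S.hPa j) S.hua (isOrd_zero S.hu0)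
    rw [add_zero] at h3
    refine h3.congr ?_
    filter_upwards [hgP] with z hz using hz.symm
  rw [h1, h2]
  exact Finset.sum_le_sum fun i _ => hle i

theorem theoremT_eq {f g : E → ℂ} (hf : Red f) (hg : Red g)
    (hfg : AmbHomeo f g) (hT : ClassT f) (hT' : ClassT g) : mult f = mult g :=
  le_antisymm (theoremT hg hf hfg.symm hT') (theoremT hf hg hfg hT)

end Vale.Agent.P268
end
end

section

section

/-!
Theorem Z.
-/

namespace Vale.Agent.P268

open Set Filter Metric Topology Module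

theorem eventually_fderiv_apply_zero {E : Type*} [NormedAddCommGroup E] [NormedSpace ℂ E]
    {f : E → ℂ} (hf : AnalyticAt ℂ f 0) {γ : ℂ → E} (hγ : AnalyticAt ℂ γ 0) (hγ0 : γ 0 = 0)
    (h : ∀ᶠ t in 𝓝 (0 : ℂ), f (γ t) = 0) : fderiv ℂ f 0 (deriv γ 0) = 0 := by
  have h3 : HasDerivAt (fun t => f (γ t)) (fderiv ℂ f (γ 0) (deriv γ 0)) 0 :=
    (by rw [hγ0]; exact hf.differentiableAt.hasFDerivAt :
      HasFDerivAt f (fderiv ℂ f (γ 0)) (γ 0)).comp_hasDerivAt 0 hγ.differentiableAt.hasDerivAt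
  have h4 : (fun t => f (γ t)) =ᶠ[𝓝 0] fun _ => 0 := h
  have h5 := h3.deriv
  rw [h4.deriv_eq] at h5
  rw [hγ0] at h5
  simpa using h5.symm

theorem eventually_fderiv_apply_one {E : Type*} [NormedAddCommGroup E] [NormedSpace ℂ E]
    {f : E → ℂ} (hf : AnalyticAt ℂ f 0) {γ : ℂ → E} (hγ : AnalyticAt ℂ γ 0) (hγ0 : γ 0 = 0)
    (h : ∀ᶠ t in 𝓝 (0 : ℂ), f (γ t) = t) : fderiv ℂ f 0 (deriv γ 0) = 1 := by
  have h3 : HasDerivAt (fun t => f (γ t)) (fderiv ℂ f (γ 0) (deriv γ 0)) 0 :=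
    (by rw [hγ0]; exact hf.differentiableAt.hasFDerivAt :
      HasFDerivAt f (fderiv ℂ f (γ 0)) (γ 0)).comp_hasDerivAt 0 hγ.differentiableAt.hasDerivAt
  have h4 : (fun t => f (γ t)) =ᶠ[𝓝 0] id := h
  have h5 := h3.deriv
  rw [h4.deriv_eq, hγ0] at h5
  simpa using h5.symm

/-- Extend a small set of indices to one with exactly `n` elements, avoiding a given element. -/
theorem exists_card_eq {M n : ℕ} {s : Finset (Fin M)} (hs : s.card ≤ n) (hn : n ≤ M) :
    ∃ t : Finset (Fin M), s ⊆ t ∧ t.card = n := by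
  obtain ⟨t, h1, -, h2⟩ := Finset.exists_subsuperset_card_eq (Finset.subset_univ s) hs
    (by simpa using hn)
  exact ⟨t, h1, h2⟩

/-- The span of the curve directions: a vector killed by `N - 1` independent functionals is a
multiple of any nonzero one. -/
theorem eq_smul_of_indep {E : Type*} [NormedAddCommGroup E] [NormedSpace ℂ E]
    [FiniteDimensional ℂ E] {ι : Type*} [DecidableEq ι] {a : ι → Dual ℂ E} {J : Finset ι} {i : ι}
    (hs : LinearIndepOn ℂ a ((insert i J : Finset ι) : Set ι))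
    (hcard : (insert i J).card = finrank ℂ E) {v w : E}
    (hw : ∀ j ∈ J, a j w = 0) (hv : ∀ j ∈ J, a j v = 0) (hiw : a i w = 1) : v = (a i v) • w := by
  rw [← sub_eq_zero]
  apply eq_zero_of_indep hs hcard
  intro j hj
  rcases Finset.mem_insert.1 hj with rfl | hj
  · simp [hiw]
  · simp [hw j hj, hv j hj]

theorem diag_smul {E : Type*} [NormedAddCommGroup E] [NormedSpace ℂ E] {k : ℕ}
    (D : ContinuousMultilinearMap ℂ (fun _ : Fin k => E) ℂ) (c : ℂ) (w : E) :
    D (fun _ => c • w) = c ^ k * D (fun _ => w) := by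
  have h := D.map_smul_univ (fun _ => c) (fun _ => w)
  simpa using h

/-- Theorem Z. -/
theorem theoremZ {E : Type*} [NormedAddCommGroup E] [NormedSpace ℂ E]
    [FiniteDimensional ℂ E] {f g : E → ℂ} (hf : Red f) (hg : Red g)
    (hfg : AmbHomeo f g) (hZ : ClassZ f) : mult g = mult f := by
  classical
  obtain ⟨r, M, F₀, l, hF₀, hl, hfl, hNM, hM, hind⟩ := hZ
  obtain ⟨N, hfin⟩ : ∃ N, finrank ℂ E = N := ⟨_, rfl⟩
  rw [hfin] at hNM
  simp only [hfin] at hM hind
  -- the index type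
  let F : Fin r ⊕ Fin M → E → ℂ := Sum.elim F₀ l
  have hFs : ∀ j, F (Sum.inr j) = l j := fun j => rfl
  have hFa : ∀ o, AnalyticAt ℂ (F o) 0 := by
    rintro (i | j)
    · exact (hF₀ i).1
    · exact (hl j).1
  have hF0 : ∀ o, F o 0 = 0 := by
    rintro (i | j)
    · exact (hF₀ i).2
    · exact (hl j).2
  have hfF : ∀ᶠ z in 𝓝 0, f z = ∏ o, F o z := by
    filter_upwards [hfl] with z hz
    rw [hz, Fintype.prod_sum_type]
    rfl
  obtain ⟨P, u, φ, S, hgP⟩ := exists_setup hf hg hfg hFa hF0 hfF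
  have hPo : ∀ i, IsOrd (P i) (mult (P i)) := fun i => isOrd_mult (S.hPa i) (S.hPr i)
  have hFo : ∀ i, IsOrd (F i) (mult (F i)) := fun i => isOrd_mult (S.hFa i) (S.hFr i)
  -- dimension is positive
  have hN : 1 ≤ N := by
    rcases Nat.eq_zero_or_pos N with rfl | h
    · exfalso
      have : Subsingleton E := finrank_zero_iff.1 hfin
      apply hf.reducedAt.not_eventually_zero
      filter_upwards with z
      rw [Subsingleton.elim z 0]
      exact hf.2.1
    · exact h
  -- functionals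
  let a : Fin M → Dual ℂ E := fun j => (fderiv ℂ (l j) 0 : E →L[ℂ] ℂ)
  have haind : ∀ s : Finset (Fin M), s.card ≤ N → LinearIndepOn ℂ a (s : Set (Fin M)) := by
    intro s hs
    have h1 := (hind s hs).map' (ContinuousLinearMap.coeLM ℂ)
      (LinearMap.ker_eq_bot.2 ContinuousLinearMap.coe_injective)
    exact h1
  let b : Fin M → Dual ℂ E :=
    fun j => (fderiv ℂ (P (Sum.inr j)) 0 : E →L[ℂ] ℂ)
  -- the curves
  have hcurves : ∀ (J : Finset (Fin M)) (i : Fin M), i ∉ J → J.card + 1 = N →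
      ∃ γ y : ℂ → E, AnalyticAt ℂ γ 0 ∧ γ 0 = 0 ∧ AnalyticAt ℂ y 0 ∧ y 0 = 0 ∧
        (∀ j ∈ J, a j (deriv γ 0) = 0) ∧ a i (deriv γ 0) = 1 ∧
        (∀ j ∈ J, b j (deriv y 0) = 0) ∧ b i (deriv y 0) = 1 ∧
        ∀ q, analyticOrderAt (fun t => F q (γ t)) 0 = analyticOrderAt (fun s => P q (y s)) 0 := by
    intro J i hi hJ
    have hcard : (insert i J).card = finrank ℂ E := by
      rw [Finset.card_insert_of_notMem hi, hfin, hJ]
    obtain ⟨γ, hγ, hγ0, hγJ, hγi, hΛ⟩ := exists_curve (l := l) hi (fun j _ => (hl j).1)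
      (fun j _ => (hl j).2) (haind _ (by rw [hcard, hfin])) hcard
    have hmem : ∀ j, j ∈ J.map Function.Embedding.inr → ∃ j' ∈ J, j = (Sum.inr j' : Fin r ⊕ Fin M) := by
      intro j hj
      obtain ⟨j', hj', rfl⟩ := Finset.mem_map.1 hj
      exact ⟨j', hj', rfl⟩
    have hai : a i (deriv γ 0) = 1 := eventually_fderiv_apply_one (hl i).1 hγ hγ0 hγi
    obtain ⟨k, y, hk, hy, hy0, hyi, hyJ, hord⟩ := S.twin (J := J.map Function.Embedding.inr)
      (i := Sum.inr i) hγ hγ0
      (by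
        intro h0
        rw [h0, map_zero] at hai
        exact zero_ne_one hai)
      (by
        filter_upwards [hγJ] with t ht j hj
        obtain ⟨j', hj', rfl⟩ := hmem j hj
        exact ht j' hj')
      (by
        filter_upwards [hΛ] with z hz hj h0
        have h1 := hz fun j hjJ => hj (Sum.inr j) (Finset.mem_map_of_mem _ hjJ)
        rw [← h1]
        rw [show l i z = 0 from h0, hγ0])
    have hk1 : k = 1 := by
      have h1 := hord (Sum.inr i)
      have h2 : (fun t => F (Sum.inr i) (γ t)) =ᶠ[𝓝 0] (id : ℂ → ℂ) := hγi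
      have h3 : (fun s => P (Sum.inr i) (y s)) =ᶠ[𝓝 0] fun s : ℂ => s ^ k := hyi
      have h4 : analyticOrderAt (fun s : ℂ => s ^ k) 0 = k := by
        have h6 : AnalyticAt ℂ (fun s : ℂ => s ^ k) 0 := by fun_prop
        rw [h6.analyticOrderAt_eq_natCast]
        refine ⟨fun _ => 1, analyticAt_const, one_ne_zero, ?_⟩
        filter_upwards with z
        simp
      rw [analyticOrderAt_congr h2, analyticOrderAt_congr h3, analyticOrderAt_id, h4] at h1
      exact_mod_cast h1.symm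
    subst hk1
    refine ⟨γ, y, hγ, hγ0, hy, hy0, ?_, hai, ?_, ?_, hord⟩
    · intro j hj
      exact eventually_fderiv_apply_zero (hl j).1 hγ hγ0 (hγJ.mono fun t ht => ht j hj)
    · intro j hj
      exact eventually_fderiv_apply_zero (S.hPa (Sum.inr j)) hy hy0
        (hyJ.mono fun t ht => ht (Sum.inr j) (Finset.mem_map_of_mem _ hj))
    · exact eventually_fderiv_apply_one (S.hPa (Sum.inr i)) hy hy0
        (hyi.mono fun s hs => by rw [hs, pow_one])
  -- every smooth component goes to a smooth component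
  have hb_ne : ∀ i, IsOrd (P (Sum.inr i)) 1 := by
    intro i
    obtain ⟨t, ht1, ht2⟩ := exists_card_eq (s := {i}) (n := N) (by simpa using hN) hNM
    have hit : i ∈ t := ht1 (Finset.mem_singleton_self i)
    obtain ⟨γ, y, -, -, -, -, -, -, -, hbi, -⟩ := hcurves (t.erase i) i
      (Finset.notMem_erase i t) (by rw [Finset.card_erase_of_mem hit, ht2]; omega)
    apply isOrd_one (S.hP0 _)
    intro h0
    have : b i (deriv y 0) = 0 := by
      change (fderiv ℂ (P (Sum.inr i)) 0) (deriv y 0) = 0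
      rw [h0]; rfl
    rw [this] at hbi
    exact zero_ne_one hbi
  -- general position on the other side
  have hbind : ∀ s : Finset (Fin M), s.card ≤ N → LinearIndepOn ℂ b (s : Set (Fin M)) := by
    intro s hs
    obtain ⟨t, ht1, ht2⟩ := exists_card_eq hs hNM
    refine LinearIndepOn.mono ?_ (Finset.coe_subset.2 ht1)
    rw [linearIndepOn_finset_iff]
    intro c hc i hi
    obtain ⟨γ, y, -, -, -, -, -, -, hbJ, hbi, -⟩ := hcurves (t.erase i) i
      (Finset.notMem_erase i t) (by rw [Finset.card_erase_of_mem hi, ht2]; omega)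
    have h1 : (∑ j ∈ t, c j • b j) (deriv y 0) = c i := by
      rw [LinearMap.sum_apply, Finset.sum_eq_single_of_mem i hi]
      · rw [LinearMap.smul_apply, hbi]; simp
      · intro j hj hji
        rw [LinearMap.smul_apply, hbJ j (Finset.mem_erase.2 ⟨hji, hj⟩), smul_zero]
    rw [hc] at h1
    exact h1.symm
  -- a complementary index
  have hcompl : ∀ J : Finset (Fin M), J.card = N - 1 → ∃ i, i ∉ J := by
    intro J hJ
    by_contra hcon
    push Not at hcon
    have : J = Finset.univ := Finset.eq_univ_of_forall hcon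
    rw [this, Finset.card_univ, Fintype.card_fin] at hJ
    omega
  -- the other components
  have hother : ∀ i₀ : Fin r, mult (P (Sum.inl i₀)) = mult (F (Sum.inl i₀)) := by
    intro i₀
    have hbound : mult (F (Sum.inl i₀)) + N ≤ M + 1 := hM i₀
    refine le_antisymm ?_ ?_
    · -- upper bound
      have hex : ∃ (J : Finset (Fin M)) (i : Fin M), i ∉ J ∧ J.card + 1 = N ∧
          ∃ w, (∀ j ∈ J, a j w = 0) ∧
            iteratedFDeriv ℂ (mult (F (Sum.inl i₀))) (F (Sum.inl i₀)) 0 (fun _ => w) ≠ 0 := by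
        by_contra hcon
        push Not at hcon
        obtain ⟨v, hv⟩ := (hFo (Sum.inl i₀)).exists_dir (S.hFa _)
        apply hv
        refine star (d := mult (F (Sum.inl i₀))) (N := N) a haind (by omega)
          (fun v => iteratedFDeriv ℂ (mult (F (Sum.inl i₀))) (F (Sum.inl i₀)) 0 (fun _ => v))
          (multilinear_line (iteratedFDeriv ℂ (mult (F (Sum.inl i₀)))
            (F (Sum.inl i₀)) 0).toMultilinearMap) ?_ v
        intro J hJ w hw
        obtain ⟨i, hi⟩ := hcompl J hJ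
        exact hcon J i hi (by omega) w hw
      obtain ⟨J, i, hi, hJ, w, hw, hDw⟩ := hex
      obtain ⟨γ, y, hγ, hγ0, hy, hy0, haJ, hai, hbJ, hbi, hord⟩ := hcurves J i hi hJ
      have hcard : (insert i J).card = finrank ℂ E := by
        rw [Finset.card_insert_of_notMem hi, hfin, hJ]
      have h1 := eq_smul_of_indep (haind _ (by rw [hcard, hfin])) hcard haJ hw hai
      have h2 : iteratedFDeriv ℂ (mult (F (Sum.inl i₀))) (F (Sum.inl i₀)) 0
          (fun _ => deriv γ 0) ≠ 0 := by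
        intro h0
        apply hDw
        rw [h1, diag_smul, h0, mul_zero]
      have h3 : analyticOrderAt (fun t => F (Sum.inl i₀) (γ t)) 0 = mult (F (Sum.inl i₀)) :=
        order_curve_eq (S.hFa _) hγ hγ0 (hFo _).1 h2
      have h4 := le_order_curve (S.hPa (Sum.inl i₀)) hy hy0 (hPo _).1
      rw [← hord (Sum.inl i₀), h3] at h4
      exact_mod_cast h4
    · -- lower bound
      by_contra hlt
      push Not at hlt
      obtain ⟨v, hv⟩ := (hPo (Sum.inl i₀)).exists_dir (S.hPa _)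
      apply hv
      refine star (d := mult (P (Sum.inl i₀))) (N := N) b hbind (by omega)
        (fun v => iteratedFDeriv ℂ (mult (P (Sum.inl i₀))) (P (Sum.inl i₀)) 0 (fun _ => v))
        (multilinear_line (iteratedFDeriv ℂ (mult (P (Sum.inl i₀)))
          (P (Sum.inl i₀)) 0).toMultilinearMap) ?_ v
      intro J hJ w hw
      obtain ⟨i, hi⟩ := hcompl J hJ
      obtain ⟨γ, y, hγ, hγ0, hy, hy0, haJ, hai, hbJ, hbi, hord⟩ := hcurves J i hi (by omega)
      have hcard : (insert i J).card = finrank ℂ E := by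
        rw [Finset.card_insert_of_notMem hi, hfin, hJ]; omega
      have h1 := eq_smul_of_indep (hbind _ (by rw [hcard, hfin])) hcard hbJ hw hbi
      have h2 : iteratedFDeriv ℂ (mult (P (Sum.inl i₀))) (P (Sum.inl i₀)) 0
          (fun _ => deriv y 0) = 0 := by
        apply leading_eq_zero_of_lt (S.hPa _) hy hy0 (hPo _).1
        rw [← hord (Sum.inl i₀)]
        refine le_trans ?_ (le_order_curve (S.hFa _) hγ hγ0 (hFo _).1)
        exact_mod_cast hlt
      rw [h1, diag_smul, h2, mul_zero]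
  -- smooth components of `f`
  have hl1 : ∀ i, IsOrd (l i) 1 := by
    intro i
    apply isOrd_one (hl i).2
    intro h0
    have h1 := haind {i} (by simpa using hN)
    rw [Finset.coe_singleton, linearIndepOn_singleton_iff] at h1
    apply h1
    ext v
    change (fderiv ℂ (l i) 0) _ = 0
    rw [h0]; rfl
  have h1 : mult f = ∑ o, mult (F o) := by
    apply IsOrd.mult_eq
    refine (IsOrd.prod Finset.univ (fun i _ => S.hFa i) (fun i _ => hFo i)).congr ?_
    filter_upwards [hfF] with z hz using hz.symm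
  have h2 : mult g = ∑ o, mult (P o) := by
    apply IsOrd.mult_eq
    have h3 := (IsOrd.prod Finset.univ (fun i _ => S.hPa i) (fun i _ => hPo i)).mul
      (Finset.analyticAt_fun_prod _ fun j _ => S.hPa j) S.hua (isOrd_zero S.hu0)
    rw [add_zero] at h3
    refine h3.congr ?_
    filter_upwards [hgP] with z hz using hz.symm
  rw [h1, h2, Fintype.sum_sum_type, Fintype.sum_sum_type]
  congr 1
  · exact Finset.sum_congr rfl fun i _ => hother i
  · refine Finset.sum_congr rfl fun i _ => ?_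
    rw [(hb_ne i).mult_eq, hFs, (hl1 i).mult_eq]

end Vale.Agent.P268
end
end

section

section

/-!
If `f` is in class T and `g` is homogeneous and ambiently homeomorphic to `f`, then `g` is in
class T.
-/

namespace Vale.Agent.P268

open Set Filter Metric Topology Module

section

variable {E : Type*} [NormedAddCommGroup E] [NormedSpace ℂ E]

/-- The leading form (up to the factor `k!`). -/
noncomputable def lead (k : ℕ) (f : E → ℂ) (v : E) : ℂ := iteratedFDeriv ℂ k f 0 (fun _ => v)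

theorem lead_smul (k : ℕ) (f : E → ℂ) (c : ℂ) (v : E) : lead k f (c • v) = c ^ k * lead k f v := by
  have h := (iteratedFDeriv ℂ k f 0).map_smul_univ (fun _ => c) (fun _ => v)
  simpa [lead] using h

theorem analyticAt_lead (k : ℕ) (f : E → ℂ) (z : E) [CompleteSpace E] : AnalyticAt ℂ (lead k f) z := by
  have h1 : AnalyticAt ℂ (fun x : E => (fun _ : Fin k => x)) z :=
    (ContinuousLinearMap.pi fun _ : Fin k => ContinuousLinearMap.id ℂ E).analyticAt z
  exact AnalyticAt.fun_comp (g := fun v : Fin k → E => iteratedFDeriv ℂ k f 0 v)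
    (f := fun x : E => (fun _ : Fin k => x))
    ((iteratedFDeriv ℂ k f 0).analyticAt (x := fun _ => z)) h1

theorem tendsto_lead {f : E → ℂ} (hf : AnalyticAt ℂ f 0) {k : ℕ}
    (h : ∀ j < k, iteratedFDeriv ℂ j f 0 = 0) (v : E) :
    Tendsto (fun t : ℂ => (t ^ k)⁻¹ * f (t • v)) (𝓝[≠] 0)
      (𝓝 ((k.factorial : ℂ)⁻¹ * lead k f v)) := by
  obtain ⟨p, r, hp⟩ := hf
  have hO := (hp.hasFPowerSeriesAt).isBigO_sub_partialSum_pow (k + 1)
  have hps : ∀ y : E, p.partialSum (k + 1) y = (k.factorial : ℂ)⁻¹ * lead k f y := by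
    intro y
    rw [FormalMultilinearSeries.partialSum, Finset.sum_range_succ]
    rw [Finset.sum_eq_zero, zero_add]
    · rw [lead, ← hp.factorial_smul y k, nsmul_eq_mul, ← mul_assoc, inv_mul_cancel₀, one_mul]
      exact_mod_cast Nat.factorial_ne_zero k
    · intro j hj
      have h3 := hp.factorial_smul y j
      rw [h j (Finset.mem_range.1 hj)] at h3
      simp only [_root_.zero_apply, smul_eq_zero, Nat.factorial_ne_zero, false_or] at h3
      exact h3
  simp only [zero_add, hps] at hO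
  have hc : Tendsto (fun t : ℂ => t • v) (𝓝 0) (𝓝 0) := by
    have : ContinuousAt (fun t : ℂ => t • v) 0 := by fun_prop
    simpa using this.tendsto
  have hO2 := hO.comp_tendsto hc
  obtain ⟨C, hC⟩ := hO2.bound
  rw [tendsto_iff_norm_sub_tendsto_zero]
  have hb : ∀ᶠ t in 𝓝[≠] (0:ℂ), ‖(t ^ k)⁻¹ * f (t • v) - (k.factorial : ℂ)⁻¹ * lead k f v‖ ≤
      (C * ‖v‖ ^ (k + 1)) * ‖t‖ := by
    rw [eventually_nhdsWithin_iff]
    filter_upwards [hC] with t h1 ht
    have ht' : t ≠ 0 := ht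
    have htp : 0 < ‖t‖ := norm_pos_iff.2 ht'
    have h2 : (t ^ k)⁻¹ * f (t • v) - (k.factorial : ℂ)⁻¹ * lead k f v =
        (t ^ k)⁻¹ * (f (t • v) - (k.factorial : ℂ)⁻¹ * lead k f (t • v)) := by
      rw [lead_smul]
      have := pow_ne_zero k ht'
      field_simp
    rw [h2, norm_mul, norm_inv, norm_pow]
    simp only [Function.comp_apply, norm_pow, norm_smul, norm_mul, norm_norm] at h1
    rw [inv_mul_le_iff₀ (pow_pos htp k)]
    calc _ ≤ C * (‖t‖ * ‖v‖) ^ (k + 1) := h1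
      _ = _ := by ring
  have hb2 : Tendsto (fun t : ℂ => (C * ‖v‖ ^ (k + 1)) * ‖t‖) (𝓝[≠] 0) (𝓝 0) := by
    have h1 : ContinuousAt (fun t : ℂ => (C * ‖v‖ ^ (k + 1)) * ‖t‖) 0 := by fun_prop
    have h2 := h1.tendsto
    simp only [norm_zero, mul_zero] at h2
    exact h2.mono_left nhdsWithin_le_nhds
  exact squeeze_zero' (Eventually.of_forall fun t => norm_nonneg _) hb hb2

/-- A homogeneous function which is not identically zero has order equal to its degree. -/
theorem isOrd_of_homog {f : E → ℂ} (hf : AnalyticAt ℂ f 0) {d : ℕ}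
    (hd : ∀ (c : ℂ) (z : E), f (c • z) = c ^ d * f z) {v : E} (hv : f v ≠ 0) : IsOrd f d := by
  have h1 : ∀ w : E, f w ≠ 0 → analyticOrderAt (fun t : ℂ => f (t • w)) 0 = d := by
    intro w hw
    rw [(analyticAt_line hf w).analyticOrderAt_eq_natCast]
    refine ⟨fun _ => f w, analyticAt_const, hw, Eventually.of_forall fun t => ?_⟩
    simp [hd]
  rw [isOrd_iff_line hf]
  refine ⟨fun w => ?_, v, h1 v hv⟩
  by_cases hw : f w = 0
  · have : (fun t : ℂ => f (t • w)) = fun _ => 0 := by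
      ext t; rw [hd, hw, mul_zero]
    rw [this]
    have h2 : analyticOrderAt (fun _ : ℂ => (0:ℂ)) 0 = ⊤ := by
      rw [analyticOrderAt_eq_top]; exact Eventually.of_forall fun _ => rfl
    rw [h2]; exact le_top
  · rw [h1 w hw]

end

section

variable {E : Type*} [NormedAddCommGroup E] [NormedSpace ℂ E] [FiniteDimensional ℂ E]

/-- If the homogeneous germ `g` is the product of the germs `P i`, then the zero set of `P i` is
the zero set of its leading form. -/
theorem cone_factor {ι : Type*} [Fintype ι] {P : ι → E → ℂ} {u g : E → ℂ}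
    (hg : Red g) {d : ℕ} (hd : ∀ (c : ℂ) (z : E), g (c • z) = c ^ d * g z)
    (hPa : ∀ i, AnalyticAt ℂ (P i) 0) (hua : AnalyticAt ℂ u 0)
    (hu0 : u 0 ≠ 0) (hgP : ∀ᶠ z in 𝓝 0, g z = (∏ i, P i z) * u z) :
    ∃ c : ℂ, c ≠ 0 ∧ (∀ z, g z = c * ∏ i, lead (mult (P i)) (P i) z) ∧
      ∀ i, ∀ᶠ z in 𝓝 0, P i z = 0 ↔ lead (mult (P i)) (P i) z = 0 := by
  classical
  have : CompleteSpace E := FiniteDimensional.complete ℂ E
  have hPr : ∀ i, ReducedAt (P i) 0 := hg.reducedAt.factor hPa hua hgP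
  have hPo : ∀ i, IsOrd (P i) (mult (P i)) := fun i => isOrd_mult (hPa i) (hPr i)
  set p : ι → E → ℂ := fun i => lead (mult (P i)) (P i) with hp
  -- the order of `g`
  have hgo : IsOrd g (∑ i, mult (P i)) := by
    have h3 := (IsOrd.prod Finset.univ (fun i _ => hPa i) (fun i _ => hPo i)).mul
      (Finset.analyticAt_fun_prod _ fun j _ => hPa j) hua (isOrd_zero hu0)
    rw [add_zero] at h3
    refine h3.congr ?_
    filter_upwards [hgP] with z hz using hz.symm
  have hdeg : d = ∑ i, mult (P i) := by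
    obtain ⟨v, hv⟩ : ∃ v, g v ≠ 0 := by
      by_contra hcon
      push Not at hcon
      exact hg.reducedAt.not_eventually_zero (Eventually.of_forall hcon)
    exact (isOrd_of_homog hg.1 hd hv).unique hgo
  set c : ℂ := u 0 * ∏ i, ((mult (P i)).factorial : ℂ)⁻¹ with hc
  have hc0 : c ≠ 0 := by
    refine mul_ne_zero hu0 (Finset.prod_ne_zero_iff.2 fun i _ => inv_ne_zero ?_)
    exact_mod_cast Nat.factorial_ne_zero _
  have hgp : ∀ z, g z = c * ∏ i, p i z := by
    intro z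
    have h1 : Tendsto (fun t : ℂ => (∏ i, ((t ^ mult (P i))⁻¹ * P i (t • z))) * u (t • z)) (𝓝[≠] 0)
        (𝓝 ((∏ i, (((mult (P i)).factorial : ℂ)⁻¹ * p i z)) * u 0)) := by
      apply Tendsto.mul
      · exact tendsto_finsetProd _ fun i _ => tendsto_lead (hPa i) (hPo i).1 z
      · have h2 : Tendsto (fun t : ℂ => t • z) (𝓝[≠] 0) (𝓝 0) := by
          have : ContinuousAt (fun t : ℂ => t • z) 0 := by fun_prop
          have h3 := this.tendsto
          rw [zero_smul] at h3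
          exact h3.mono_left nhdsWithin_le_nhds
        exact hua.continuousAt.tendsto.comp h2
    have h2 : ∀ᶠ t in 𝓝[≠] (0:ℂ), (∏ i, ((t ^ mult (P i))⁻¹ * P i (t • z))) * u (t • z) = g z := by
      have h2 : Tendsto (fun t : ℂ => t • z) (𝓝[≠] 0) (𝓝 0) := by
        have : ContinuousAt (fun t : ℂ => t • z) 0 := by fun_prop
        have h3 := this.tendsto
        rw [zero_smul] at h3
        exact h3.mono_left nhdsWithin_le_nhds
      filter_upwards [h2.eventually hgP, self_mem_nhdsWithin] with t ht ht0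
      have ht0' : t ≠ 0 := ht0
      rw [Finset.prod_mul_distrib, mul_assoc, ← ht, hd, hdeg, Finset.prod_inv_distrib,
        Finset.prod_pow_eq_pow_sum, ← mul_assoc, inv_mul_cancel₀ (pow_ne_zero _ ht0'), one_mul]
    have h3 := tendsto_nhds_unique (h1.congr' h2) tendsto_const_nhds
    rw [← h3, Finset.prod_mul_distrib, hc]
    ring
  refine ⟨c, hc0, hgp, ?_⟩
  have hpa : ∀ i z, AnalyticAt ℂ (p i) z := fun i z => analyticAt_lead _ _ _
  -- simple points: `P i = 0` implies `p i = 0`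
  have hA : ∀ i, ∀ᶠ z in 𝓝 (0:E), P i z = 0 → p i z = 0 := by
    intro i
    have hgood : ∀ᶠ z in 𝓝 (0 : E), (∀ j, AnalyticAt ℂ (P j) z) ∧ AnalyticAt ℂ u z ∧ u z ≠ 0 ∧
        AnalyticAt ℂ g z ∧ (∀ᶠ w in 𝓝 z, g w = (∏ i, P i w) * u w) := by
      refine (Filter.eventually_all.2 fun j => (hPa j).eventually_analyticAt).and
        (hua.eventually_analyticAt.and ((hua.continuousAt.eventually_ne hu0).and
        (hg.1.eventually_analyticAt.and (eventually_eventually_nhds.2 hgP))))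
    obtain ⟨R, hR, hball⟩ := Metric.eventually_nhds_iff_ball.1 hgood
    have hsimple : ∀ z ∈ ball (0 : E) R, P i z = 0 → fderiv ℂ g z ≠ 0 → p i z = 0 := by
      intro z hz hPz hdg
      obtain ⟨a1, a2, a3, a4, a5⟩ := hball z hz
      -- the other factors do not vanish at `z`
      have hoth : (∏ j ∈ Finset.univ.erase i, P j z) * u z ≠ 0 := by
        intro h0
        apply hdg
        have h1 : AnalyticAt ℂ (fun w => (∏ j ∈ Finset.univ.erase i, P j w) * u w) z :=
          (Finset.analyticAt_fun_prod _ fun j _ => a1 j).mul a2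
        have h2 : g =ᶠ[𝓝 z] fun w => P i w * ((∏ j ∈ Finset.univ.erase i, P j w) * u w) := by
          filter_upwards [a5] with w hw
          rw [hw, ← Finset.mul_prod_erase Finset.univ (fun j => P j w) (Finset.mem_univ i),
            mul_assoc]
        have h3 : HasFDerivAt (fun w => P i w * ((∏ j ∈ Finset.univ.erase i, P j w) * u w))
            (P i z • fderiv ℂ (fun w => (∏ j ∈ Finset.univ.erase i, P j w) * u w) z +
              ((∏ j ∈ Finset.univ.erase i, P j z) * u z) • fderiv ℂ (P i) z) z :=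
          (a1 i).differentiableAt.hasFDerivAt.mul h1.differentiableAt.hasFDerivAt
        rw [h2.fderiv_eq, h3.fderiv, hPz, h0]
        ext v
        simp
      have hgz : g z = 0 := by
        rw [a5.self_of_nhds, Finset.prod_eq_zero (Finset.mem_univ i) hPz, zero_mul]
      -- the set of `t` with `t • z` in the ball
      let V : Set ℂ := {t : ℂ | t • z ∈ ball (0 : E) R}
      have hVconv : Convex ℝ V := by
        have : V = (fun t : ℂ => t • z) ⁻¹' ball (0 : E) R := rfl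
        rw [this]
        exact (convex_ball (0:E) R).is_linear_preimage
          (f := fun t : ℂ => t • z) ⟨fun a b => add_smul a b z, fun a b => by
            rw [smul_assoc]⟩
      have h1V : (1 : ℂ) ∈ V := by simpa [V] using hz
      have h0V : (0 : ℂ) ∈ V := by simpa [V] using hR
      have hVan : AnalyticOnNhd ℂ (fun t : ℂ => P i (t • z)) V := by
        intro t ht
        have h1 : AnalyticAt ℂ (fun t : ℂ => t • z) t := analyticAt_id.smul analyticAt_const
        exact AnalyticAt.fun_comp (g := P i) (f := fun t : ℂ => t • z) ((hball _ ht).1 i) h1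
      have hev : (fun t : ℂ => P i (t • z)) =ᶠ[𝓝 1] fun _ => 0 := by
        have h1 : Tendsto (fun t : ℂ => t • z) (𝓝 1) (𝓝 z) := by
          have : ContinuousAt (fun t : ℂ => t • z) 1 := by fun_prop
          have h3 := this.tendsto
          rwa [one_smul] at h3
        have h2 : ContinuousAt (fun w => (∏ j ∈ Finset.univ.erase i, P j w) * u w) z :=
          ((Finset.analyticAt_fun_prod _ fun j _ => a1 j).mul a2).continuousAt
        filter_upwards [h1.eventually a5, h1.eventually (h2.eventually_ne hoth)] with t b1 b2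
        rw [← Finset.mul_prod_erase Finset.univ (fun j => P j (t • z)) (Finset.mem_univ i),
          mul_assoc, hd, hgz, mul_zero] at b1
        exact (mul_eq_zero.1 b1.symm).resolve_right b2
      have hzero := hVan.eqOn_of_preconnected_of_eventuallyEq (g := fun _ => 0)
        (fun _ _ => analyticAt_const) hVconv.isPreconnected h1V hev
      have hVn : V ∈ 𝓝 (0 : ℂ) := by
        have h1 : ContinuousAt (fun t : ℂ => t • z) 0 := by fun_prop
        exact h1 (isOpen_ball.mem_nhds h0V)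
      have hlim := tendsto_lead (hPa i) (hPo i).1 z
      have hlim2 : Tendsto (fun t : ℂ => (t ^ mult (P i))⁻¹ * P i (t • z)) (𝓝[≠] 0) (𝓝 0) := by
        apply tendsto_const_nhds.congr'
        filter_upwards [mem_nhdsWithin_of_mem_nhds hVn] with t ht
        rw [show P i (t • z) = 0 from hzero ht, mul_zero]
      have h4 := tendsto_nhds_unique hlim hlim2
      refine (mul_eq_zero.1 h4).resolve_left (inv_ne_zero ?_)
      exact_mod_cast Nat.factorial_ne_zero _
    have hfr := frequently_simple hg.1 (hPa i) hg.reducedAt (by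
      filter_upwards [hgP] with z hz h0
      rw [hz, Finset.prod_eq_zero (Finset.mem_univ i) h0, zero_mul])
    filter_upwards [hfr, ball_mem_nhds (0 : E) hR] with z hz hzR hPz
    have h1 : ∃ᶠ q in 𝓝 z, p i q = 0 := by
      have h2 : ∀ᶠ q in 𝓝 z, q ∈ ball (0 : E) R := isOpen_ball.mem_nhds hzR
      refine ((hz hPz).and_eventually h2).mono fun q hq => hsimple q hq.2 hq.1.1 hq.1.2
    by_contra hne
    exact h1 ((hpa i z).continuousAt.eventually_ne hne)
  intro i
  -- conversely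
  have hB : ∀ᶠ z in 𝓝 (0:E), fderiv ℂ g z ≠ 0 → p i z = 0 → P i z = 0 := by
    filter_upwards [hgP, Filter.eventually_all.2 hA, hua.continuousAt.eventually_ne hu0]
      with z h1 h2 h3 h4 h5
    have hgz : g z = 0 := by
      rw [hgp, Finset.prod_eq_zero (Finset.mem_univ i) h5, mul_zero]
    rw [hgz] at h1
    have h6 : ∏ i, P i z = 0 := (mul_eq_zero.1 h1.symm).resolve_right h3
    obtain ⟨j, -, hj⟩ := Finset.prod_eq_zero_iff.1 h6
    have hpj : p j z = 0 := h2 j hj
    by_cases hij : j = i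
    · rw [← hij]; exact hj
    · exfalso
      have hd' : fderiv ℂ (fun w => ∏ j, p j w) z ≠ 0 := by
        intro h0
        apply h4
        have h7 : g = fun w => c * ∏ j, p j w := funext hgp
        have h8 : DifferentiableAt ℂ (fun w => ∏ j, p j w) z :=
          (Finset.analyticAt_fun_prod _ fun j _ => hpa j z).differentiableAt
        rw [h7, fderiv_const_mul h8, h0]
        ext v
        simp
      have h9 := (prod_facts (fun k => hpa k z) h5 hd').1
      rw [Finset.prod_ne_zero_iff] at h9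
      exact h9 j (Finset.mem_erase.2 ⟨hij, Finset.mem_univ _⟩) hpj
  have hfr := frequently_simple hg.1 (hpa i 0) hg.reducedAt (Eventually.of_forall fun z h0 => by
    rw [hgp, Finset.prod_eq_zero (Finset.mem_univ i) h0, mul_zero])
  filter_upwards [hfr, hA i, eventually_eventually_nhds.2 hB, (hPa i).eventually_analyticAt]
    with z h1 h2 h3 h4
  refine ⟨h2, fun h5 => ?_⟩
  by_contra hne
  have h6 : ∃ᶠ q in 𝓝 z, P i q = 0 :=
    ((h1 h5).and_eventually h3).mono fun q hq => hq.2 hq.1.2 hq.1.1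
  exact h6 (h4.continuousAt.eventually_ne hne)

/-- If `f` is in class T and `g` is homogeneous, then `g` is in class T. -/
theorem classT_of_homog {f g : E → ℂ} (hf : Red f) (hg : Red g) (hfg : AmbHomeo f g)
    (hT : ClassT f) (hH : Homog g) : ClassT g := by
  classical
  have : CompleteSpace E := FiniteDimensional.complete ℂ E
  obtain ⟨r, F, hF, hfF, hcurve⟩ := hT
  obtain ⟨P, u, φ, S, hgP⟩ := exists_setup hf hg hfg (fun i => (hF i).1) (fun i => (hF i).2) hfF
  obtain ⟨d, hd⟩ := hH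
  obtain ⟨c, hc, hgc, hPp⟩ := cone_factor hg hd S.hPa S.hua S.hu0 hgP
  have hr : r ≠ 0 := by
    rintro rfl
    have h1 := hgc 0
    rw [hg.2.1, Finset.univ_eq_empty, Finset.prod_empty, mul_one] at h1
    exact hc h1.symm
  obtain ⟨e, he⟩ := IsAlgClosed.exists_pow_nat_eq c (Nat.pos_of_ne_zero hr)
  have he0 : e ≠ 0 := by
    rintro rfl
    rw [zero_pow hr] at he
    exact hc he.symm
  let G : Fin r → E → ℂ := fun i z => e * lead (mult (P i)) (P i) z
  have hGs : ∀ i (a : ℂ) z, G i (a • z) = a ^ mult (P i) * G i z := by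
    intro i a z
    simp only [G, lead_smul]
    ring
  have hGa : ∀ i, AnalyticAt ℂ (G i) 0 := fun i => analyticAt_const.mul (analyticAt_lead _ _ _)
  have hG0' : ∀ i z, G i z = 0 ↔ lead (mult (P i)) (P i) z = 0 := by
    intro i z
    simp only [G, mul_eq_zero, he0, false_or]
  have hPG : ∀ i, ∀ᶠ z in 𝓝 0, P i z = 0 ↔ G i z = 0 := by
    intro i
    filter_upwards [hPp i] with z hz
    rw [hG0', hz]
  have hG0 : ∀ i, G i 0 = 0 := fun i => (hPG i).self_of_nhds.1 (S.hP0 i)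
  refine ⟨r, G, fun i => ⟨hGa i, hG0 i⟩, Eventually.of_forall fun z => ?_, fun q => ?_⟩
  · simp only [G]
    rw [Finset.prod_mul_distrib, Finset.prod_const, Finset.card_univ, Fintype.card_fin, he, hgc]
  · obtain ⟨J, i, γ, hγ, hγ0, hγd, h1, h2, hν⟩ := hcurve q
    have hγt : Tendsto γ (𝓝 0) (𝓝 0) := by
      have := hγ.continuousAt.tendsto
      rwa [hγ0] at this
    -- a good point of the curve
    have hFq : ∀ᶠ t in 𝓝[≠] (0 : ℂ), F q (γ t) ≠ 0 := by
      have h3 : AnalyticAt ℂ (fun t => F q (γ t)) 0 := analyticAt_comp_curve (S.hFa q) hγ hγ0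
      rcases h3.eventually_eq_zero_or_eventually_ne_zero with h4 | h4
      · exfalso
        rw [analyticOrderAt_eq_top.2 h4] at hν
        exact ENat.top_ne_natCast _ hν
      · exact h4
    have hPGφ : ∀ᶠ t in 𝓝 (0 : ℂ), ∀ j, (F j (γ t) = 0 ↔ G j (φ (γ t)) = 0) := by
      rw [Filter.eventually_all]
      intro j
      filter_upwards [hγt.eventually (S.hFP j), (S.tend.comp hγt).eventually (hPG j)] with t a1 a2
      rw [a1]; exact a2
    obtain ⟨t₀, b1, b2, b3⟩ := (hFq.and (nhdsWithin_le_nhds (hPGφ.and h1))).exists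
    set w : E := φ (γ t₀) with hw
    have hGq : G q w ≠ 0 := fun h0 => b1 ((b2 q).2 h0)
    have hw0 : w ≠ 0 := by
      intro h0
      rw [h0] at hGq
      exact hGq (hG0 q)
    refine ⟨J, i, fun s => s • w, analyticAt_id.smul analyticAt_const, zero_smul _ _, ?_, ?_, ?_,
      ?_⟩
    · have h3 : HasDerivAt (fun s : ℂ => s • w) ((1 : ℂ) • w) 0 := (hasDerivAt_id 0).smul_const w
      rw [h3.deriv, one_smul]
      exact hw0
    · refine Eventually.of_forall fun s j hj => ?_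
      rw [hGs, (b2 j).1 (b3 j hj), mul_zero]
    · have h4 : ∀ᶠ z in 𝓝 (0 : E), ∀ j, (G j z = 0 ↔ F j (φ.symm z) = 0) := by
        rw [Filter.eventually_all]
        intro j
        filter_upwards [S.hPF j, hPG j] with z a1 a2
        rw [← a2, a1]
      filter_upwards [h4, S.tend_symm.eventually h2, φ.open_target.mem_nhds S.h0t]
        with z a1 a2 a3 a4 a5
      have h5 : φ.symm z = 0 := a2 (fun j hj => (a1 j).1 (a4 j hj)) ((a1 i).1 a5)
      rw [← φ.right_inv a3, h5, S.hφ0]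
    · rw [(isOrd_of_homog (hGa q) (hGs q) hGq).mult_eq]
      rw [(analyticAt_line (hGa q) w).analyticOrderAt_eq_natCast]
      refine ⟨fun _ => G q w, analyticAt_const, hGq, Eventually.of_forall fun t => ?_⟩
      simp [hGs]

/-- Class T against a homogeneous germ. -/
theorem theoremT_homog {f g : E → ℂ} (hf : Red f) (hg : Red g) (hfg : AmbHomeo f g)
    (hT : ClassT f) (hH : Homog g) : mult f = mult g :=
  theoremT_eq hf hg hfg hT (classT_of_homog hf hg hfg hT hH)

end

end Vale.Agent.P268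
end
end
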